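import Vale.Agent.P269.Map.Gy
import Vale.Agent.P269.Map.SQD

set_option linter.unusedSectionVars false
set_option linter.style.haveILetI false

/-!
# Families of comparison maps, proper maps
-/

namespace Vale.Agent.P269.Ch.KD

open Set Function Topology Filter Module Vale.Agent.P291Z Vale.Agent.P269.Orb Holo

namespace VrA

variable {X P P' α : Type} [TopologicalSpace X] [AddCommGroup P] [Module ℂ P] [TopologicalSpace P]
  [IsTopologicalAddGroup P] [ContinuousSMul ℂ P] [T2Space P] [AddCommGroup P'] [Module ℂ P']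
  [TopologicalSpace P'] [IsTopologicalAddGroup P'] [ContinuousSMul ℂ P'] {P₀ : Submodule ℂ P}
  [FiniteDimensional ℂ P₀] {B : X → P →ₗ[ℂ] P'} {l : Filter α}

theorem clo_iff {s t : Set X} (h : IsClosed s) (e : ∀ x, x ∈ s ↔ x ∈ t) : IsClosed t :=
  Set.ext e ▸ h

theorem tendsto_mk {p : X → Prop} {y : α → X} {x : X} (hy : ∀ a, p (y a)) (hx : p x)
    (h : Tendsto y l (𝓝 x)) : Tendsto (fun a => (⟨y a, hy a⟩ : Subtype p)) l (𝓝 ⟨x, hx⟩) :=
  tendsto_subtype_rng.2 h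

/-- joint continuity on a finite dimensional space -/
theorem cont₂ (h : ∀ w ∈ P₀, Continuous fun x => B x w) :
    Continuous fun z : X × P₀ => B z.1 z.2 := by
  let b := Module.finBasis ℂ P₀
  have e : ∀ z : X × P₀, ∑ r, b.coord r z.2 • B z.1 (b r) = B z.1 z.2 := fun z => by
    conv_rhs => rw [← b.sum_repr z.2, Submodule.coe_sum, map_sum]
    simp only [Submodule.coe_smul, map_smul, Basis.coord_apply]
  exact (continuous_finsetSum _ fun r _ => ((b.coord r).continuous_of_finiteDimensional.comp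
    continuous_snd).smul ((h _ (b r).2).comp continuous_fst)).congr e

theorem tendsto₂ (h : ∀ w ∈ P₀, Continuous fun x => B x w) {y : α → X} {x : X} {u : α → P} {w : P}
    (hu : ∀ a, u a ∈ P₀) (hw : w ∈ P₀) (h1 : Tendsto y l (𝓝 x)) (h2 : Tendsto u l (𝓝 w)) :
    Tendsto (fun a => B (y a) (u a)) l (𝓝 (B x w)) :=
  ((cont₂ h).tendsto (x, ⟨w, hw⟩)).comp
    (h1.prodMk_nhds (tendsto_mk hu hw h2))

theorem isClosed_comap (h : ∀ w ∈ P₀, Continuous fun x => B x w) {C : Set (X × P')}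
    (hC : IsClosed C) : IsClosed {z : X × P | z.2 ∈ P₀ ∧ (z.1, B z.1 z.2) ∈ C} := by
  have h1 := (IsClosedEmbedding.id.prodMap
    P₀.closed_of_finiteDimensional.isClosedEmbedding_subtypeVal).isClosedMap _
    (hC.preimage (continuous_fst.prodMk (cont₂ h)))
  refine clo_iff h1 fun z => ⟨?_, fun a => ⟨(z.1, ⟨z.2, a.1⟩), a.2, rfl⟩⟩
  rintro ⟨z, a, rfl⟩
  exact ⟨z.2.2, a⟩

variable [T2Space P'] {P₀' : Submodule ℂ P'} [FiniteDimensional ℂ P₀']

/-- families of injections are proper -/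
theorem tendsto_of_inj [l.NeBot] (h : ∀ w ∈ P₀, Continuous fun x => B x w)
    (mem : ∀ x, ∀ w ∈ P₀, B x w ∈ P₀') {y : α → X} {x : X} (inj : ∀ w ∈ P₀, B x w = 0 → w = 0)
    {u : α → P} {v : P'} (hu : ∀ a, u a ∈ P₀) (h1 : Tendsto y l (𝓝 x))
    (h2 : Tendsto (fun a => B (y a) (u a)) l (𝓝 v)) :
    ∃ w ∈ P₀, Tendsto u l (𝓝 w) ∧ B x w = v := by
  let e : P₀ ≃L[ℂ] (Fin (finrank ℂ P₀) → ℂ) := (Module.finBasis ℂ P₀).equivFun.toContinuousLinearEquiv
  obtain ⟨j, hj⟩ := (B x ∘ₗ P₀.subtype ∘ₗ e.symm.toLinearMap).exists_leftInverse_of_injective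
    (LinearMap.ker_eq_bot'.2 fun c hc => by
      simpa using congrArg e (Subtype.ext (inj _ (e.symm c).2 hc) : e.symm c = 0))
  have hv : v ∈ P₀' := P₀'.closed_of_finiteDimensional.mem_of_tendsto h2
    (.of_forall fun a => mem _ _ (hu a))
  have c1 : ∀ w ∈ P₀', Continuous fun _ : X => j w := fun _ _ => continuous_const
  let M : X → (Fin (finrank ℂ P₀) → ℂ) →L[ℂ] (Fin (finrank ℂ P₀) → ℂ) := fun z =>
    LinearMap.toContinuousLinearMap (j ∘ₗ B z ∘ₗ P₀.subtype ∘ₗ e.symm.toLinearMap)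
  have c2 : Continuous M := continuous_clm_apply.2 fun c => continuous_iff_continuousAt.2 fun z =>
    tendsto₂ (B := fun _ : X => j) c1 (fun z => mem z _ (e.symm c).2) (mem z _ (e.symm c).2)
      tendsto_id ((h _ (e.symm c).2).tendsto z)
  have c3 : M x = 1 := ContinuousLinearMap.ext fun c => LinearMap.congr_fun hj c
  have c4 : Tendsto (fun a => M (y a)) l (𝓝 1) := c3 ▸ (c2.tendsto x).comp h1
  have c5 := ((continuous_fst.clm_apply continuous_snd).tendsto _).comp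
    (((NormedRing.inverse_continuousAt 1).tendsto.comp c4).prodMk_nhds
      (tendsto₂ (B := fun _ : X => j) c1 (fun a => mem _ _ (hu a)) hv h1 h2))
  have c6 : Tendsto (fun a => e ⟨u a, hu a⟩) l (𝓝 _) := c5.congr'
    ((c4.eventually (Units.isOpen.mem_nhds isUnit_one)).mono fun a ha => by
      have := DFunLike.congr_fun (Ring.inverse_mul_cancel _ ha) (e ⟨u a, hu a⟩)
      simpa [M] using this)
  have c7 := ((continuous_subtype_val.comp e.symm.continuous).tendsto _).comp c6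
  have c8 : Tendsto u l (𝓝 _) := c7.congr fun a => by simp
  exact ⟨_, Subtype.prop _, c8, tendsto_nhds_unique (tendsto₂ h hu (Subtype.prop _) h1 c8) h2⟩

theorem isClosed_map (h : ∀ w ∈ P₀, Continuous fun x => B x w)
    (mem : ∀ x, ∀ w ∈ P₀, B x w ∈ P₀') (inj : ∀ x, ∀ w ∈ P₀, B x w = 0 → w = 0) {C : Set (X × P)}
    (hC : IsClosed C) (le : ∀ z ∈ C, z.2 ∈ P₀) :
    IsClosed {z : X × P' | ∃ w, (z.1, w) ∈ C ∧ B z.1 w = z.2} := by
  refine isClosed_iff_clusterPt.2 fun z hz => ?_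
  let S := {z : X × P' | ∃ w, (z.1, w) ∈ C ∧ B z.1 w = z.2}
  haveI : (comap (Subtype.val : S → X × P') (𝓝 z)).NeBot := mem_closure_iff_comap_neBot.1
    (mem_closure_iff_clusterPt.2 hz)
  have h1 : Tendsto (Subtype.val : S → X × P') (comap Subtype.val (𝓝 z)) (𝓝 z) := tendsto_comap
  choose u hu using fun a : S => a.2
  obtain ⟨w, -, h2, h3⟩ := tendsto_of_inj h mem (inj z.1) (fun a => le _ (hu a).1)
    ((continuous_fst.tendsto z).comp h1)
    (((continuous_snd.tendsto z).comp h1).congr fun a => (hu a).2.symm)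
  exact ⟨w, hC.mem_of_tendsto (((continuous_fst.tendsto z).comp h1).prodMk_nhds h2)
    (.of_forall fun a => (hu a).1), h3⟩

omit [TopologicalSpace P] [IsTopologicalAddGroup P] [ContinuousSMul ℂ P] [T2Space P]
  [TopologicalSpace P'] [IsTopologicalAddGroup P'] [ContinuousSMul ℂ P'] [T2Space P'] in
theorem finrank_comap {L : P →ₗ[ℂ] P'} (h : P₀.map L = P₀') {S : Submodule ℂ P'} (hS : S ≤ P₀') :
    finrank ℂ (P₀ ⊓ S.comap L : Submodule ℂ P) = finrank ℂ P₀ - finrank ℂ P₀' + finrank ℂ S := by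
  haveI := Submodule.finiteDimensional_of_le (inf_le_left : P₀ ⊓ S.comap L ≤ P₀)
  have h1 := finrank_inf_ker' P₀ L
  have h2 := finrank_inf_ker' (P₀ ⊓ S.comap L) L
  rw [← Submodule.map_inf_eq_map_inf_comap, h, inf_eq_right.2 hS, inf_assoc,
    inf_eq_right.2 (LinearMap.ker_le_comap L)] at h2
  rw [h] at h1
  omega

end VrA

open VrA

variable {A A' W W' P P' : Type} [NormedRing A] [NormedAlgebra ℂ A] [NormedAddCommGroup W]
  [NormedSpace ℂ W] [NormedRing A'] [NormedAlgebra ℂ A'] [NormedAddCommGroup W'] [NormedSpace ℂ W']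
  [AddCommGroup P] [Module ℂ P]
  [TopologicalSpace P] [IsTopologicalAddGroup P] [ContinuousSMul ℂ P] [T2Space P]
  [AddCommGroup P'] [Module ℂ P'] [TopologicalSpace P'] [IsTopologicalAddGroup P']
  [ContinuousSMul ℂ P'] [T2Space P'] [FiniteDimensional ℂ A] [FiniteDimensional ℂ W]
  [FiniteDimensional ℂ A'] [FiniteDimensional ℂ W'] {act : A → W → W}
  {act' : A' → W' → W'} {Z O M : Set W} {Z' O' : Set W'} {D : KD A W P}
  {D' : KD A W P'} {n r n' r' d : ℕ}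

/-- A family of comparison maps over `O`. -/
structure LinF (D : KD A W P) (D' : KD A W P') (act : A → W → W) (O : Set W)
    (B : W → P →ₗ[ℂ] P') : Prop where
  mem : ∀ x ∈ O, ∀ w ∈ D.P₀, B x w ∈ D'.P₀
  cont : ∀ w ∈ D.P₀, ContinuousOn (fun x => B x w) O
  eqv : ∀ x ∈ O, ∀ a, IsUnit a → ∀ w ∈ D.P₀, B (act a x) (D.ρ a w) = D'.ρ a (B x w)
  van : ∀ x ∈ O, ∀ w ∈ D.van x, B x w ∈ D'.van x
  sec : ∀ x ∈ O, B x (D.s x) - D'.s x ∈ D'.van x
  obs : ∀ x ∈ O, D.s x ∈ D.van x → ∀ w ∈ D.obs x, B x w ∈ D'.obs x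

/-- **isomorphic obstruction bundles** -/
theorem Gd.vr_congr (h : D.Gd act Z O n r) (h' : D'.Gd act Z O n' r) {B : W → P →ₗ[ℂ] P'}
    (hB : D.LinF D' act O B) (hi : ∀ x ∈ Z, ∀ w ∈ D.obs x, B x w ∈ D'.van x → w ∈ D.van x) :
    D.vr act Z O = D'.vr act Z O := by
  obtain ⟨k, i, hk, -, e, h1⟩ := h.exists_isKP
  obtain ⟨k', i', hk', -, e', h1'⟩ := h'.exists_isKP
  obtain ⟨L, hL, eL⟩ := hk'.exists_hom hk (Mor.id _) (fun t => B t.1) (fun t => hB.mem _ t.2)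
    (fun w hw => (hB.cont w hw).domRestrict) (fun (g : Aˣ) t => hB.eqv _ t.2 g g.isUnit)
    (fun t w _ => hB.van _ t.2 w) (fun t => hB.sec _ t.2)
    fun t ht w _ => hB.obs _ t.2 (hk.mem_Zs.1 ht) w
  rw [h1, h1']
  exact (KP.Cmp.of_id (hL.cmp (fun t ht w hw a => (hk.van _ _).2 (hi _ ((h.dom.mem_Zs hk).1 ht) _
    ((hk.obs t ht w).1 hw) (eL t w ▸ (hk'.van _ _).1 a))) (e.trans e'.symm))).vir_id (h.dom.isZ hk)

/-- The axioms pull back along a family of surjections. -/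
theorem Ok.comap (h : D'.Ok act O n' r) {B : W → P →ₗ[ℂ] P'} [FiniteDimensional ℂ D.P₀]
    (rep : IsRepOn D.ρ D.P₀) (hi : Ivt act O) (mem : ∀ x ∈ O, D.P₀.map (B x) = D'.P₀)
    (cont : ∀ w ∈ D.P₀, ContinuousOn (fun x => B x w) O)
    (eqv : ∀ x ∈ O, ∀ a, IsUnit a → ∀ w ∈ D.P₀, B (act a x) (D.ρ a w) = D'.ρ a (B x w))
    (van : ∀ x ∈ O, D.van x = D.P₀ ⊓ (D'.van x).comap (B x))
    (s_mem : ∀ x ∈ O, D.s x ∈ D.P₀) (s_cont : ContinuousOn D.s O)
    (s_eqv : ∀ x ∈ O, ∀ a, IsUnit a → D.s (act a x) = D.ρ a (D.s x))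
    (sec : ∀ x ∈ O, B x (D.s x) - D'.s x ∈ D'.van x)
    (obs : ∀ x ∈ O, D.s x ∈ D.van x → D.obs x = D.P₀ ⊓ (D'.obs x).comap (B x)) :
    D.Ok act O (finrank ℂ D.P₀ - finrank ℂ D'.P₀ + n') r := by
  haveI := h.fin
  have c : ∀ w ∈ D.P₀, Continuous fun x : O => B x w := fun w hw => (cont w hw).domRestrict
  have v : ∀ x ∈ O, ∀ w, w ∈ D.van x ↔ w ∈ D.P₀ ∧ B x w ∈ D'.van x := fun x hx w => by
    rw [van x hx]
    rfl
  have o : ∀ x ∈ O, D.s x ∈ D.van x → ∀ w, w ∈ D.obs x ↔ w ∈ D.P₀ ∧ B x w ∈ D'.obs x :=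
    fun x hx hs w => by
      rw [obs x hx hs]
      rfl
  have z : ∀ x ∈ O, D.s x ∈ D.van x ↔ D'.s x ∈ D'.van x := fun x hx => by
    rw [v x hx, and_iff_right (s_mem x hx)]
    exact ⟨fun a => by simpa using sub_mem a (sec x hx), fun a => by simpa using add_mem (sec x hx) a⟩
  refine ⟨‹_›, rep, ⟨fun x hx w hw => ((v x hx w).1 hw).1,
      clo_iff (isClosed_comap c h.fam.closed) fun y => (v _ y.1.2 _).symm,
      fun x hx => by rw [van x hx, finrank_comap (mem x hx) (h.fam.le x hx), h.fam.rank x hx],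
      fun x hx a ha w hw => ?_⟩, s_mem, s_cont, s_eqv,
    clo_iff (isClosed_comap c h.obs_closed) fun y => ?_, fun x hx hs => ?_,
    fun x hx hs a ha w hw => ?_, fun x hx hs w hw => ?_, fun x hx hs w hw => ((o x hx hs w).1 hw).1,
    fun x hx hs w y a u h1 h2 h3 h4 => ?_⟩
  · obtain ⟨h1, h2⟩ := (v x hx w).1 hw
    exact (v _ (hi a ha x hx) _).2 ⟨rep.mem a ha w h1, eqv x hx a ha w h1 ▸ h.fam.inv x hx a ha _ h2⟩
  · exact ⟨fun a => have b := (z _ y.1.2).2 a.2.1; ⟨b, (o _ y.1.2 b _).2 ⟨a.1, a.2.2⟩⟩,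
      fun a => have b := (o _ y.1.2 a.1 _).1 a.2; ⟨b.1, (z _ y.1.2).1 a.1, b.2⟩⟩
  · rw [obs x hx hs, finrank_comap (mem x hx) (h.obs_le x hx ((z x hx).1 hs)),
      h.obs_rank x hx ((z x hx).1 hs), add_assoc]
  · obtain ⟨h1, h2⟩ := (o x hx hs w).1 hw
    have h3 := hi a ha x hx
    exact (o _ h3 ((z _ h3).2 (h.eqv x hx a ha ▸ h.fam.inv x hx a ha _ ((z x hx).1 hs))) _).2
      ⟨rep.mem a ha w h1, eqv x hx a ha w h1 ▸ h.obs_inv x hx ((z x hx).1 hs) a ha _ h2⟩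
  · exact (o x hx hs w).2 (((v x hx w).1 hw).imp_right fun b => h.le_obs x hx ((z x hx).1 hs) b)
  · have h5 : ∀ m, a m • D.s (y m) + u m ∈ D.P₀ := fun m =>
      add_mem (D.P₀.smul_mem _ (s_mem _ (h1 m))) ((v _ (h1 m) _).1 (h3 m)).1
    have h6 : w ∈ D.P₀ := D.P₀.closed_of_finiteDimensional.mem_of_tendsto h4 (.of_forall h5)
    refine (o x hx hs w).2 ⟨h6, h.cone x hx ((z x hx).1 hs) _ y a
      (fun m => a m • (B (y m) (D.s (y m)) - D'.s (y m)) + B (y m) (u m)) h1 h2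
      (fun m => add_mem ((D'.van _).smul_mem _ (sec _ (h1 m))) ((v _ (h1 m) _).1 (h3 m)).2)
      ((tendsto₂ c h5 h6 (tendsto_mk h1 hx h2) h4).congr fun m => ?_)⟩
    rw [map_add, map_smul, smul_sub, ← add_assoc, add_sub_cancel]

/-- The axioms push forward along a family of injections. -/
theorem Ok.map (h : D.Ok act O n r) {B : W → P →ₗ[ℂ] P'} [FiniteDimensional ℂ D'.P₀]
    (rep : IsRepOn D'.ρ D'.P₀) (hi : Ivt act O) (mem : ∀ x ∈ O, ∀ w ∈ D.P₀, B x w ∈ D'.P₀)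
    (cont : ∀ w ∈ D.P₀, ContinuousOn (fun x => B x w) O)
    (eqv : ∀ x ∈ O, ∀ a, IsUnit a → ∀ w ∈ D.P₀, B (act a x) (D.ρ a w) = D'.ρ a (B x w))
    (inj : ∀ x ∈ O, ∀ w ∈ D.P₀, B x w = 0 → w = 0)
    (van : ∀ x ∈ O, D'.van x = (D.van x).map (B x)) (sec : ∀ x ∈ O, D'.s x = B x (D.s x))
    (obs : ∀ x ∈ O, D.s x ∈ D.van x → D'.obs x = (D.obs x).map (B x)) : D'.Ok act O n r := by
  haveI := h.fin
  have c : ∀ w ∈ D.P₀, Continuous fun x : O => B x w := fun w hw => (cont w hw).domRestrict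
  have m : ∀ x : O, ∀ w ∈ D.P₀, B x w ∈ D'.P₀ := fun x => mem x x.2
  have z : ∀ x ∈ O, D'.s x ∈ D'.van x ↔ D.s x ∈ D.van x := fun x hx => by
    rw [van x hx, sec x hx]
    exact ⟨fun ⟨w, a, b⟩ => sub_eq_zero.1 (inj x hx _ (sub_mem (h.fam.le x hx a) (h.mem x hx))
      ((map_sub _ _ _).trans (sub_eq_zero.2 b))) ▸ a, fun a => ⟨_, a, rfl⟩⟩
  have e : ∀ x ∈ O, ∀ a, IsUnit a → ∀ {S S' : Submodule ℂ P}, S ≤ D.P₀ →
      (∀ w ∈ S, D.ρ a w ∈ S') → ∀ w ∈ S.map (B x), D'.ρ a w ∈ S'.map (B (act a x)) := by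
    rintro x hx a ha S S' h1 h2 _ ⟨w, hw, rfl⟩
    exact ⟨_, h2 w hw, eqv x hx a ha w (h1 hw)⟩
  have l : ∀ x ∈ O, ∀ {S : Submodule ℂ P}, S ≤ D.P₀ → S.map (B x) ≤ D'.P₀ := by
    rintro x hx S h1 _ ⟨w, hw, rfl⟩
    exact mem x hx w (h1 hw)
  refine ⟨‹_›, rep, ⟨fun x hx => van x hx ▸ l x hx (h.fam.le x hx),
      clo_iff (isClosed_map c m (fun x => inj x x.2) h.fam.closed fun y a => h.fam.le _ y.1.2 a)
        fun y => (SetLike.ext_iff.1 (van _ y.1.2) y.2).symm,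
      fun x hx => by
        rw [van x hx, finrank_map_of_inj fun w hw => inj x hx w (h.fam.le x hx hw), h.fam.rank x hx],
      fun x hx a ha => ?_⟩, fun x hx => sec x hx ▸ mem x hx _ (h.mem x hx),
    continuousOn_iff_continuous_domRestrict.2 (((cont₂ c).comp (continuous_id.prodMk
      (h.cont.domRestrict.subtype_mk fun x => h.mem x x.2))).congr fun x => (sec _ x.2).symm),
    fun x hx a ha => ?_, clo_iff (isClosed_map c m (fun x => inj x x.2)
      h.obs_closed fun y a => h.obs_le _ y.1.2 a.1 a.2) fun y => ?_, fun x hx hs => ?_,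
    fun x hx hs a ha => ?_, fun x hx hs => ?_,
    fun x hx hs => obs x hx ((z x hx).1 hs) ▸ l x hx (h.obs_le x hx ((z x hx).1 hs)),
    fun x hx hs w y a u h1 h2 h3 h4 => ?_⟩
  · rw [van x hx, van _ (hi a ha x hx)]
    exact e x hx a ha (h.fam.le x hx) (h.fam.inv x hx a ha)
  · rw [sec x hx, sec _ (hi a ha x hx), h.eqv x hx a ha, eqv x hx a ha _ (h.mem x hx)]
  · exact ⟨fun ⟨w, a, b⟩ => ⟨(z _ y.1.2).2 a.1, (obs _ y.1.2 a.1).ge ⟨w, a.2, b⟩⟩, fun a =>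
      have b := (z _ y.1.2).1 a.1
      let ⟨w, p, q⟩ := (obs _ y.1.2 b).le a.2
      ⟨w, ⟨b, p⟩, q⟩⟩
  · have h1 := (z x hx).1 hs
    rw [obs x hx h1, finrank_map_of_inj fun w hw => inj x hx w (h.obs_le x hx h1 hw),
      h.obs_rank x hx h1]
  · have h1 := (z x hx).1 hs
    rw [obs x hx h1, obs _ (hi a ha x hx) (h.eqv x hx a ha ▸ h.fam.inv x hx a ha _ h1)]
    exact e x hx a ha (h.obs_le x hx h1) (h.obs_inv x hx h1 a ha)
  · rw [van x hx, obs x hx ((z x hx).1 hs)]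
    exact Submodule.map_mono (h.le_obs x hx ((z x hx).1 hs))
  · choose u' h5 h6 using fun k => (van _ (h1 k)).le (h3 k)
    obtain ⟨w', -, h7, rfl⟩ := tendsto_of_inj c m (x := ⟨x, hx⟩) (inj x hx)
      (u := fun k => a k • D.s (y k) + u' k) (fun k => add_mem (D.P₀.smul_mem _ (h.mem _ (h1 k)))
        (h.fam.le _ (h1 k) (h5 k)))
      (tendsto_mk h1 hx h2)
      (h4.congr fun k => by rw [map_add, map_smul, h6, sec _ (h1 k)])
    exact (obs x hx ((z x hx).1 hs)).ge ⟨w', h.cone x hx ((z x hx).1 hs) w' y a u' h1 h2 h5 h7, rfl⟩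

theorem Ok.pb' (h : D.Ok act O n r) {θ : A' → A} {f : W' → W} (hf : EqM act' act O' O θ f) :
    (D.pb θ f).Ok act' O' n r :=
  let ⟨θ', c, e⟩ := hf.hom
  h.pb θ' c (fun g => (e g).symm) hf.cont hf.maps fun x hx a ha => hf.eqv a ha x hx

/-- **proper maps** -/
theorem Gd.vr_push (h : D.Gd act Z O n r) {θ : A' → A} {f : W' → W} (hf : EqM act' act O' O θ f)
    (h' : (D.pb θ f).Gd act' Z' O' n' r') (hp : IsPr hf.map) (hZ : MapsTo f Z' Z)
    (β : BM (Quo act' O')) :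
    IsPr (hf.mono h'.dom.sub hZ).map ∧ push (hf.mono h'.dom.sub hZ).map ((D.pb θ f).vr act' Z' O' β) =
      D.vr act Z O (push hf.map β) := by
  obtain ⟨k, i, hk, -, -, h1⟩ := h.exists_isKP
  obtain ⟨θ', c, e⟩ := hf.hom
  let m : Mor h'.dom.sp h.dom.sp := ⟨θ', fun x => ⟨f x.1, hf.maps x.2⟩, c,
    hf.cont.domRestrict.subtype_mk _, fun (g : A'ˣ) x =>
      Subtype.ext ((hf.eqv _ g.isUnit _ x.2).trans (congrArg (act · _) (e g).symm))⟩
  have h2 : ⇑hf.map = m.map := m.map_eq fun _ => rfl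
  have hk' : h'.dom.IsKP (k.pb m) i := isKP_pb.2 ((funext e : _ = _) ▸ hk.pb m)
  have h3 : ∀ z, m.map (Quo.incl act' h'.dom.sub z) =
      Quo.incl act h.dom.sub ((hf.mono h'.dom.sub hZ).map z) := fun z =>
    Quot.inductionOn z fun x => m.map_π _
  rw [h2] at hp
  rw [h1, h'.dom.vr_eq hk', h2]
  exact ⟨isPr_of_comp (h.dom.isZ hk).emb.isEmbedding h3
    (hp.comp (.of_isClosedEmbedding (h'.dom.isZ hk').emb)), ((k.cmp_pb m).vir_push hp (h.dom.isZ hk)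
      (h'.dom.isZ hk') h3 (fun z hz => (h'.dom.range_incl hk').ge
        ((k.Z_pb m).ge ((h.dom.range_incl hk).le hz))) β).symm⟩

end Vale.Agent.P269.Ch.KD
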