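import Vale.Agent.P269.Glu.Gl
import Vale.Agent.P269.Glu.VrA
import Vale.Agent.P269.Vir.KP

set_option linter.unusedSectionVars false

/-!
# The equations at the two branches of a labelled node
-/

namespace Vale.Agent.P269.Ch.PwS

open P291Z Set Function Topology Filter Module Base Cv Holo Vir KD MvPolynomial

variable {S Λ R J K ι ν κ κ' α : Type} [Fintype S] [Fintype Λ] [Fintype R] [Fintype J]
  [Fintype K] [Fintype ι] [DecidableEq ι] [Fintype ν] [Fintype κ] [Fintype κ']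
  {ch : Ch ι J} {n : Nm ι J} {F : Fam S Λ R J K} {e : K → ι → ℕ} {l : Filter α}

theorem finrank_split {V V' : Type} [AddCommGroup V] [Module ℂ V] [AddCommGroup V'] [Module ℂ V']
    (U : Submodule ℂ (V × V')) [FiniteDimensional ℂ U] :
    finrank ℂ U = finrank ℂ (U.map (LinearMap.fst ℂ V V')) +
      finrank ℂ (U.comap (LinearMap.inr ℂ V V')) := by
  rw [← finrank_inf_ker' U (LinearMap.fst ℂ V V'), LinearMap.ker_fst, inf_comm,
    ← Submodule.map_comap_eq, finrank_map_of_inj fun w _ h => congrArg Prod.snd h]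

theorem tendsto_ap {A B : Type} [NormedAddCommGroup A] [NormedSpace ℂ A] [NormedAddCommGroup B]
    [NormedSpace ℂ B] {f : α → A →L[ℂ] B} {f₀ : A →L[ℂ] B} {v : α → A} {v₀ : A}
    (h : Tendsto f l (𝓝 f₀)) (h' : Tendsto v l (𝓝 v₀)) :
    Tendsto (fun a => f a (v a)) l (𝓝 (f₀ v₀)) :=
  ((continuous_fst.clm_apply continuous_snd).tendsto (f₀, v₀)).comp (h.prodMk_nhds h')

theorem tendsto_dEq {Z : Type} {Θ : J → Type} [∀ j, AddCommGroup (Θ j)] [∀ j, Module ℂ (Θ j)]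
    {d : α → PD K Z Θ} {d₀ : PD K Z Θ} (t : PD.Tends d l d₀ univ) (pw : Z → ∀ j, Θ j)
    {Y : α → ∀ j, Θ j →ₗ[ℂ] ℂ} {Y₀ : ∀ j, Θ j →ₗ[ℂ] ℂ}
    (h : ∀ j m, Tendsto (fun a => Y a j m) l (𝓝 (Y₀ j m))) :
    Tendsto (fun a => (d a).dEq pw (Y a)) l (𝓝 (d₀.dEq pw Y₀)) :=
  Tendsto.prodMk_nhds (tendsto_pi_nhds.2 fun j => tendsto_pi_nhds.2 fun _ =>
    ((t.tv j trivial _).mul (h j _)).sub ((t.tv j trivial _).mul (h j _)))
    (tendsto_pi_nhds.2 fun k => tendsto_pi_nhds.2 fun z =>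
      tendsto_finsetSum _ fun j _ => (t.D k z j trivial).mul (h j _))

theorem pd_ext {Z : Type} {Θ : J → Type} [∀ j, AddCommGroup (Θ j)] [∀ j, Module ℂ (Θ j)]
    {d d' : PD K Z Θ} (h1 : d.tv = d'.tv) (h2 : ∀ k z j, d.D k z j = d'.D k z j)
    (h3 : d.tot = d'.tot) : d = d' := by
  cases d
  cases d'
  cases h1
  cases h3
  exact congrArg (PD.mk _ · _) (funext₃ h2)

variable (F e) in
/-- divided differences of the equations -/
noncomputable def ddY (b : Λ → ℂ) (c : V ch.M) (Y Y' : ∀ j, ch.Th j →ₗ[ℂ] ℂ) : PD K ch.Zt ch.Th :=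
  ⟨tvZ c, fun k ζ => dd (F.G k).support (hc F e b k ζ c) (fun j => Y j (pwT ζ j))
    fun j => Y' j (pwT ζ j), fun k ζ => ∏ i, ζ i (c i) ^ e k i⟩

variable (F e) in
/-- the values of the equations -/
noncomputable def eqY (b : Λ → ℂ) (c : V ch.M) (Y : ∀ j, ch.Th j →ₗ[ℂ] ℂ) : Fib ch.Th K ch.Zt :=
  (fun j => kos (tvZ c j) (Y j), fun k ζ => eval (fun j => Y j (pwT ζ j)) (hp F e b k ζ c))

theorem eqY_add (b : Λ → ℂ) (c : V ch.M) (Y Y' : ∀ j, ch.Th j →ₗ[ℂ] ℂ) :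
    eqY F e b c (Y + Y') = eqY F e b c Y + (ddY F e b c Y Y').dEq pwT Y' :=
  Prod.ext (funext₂ fun _ _ => kos_add _ _) (funext₂ fun k ζ =>
    eval_add_plw (T := (F.G k).support) (c := hc F e b k ζ c) (fun j => Y j (pwT ζ j))
      fun j => Y' j (pwT ζ j))

theorem tends_ddY {b : α → Λ → ℂ} {b₀ : Λ → ℂ} {c : α → V ch.M} {c₀ : V ch.M}
    {Y Y' : α → ∀ j, ch.Th j →ₗ[ℂ] ℂ} {Y₀ Y₀' : ∀ j, ch.Th j →ₗ[ℂ] ℂ} (h1 : Tendsto b l (𝓝 b₀))
    (h2 : Tendsto c l (𝓝 c₀)) (h3 : ∀ j m, Tendsto (fun a => Y a j m) l (𝓝 (Y₀ j m)))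
    (h4 : ∀ j m, Tendsto (fun a => Y' a j m) l (𝓝 (Y₀' j m))) :
    PD.Tends (fun a => ddY F e (b a) (c a) (Y a) (Y' a)) l (ddY F e b₀ c₀ Y₀ Y₀') univ :=
  have h5 : ∀ (ζ : ch.Zt) (m : ι → ℕ),
      Tendsto (fun a => ∏ i, ζ i (c a i) ^ m i) l (𝓝 (∏ i, ζ i (c₀ i) ^ m i)) := fun ζ _ =>
    tendsto_finsetProd _ fun i _ =>
      (((ζ i).continuous.tendsto _).comp (tendsto_pi_nhds.1 h2 i)).pow _
  ⟨fun j _ m => ((continuous_tvZ j m).tendsto _).comp h2, fun _ ζ j _ => tendsto_dd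
    (fun _ => (((MvPolynomial.continuous_eval _).tendsto _).comp h1).mul (h5 ζ _))
    (tendsto_pi_nhds.2 fun j => h3 j _) (tendsto_pi_nhds.2 fun j => h4 j _) j, fun _ ζ => h5 ζ _⟩

/-- the values of the fields at a marked point on the pulled back tests -/
noncomputable def Yb (w : ch.Lb n (Mk ν (κ ⊕ κ'))) (m : Mk ν (κ ⊕ κ')) (j : J) :
    ch.Th j →ₗ[ℂ] ℂ := yv w.1 (ptz w.1 m) j ∘ₗ (P269.pbT w.2.1 _).toLinearMap

variable {x : ch.W (Mk ν κ)} {w : ch.Lb n (Mk ν (κ ⊕ κ'))}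

theorem pdL_ptz (b : Λ → ℂ) (m : Mk ν (κ ⊕ κ')) :
    pdL F e ((b, w.1) : (ch.re n).WF ν (κ ⊕ κ') Λ) w.2.1 (ptz w.1 m) =
      ddY F e b (apV w.2.1 (w.1.p m)) (Yb w m) 0 :=
  pd_ext rfl (fun k ζ j => Eq.trans (b := eval (fun j => Yb w m j (pwT ζ j))
    (pderiv j (hp F e b k ζ (apV w.2.1 (w.1.p m))))) rfl ((dd_zero _ j).symm.trans
      (congrArg (dd (F.G k).support _ _ · j) rfl))) rfl

theorem resF_sct (b : Λ → ℂ) (m : Mk ν (κ ⊕ κ')) :
    resF K w.2.1 (evZ (ptz w.1 m) (sctF F e ((b, w.1) : (ch.re n).WF ν (κ ⊕ κ') Λ))) =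
      eqY F e b (apV w.2.1 (w.1.p m)) (Yb w m) :=
  congrArg (resF K w.2.1) evZ_sctF

theorem jmpF_mm {A : Set J} (h : Gl x w) (hm : ∀ j ∉ A, Mt x w j) (q : κ') :
    jmpF w.1 q (mm A x w) = Yb w (nq q true) - Yb w (nq q false) :=
  funext fun j => LinearMap.ext fun μ => by
    have a : jmp w.1 q (some j) (w.2.2 (some j) (x.X j μ) - w.1.X j (P269.pbT w.2.1 _ μ)) =
        Yb w (nq q true) j μ - Yb w (nq q false) j μ := by
      rw [map_sub, show jmp w.1 q (some j) (w.2.2 (some j) (x.X j μ)) = 0 from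
        DFunLike.congr_fun (h.jmp_comp q (some j)) _, zero_sub]
      exact neg_sub _ _
    refine (congrArg (jmp w.1 q (some j)) ?_).trans a
    by_cases c : j ∈ A
    · exact DFunLike.congr_fun (Fm.ex_mem (mm A x w) c) μ
    · exact (DFunLike.congr_fun (Fm.ex_not (mm A x w) c) μ).trans (sub_eq_zero.2 (hm j c μ)).symm

theorem jmpF_not {A : Set J} (y : (ch.re n).W (Mk ν (κ ⊕ κ'))) (q : κ') (v : ch.Fm A (ch.re n).hf)
    {j : J} (c : j ∉ A) : jmpF y q v j = 0 := LinearMap.ext fun μ =>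
  (congrArg (jmp y q (some j)) (DFunLike.congr_fun (Fm.ex_not v c) μ)).trans (map_zero _)

/-- thickened fields with prescribed jumps -/
theorem exists_jmpF {A : Set J} (h : Gl x w) (ha : ∀ l, ch.a l ≠ 0)
    {Y : κ' → ∀ j, ch.Th j →ₗ[ℂ] ℂ} (hY : ∀ q, ∀ j ∉ A, Y q j = 0) :
    ∃ v : ch.Fm A (ch.re n).hf, ∀ q, jmpF w.1 q v = Y q := by
  choose r hr using fun j => (LinearMap.pi fun q =>
    (jmp w.1 q (some j)).toLinearMap).exists_rightInverse_of_surjective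
      (LinearMap.range_eq_top.2 (h.jmp_surj ha (some j)))
  refine ⟨fun j => LinearMap.toContinuousLinearMap (r j ∘ₗ LinearMap.pi fun q => Y q j),
    fun q => funext fun j => ?_⟩
  by_cases c : j ∈ A
  · exact LinearMap.ext fun μ => (congrArg (jmp w.1 q (some j))
      (DFunLike.congr_fun (Fm.ex_mem _ c) μ)).trans
        (congrFun (LinearMap.congr_fun (hr j) fun q => Y q j μ) q)
  · exact (jmpF_not _ _ _ c).trans (hY q j c).symm

/-- the dimension of the space of thickened fields without jumps -/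
noncomputable def vJ (ch : Ch ι J) (n : Nm ι J) (κ' : Type) (A : Set J) : ℕ :=
  finrank ℂ (ch.Fm A (ch.re n).hf) -
  finrank ℂ (Submodule.pi univ fun _ : κ' => mv ch.Th (fun _ => ℂ) A)

theorem finrank_ker {A : Set J} (h : Gl x w) (ha : ∀ l, ch.a l ≠ 0) :
    finrank ℂ (⨅ q, LinearMap.ker (jmpF (A := A) w.1 q) : Submodule ℂ _) = vJ ch n κ' A := by
  have a := (LinearMap.pi fun q => jmpF (A := A) w.1 q).finrank_range_add_finrank_ker
  rw [LinearMap.ker_pi, show LinearMap.range (LinearMap.pi fun q => jmpF (A := A) w.1 q) =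
    Submodule.pi univ fun _ : κ' => mv ch.Th (fun _ => ℂ) A from Submodule.ext fun Y =>
      ⟨fun ⟨v, c⟩ q _ j d => c ▸ jmpF_not _ q v d, fun c =>
        (exists_jmpF h ha fun q => c q trivial).imp fun _ => funext⟩] at a
  exact eq_tsub_of_add_eq ((add_comm _ _).trans a)

theorem continuous_ex {A : Set J} {h : J → ℕ} (j : J) :
    Continuous fun v : ch.Fm A h => Fm.ex v j := by
  by_cases c : j ∈ A
  · simp only [Fm.ex_mem _ c]
    exact continuous_iff_continuousAt.2 fun v =>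
      (Fm.an_iff.1 (analyticAt_id (𝕜 := ℂ) (z := v)) _).continuousAt
  · simp only [Fm.ex_not _ c]
    exact continuous_const

section lim

variable {y : α → ch.Lb n (Mk ν (κ ⊕ κ'))} (h0 : ∀ a, (y a).1 ∈ (ch.re n).base _)
  (hw : w.1 ∈ (ch.re n).base _) (h1 : Tendsto y l (𝓝 w))
include h1

theorem tendsto_φ (i : ι) : Tendsto (fun a => (y a).2.1 i) l (𝓝 (w.2.1 i)) :=
  ((Lb.an_iff.1 (analyticAt_id (𝕜 := ℂ) (z := w))).2.1 i).continuousAt.tendsto.comp h1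

theorem tendsto_one : Tendsto (fun a => (y a).1) l (𝓝 w.1) :=
  (Lb.an_iff.1 (analyticAt_id (𝕜 := ℂ) (z := w))).1.continuousAt.tendsto.comp h1

theorem tendsto_pbT {σ : Type} [Fintype σ] (τ : σ → ι) (μ : Tn ch.M τ) :
    Tendsto (fun a => P269.pbT (y a).2.1 τ μ) l (𝓝 (P269.pbT w.2.1 τ μ)) :=
  tendsto_ap ((GlA.an_pbT (AnalyticAt.pi (Lb.an_iff.1 (analyticAt_id (𝕜 := ℂ) (z := w))).2.1)
    τ).continuousAt.tendsto.comp h1) tendsto_const_nhds

theorem tendsto_apV (m : Mk ν (κ ⊕ κ')) :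
    Tendsto (fun a => apV (y a).2.1 ((y a).1.p m)) l (𝓝 (apV w.2.1 (w.1.p m))) :=
  tendsto_pi_nhds.2 fun i => tendsto_ap (tendsto_φ h1 i) (tendsto_pi_nhds.1
    ((W.an_p analyticAt_id m).continuousAt.tendsto.comp (tendsto_one h1)) i)

include h0 hw

theorem tendsto_ptz (m : Mk ν (κ ⊕ κ')) : Tendsto (fun a => ptz (y a).1 m) l (𝓝 (ptz w.1 m)) :=
  ((holOn_ptz hw m).tendsto hw).comp
    (tendsto_inf.2 ⟨tendsto_one h1, tendsto_principal.2 (.of_forall h0)⟩)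

theorem tendsto_Yb (m : Mk ν (κ ⊕ κ')) (j : J) (μ : ch.Th j) :
    Tendsto (fun a => Yb (y a) m j μ) l (𝓝 (Yb w m j μ)) :=
  tendsto_ap (tendsto_pi_nhds.1 (tendsto_ptz h0 hw h1 m).snd_nhds (some j)) (tendsto_ap
    ((W.an_X (Lb.an_iff.1 (analyticAt_id (𝕜 := ℂ) (z := w))).1 j).continuousAt.tendsto.comp h1)
      (tendsto_pbT h1 _ μ))

theorem tendsto_jmpF {A : Set J} {v : α → ch.Fm A (ch.re n).hf} {v₀ : ch.Fm A (ch.re n).hf}
    (h2 : Tendsto v l (𝓝 v₀)) (q : κ') (j : J) (μ : ch.Th j) :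
    Tendsto (fun a => jmpF (y a).1 q (v a) j μ) l (𝓝 (jmpF w.1 q v₀ j μ)) :=
  tendsto_ap (f := fun a => jmp (y a).1 q (some j)) (f₀ := jmp w.1 q (some j))
    ((tendsto_pi_nhds.1 (tendsto_ptz h0 hw h1 _).snd_nhds (some j)).sub
    (tendsto_pi_nhds.1 (tendsto_ptz h0 hw h1 _).snd_nhds (some j))) (tendsto_ap
      (((continuous_ex j).tendsto v₀).comp h2) tendsto_const_nhds)

theorem tendsto_resF {f : (ch.re n).P K} (hf : f ∈ (ch.re n).polF F e) (m : Mk ν (κ ⊕ κ')) :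
    Tendsto (fun a => resF K (y a).2.1 (evZ (ptz (y a).1 m) f)) l
      (𝓝 (resF K w.2.1 (evZ (ptz w.1 m) f))) :=
  Tendsto.prodMk_nhds (tendsto_pi_nhds.2 fun j => tendsto_pi_nhds.2 fun μ =>
    ((cont_G1 ((mem_polS.1 hf).1 j)).tendsto (_, _, _)).comp ((tendsto_ptz h0 hw h1 m).prodMk_nhds
      ((tendsto_pbT h1 _ μ.1).prodMk_nhds (tendsto_pbT h1 _ μ.2))))
    (tendsto_pi_nhds.2 fun k => tendsto_pi_nhds.2 fun ζ =>
      ((cont_G2 ((mem_polS.1 hf).2 k)).tendsto (_, _)).comp ((tendsto_ptz h0 hw h1 m).prodMk_nhds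
        (tendsto_pi_nhds.2 fun i =>
          (((continuous_const (y := ζ i)).clm_comp continuous_id).tendsto _).comp (tendsto_φ h1 i))))

end lim

end Vale.Agent.P269.Ch.PwS
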