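import Vale.Agent.P269.Glu.NdA
import Vale.Agent.P269.Bas.NF0

/-!
# Formal lemmas on Gysin maps and products of cocycles
-/

set_option linter.unusedSectionVars false

namespace Vale.Agent.P269.Nd.NG

open P291Z Set Function Topology Filter Module Orb Holo Ch Ch.KD Loc

theorem pull_prod {C X ε : Type} (f : C → X) (a : ε → Coch X) (l : List ε) :
    pull f (l.map a).prod = (l.map fun q => pull f (a q)).prod := by
  rw [map_list_prod, List.map_map]
  rfl

section top

variable {C X Z T ε I : Type} [TopologicalSpace C] [TopologicalSpace X] [TopologicalSpace Z]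
  [TopologicalSpace T] [Nice C] [Nice X] [Nice Z] [Nice T]

/-- A Gysin map followed by the Gysin map of a section, computed on an open subset. -/
theorem gys_sq {i : C → Z} (hi : IsClosedEmbedding i) {z : Z → T} (hz : IsClosedEmbedding z)
    {p : T → Z} (hp : Continuous p) (hpz : ∀ x, p (z x) = x) {f : X → T} (hf : IsOpenEmbedding f)
    {j : C → X} (hj : ∀ c, f (j c) = z (i c)) {s : Coch Z} {t : Coch T} {m n : ℕ}
    (hs : IsCo (range i) m s) (ht : IsCo (range z) n t) (β : BM T) :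
    IsClosedEmbedding j ∧ range j = f ⁻¹' range (z ∘ i) ∧
      IsCo (range j) (m + n) (pull f (pull p s * t)) ∧
      gys j (pull f (pull p s * t)) (res f β) = gys i s (gys z t β) := by
  have a := hz.comp hi
  have e : f ∘ j = z ∘ i := funext hj
  have r : range j = f ⁻¹' range (z ∘ i) := by
    rw [← e, range_comp, preimage_image_eq _ hf.injective]
  have c : Continuous j := hf.isInducing.continuous_iff.2 (e ▸ a.continuous)
  have k : IsClosedEmbedding j :=
    ⟨IsEmbedding.of_comp c hf.continuous (e ▸ a.isEmbedding),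
      r ▸ a.isClosed_range.preimage hf.continuous⟩
  have u : IsCo (range (z ∘ i)) (m + n) (pull p s * t) :=
    IsCo.mono' (IsCo.mul' (IsCo.pull' hs hp) ht) (by
      rintro _ ⟨⟨c, h⟩, x, rfl⟩
      exact ⟨c, congrArg z (h.trans (hpz x))⟩)
  refine ⟨k, r, r ▸ IsCo.pull' u hf.continuous, ?_⟩
  rw [← res_gys a k hf IsOpenEmbedding.id hj r.ge u.cocycle u.supp, NA.res_id,
    ← gys_gys hi hz (IsCo.pull' hs hp).cocycle
      (fun x hx => hpz x ▸ (IsCo.pull' hs hp).supp hx) ht.cocycle ht.supp, pull_pull,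
    show p ∘ z = id from funext hpz, pull_id]

theorem isCo_prod {A : ε → Set X} {m : ℕ} {a : ε → Coch X} (h : ∀ q, IsCo (A q) m (a q))
    (l : List ε) : IsCo {x | ∀ q ∈ l, x ∈ A q} (l.length * m) (l.map a).prod := by
  refine ⟨NF.cocycle_prod (List.forall_mem_map.2 fun q _ => (h q).cocycle), ?_,
    fun x hx q hq => (h q).supp (NF.supp_prod (List.mem_map_of_mem hq) hx)⟩
  refine (IsDeg.prod (List.forall_mem_map.2 fun q _ => (h q).deg)).cast ?_
  rw [List.length_map]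
  push_cast
  ring

/-- Rearranging a product of even cocycles. -/
theorem cohom_inter {a : ε → Coch X} {b b₁ : ε × I → Coch X} {A P : ε → Set X} {B : ε × I → Set X}
    {m : ℕ} (ha : ∀ q, IsCo (A q) m (a q)) (hb : ∀ p, IsCo (B p) 1 (b p))
    (h₁ : ∀ p, Cohom (B p) (b p) (b₁ p)) (hP : ∀ q x, x ∈ A q → (∀ i, x ∈ B (q, i)) → x ∈ P q)
    {l : List ε} (hl : ∀ q, q ∈ l) {lI : List I} (hI : ∀ i, i ∈ lI) :
    Cohom {x | ∀ q, x ∈ P q} ((l.map a).prod * ((l ×ˢ lI).map b).prod)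
        (l.map fun q => a q * (lI.map fun i => b₁ (q, i)).prod).prod ∧
      ∀ q, supp (δ (a q * (lI.map fun i => b₁ (q, i)).prod)) = ∅ ∧
        supp (a q * (lI.map fun i => b₁ (q, i)).prod) ⊆ P q := by
  have s : ∀ q, IsCo (P q) (m + lI.length * 1) (a q * (lI.map fun i => b (q, i)).prod) := fun q =>
    IsCo.mono' (IsCo.mul' (ha q) (isCo_prod (fun i => hb (q, i)) lI))
      fun x hx => hP q x hx.1 fun i => hx.2 i (hI i)
  have c : ∀ q, Cohom (P q) (a q * (lI.map fun i => b (q, i)).prod)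
      (a q * (lI.map fun i => b₁ (q, i)).prod) := fun q =>
    ((NF.cohom_prod (A := fun i => B (q, i)) (fun i _ => ⟨(hb _).cocycle, (hb _).supp⟩)
      (List.forall₂_map_right_iff.2 (List.forall₂_same.2 fun i _ => h₁ (q, i)))).mul_left
        (ha q).cocycle).mono fun x hx => hP q x ((ha q).supp hx.1) fun i => hx.2 i (hI i)
  refine ⟨Cohom.trans ?_ ((NF.cohom_prod (A := P) (fun q _ => ⟨(s q).cocycle, (s q).supp⟩)
    (List.forall₂_map_right_iff.2 (List.forall₂_same.2 fun q _ => c q))).mono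
      fun x hx q => hx q (hl q)), fun q =>
    ⟨(c q).symm.cocycle (s q).cocycle, (c q).symm.supp_subset (s q).supp⟩⟩
  have p : ∀ l : List ε, (l.map Sum.inl ++ (l ×ˢ lI).map Sum.inr).Perm
      (l.flatMap fun q => Sum.inl q :: lI.map fun i => Sum.inr (q, i)) := fun l => by
    induction l with
    | nil => exact List.Perm.refl _
    | cons q l ih =>
      simp only [List.map_cons, List.product_cons, List.map_append, List.map_map, List.cons_append,
        List.flatMap_cons]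
      exact ((List.perm_append_comm_assoc _ _ _).trans (ih.append_left _)).cons _
  have e : ∀ l : List ε, ((l.flatMap fun q => Sum.inl q :: lI.map fun i => Sum.inr (q, i)).map
      (Sum.elim a b)).prod = (l.map fun q => a q * (lI.map fun i => b (q, i)).prod).prod :=
    fun l => by
    induction l with
    | nil => rfl
    | cons q l ih =>
      simp only [List.flatMap_cons, List.map_append, List.prod_append, ih, List.map_cons,
        List.prod_cons, List.map_map]
      rfl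
  have k := NF.cohom_perm (c := Sum.elim a b) (d := Sum.elim (fun _ => (m : ℤ)) fun _ => (1 : ℕ))
    (p l) fun f _ => by
      cases f
      exacts [⟨(ha _).cocycle, (ha _).deg⟩, ⟨(hb _).cocycle, (hb _).deg⟩]
  rw [e, List.map_append, List.prod_append, List.map_map, List.map_map] at k
  exact k.mono fun x hx q => hP q x
    ((ha q).supp (hx (.inl q) (List.mem_append_left _ (List.mem_map_of_mem (hl q))))) fun i =>
      (hb _).supp (hx (.inr (q, i)) (List.mem_append_right _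
        (List.mem_map_of_mem (List.pair_mem_product.2 ⟨hl q, hI i⟩))))

end top

variable {A A₁ A₂ W W₁ W₂ : Type} [NormedRing A] [NormedAlgebra ℂ A] [NormedAddCommGroup W]
  [NormedSpace ℂ W] [NormedRing A₁] [NormedAlgebra ℂ A₁] [NormedAddCommGroup W₁] [NormedSpace ℂ W₁]
  [NormedRing A₂] [NormedAlgebra ℂ A₂] [NormedAddCommGroup W₂] [NormedSpace ℂ W₂]
  [FiniteDimensional ℂ A] [FiniteDimensional ℂ W] [FiniteDimensional ℂ A₁] [FiniteDimensional ℂ W₁]
  [FiniteDimensional ℂ A₂] [FiniteDimensional ℂ W₂] {act : A → W → W} {act₁ : A₁ → W₁ → W₁}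
  {act₂ : A₂ → W₂ → W₂} {S B : Set W} {S₁ : Set W₁} {S₂ : Set W₂} {c : A → ℂ} {c₁ : A₁ → ℂ}
  {c₂ : A₂ → ℂ} {s₁ : W₁ → ℂ} {s₂ : W₂ → ℂ} {θ₁ : A → A₁} {θ₂ : A → A₂} {f₁ : W → W₁} {f₂ : W → W₂}

theorem mem_part [IsAct act S] (hB : Ivt act (S ∩ B)) (x : S) :
    Quo.mk act x ∈ Quo.part act S B ↔ x.1 ∈ B := Quo.mem_part hB (Holo.Sp.of act x.1 x.2)

theorem act_mem_iff [IsAct act univ] (h : Ivt act S) {a : A} (ha : IsUnit a) (x : W) :
    act a x ∈ S ↔ x ∈ S :=
  Ivt.mem_iff (S := univ) (by rwa [univ_inter]) ha.unit (Holo.Sp.of act x trivial)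

theorem eqM_of (h : Tq.Eqh act act₁ S S₁ θ₁ f₁) : EqM act act₁ S S₁ θ₁ f₁ :=
  ⟨⟨h.hm.ρ.toMonoidHom, h.hm.ρ.continuous, fun _ => rfl⟩, h.maps, h.cont, h.eqv⟩

/-- Two sections with the same pull-back. -/
theorem sc_cmp [IsAct act S] (ho : Orb Aˣ (Holo.Sp act S)) (hc : Tq.Hm c) (h₁ : Sc act₁ S₁ c₁ s₁)
    (h₂ : Sc act₂ S₂ c₂ s₂) (g₁ : EqM act act₁ S S₁ θ₁ f₁) (g₂ : EqM act act₂ S S₂ θ₂ f₂)
    (e₁ : ∀ a, IsUnit a → c a = c₁ (θ₁ a)) (e₂ : ∀ a, IsUnit a → c a = c₂ (θ₂ a))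
    (e : ∀ x ∈ S, s₂ (f₂ x) = s₁ (f₁ x)) : ∃ B : Set (Quo act S),
      (∀ x : S, Quo.mk act x ∈ B → s₂ (f₂ x) = 0) ∧ IsCo B 1 (P291Z.pull g₁.map h₁.eu) ∧
        Cohom B (P291Z.pull g₁.map h₁.eu) (P291Z.pull g₂.map h₂.eu) := by
  have h : Sc act S c fun x => s₂ (f₂ x) := ⟨‹_›, ho, hc, h₂.cont.comp g₂.cont g₂.maps,
    fun a ha x hx => by rw [g₂.eqv a ha x hx, h₂.eqv _ (g₂.isUnit ha) _ (g₂.maps hx), e₂ a ha]⟩
  have k := h₁.pull h g₁ e₁ e
  exact ⟨_, fun x => (mem_part (fun a ha x hx => ⟨IsAct.mem a ha x hx.1,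
      (h.eqv a ha x hx.1).trans (mul_eq_zero_of_right _ hx.2)⟩) x).1,
    ⟨k.cocycle h.isCo.cocycle, h₁.isCo.deg.pull _, k.supp_subset h.isCo.supp⟩,
    k.trans (h₂.pull h g₂ e₂ fun _ _ => rfl).symm⟩

end Vale.Agent.P269.Nd.NG
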