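import Vale.Agent.P269.Glu.NdV
import Vale.Agent.P269.Glu.NdC0
import Vale.Agent.P269.Bas.DegN

/-!
# Persistent nodes as pairs of marked points: the virtual classes
-/

set_option linter.unusedSectionVars false
set_option linter.unusedVariables false
set_option linter.style.haveILetI false

namespace Vale.Agent.P269.Nd

open P291Z Set Function Topology Filter Module Orb Holo Ch Ch.KD NG Loc

variable {S Λ R J K I ι ν κ ε : Type} [Fintype S] [Fintype Λ] [Fintype R] [Fintype J] [Fintype K]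
  [Fintype I] [Fintype ι] [DecidableEq ι] [Fintype ν] [Fintype κ] [Fintype ε] {ch : Ch ι J}
  {F : Fam S Λ R J K} {Z₀ : Set J} {φ : I → J} {ℓ : R → ι → ℤ}
  {T O M : Set (ch.WF ν (κ ⊕ ε) Λ)} {T' O' M' : Set (ch.WF (ν ⊕ ε × Bool) κ Λ)} {d d' : ℕ}

/-- The product of the diagonal cocycles at the nodes. -/
noncomputable def dgE (F : Fam S Λ R J K) (Z : Set (ch.WF ν (κ ⊕ ε) Λ)) (l : List ε) :
    Coch (Quo (actF F.toWt) Z) := (l.map fun q => F.coch Z (.dg (.inr q))).prod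

/-- The product of the diagonal cocycles at the pairs of marked points. -/
noncomputable def dgP (D : Fam S Λ R J K) (t : Coch D.X3) (Z : Set (ch.WF (ν ⊕ ε × Bool) κ Λ))
    (l : List ε) : Coch (Quo (actF D.toWt) Z) :=
  (l.map fun q => evT (mq q false) (mq q true) D.cone3 t).prod

/-- The tautological identifications at the pairs of marked points. -/
noncomputable def τM (τ : W3 Λ J → R → ℂ) (x : ch.WF (ν ⊕ ε × Bool) κ Λ) (q : ε × R) : ℂ :=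
  τ (v3 q.1 x) q.2

theorem isCo_diag {t : Coch F.X2} (h : F.IsDiag t) : ∃ m, IsCo F.Δ2 m t := by
  rcases F.cone.eq_empty_or_nonempty with e | ⟨z, hz⟩
  · refine ⟨0, h.1, fun l _ => ?_, h.2.1⟩
    cases l with
    | nil => exact t.2.1
    | cons x l => exact (e.le x.out.2.1.1).elim
  · exact ⟨_, h.1, (h.2.2 z hz).1, h.2.1⟩

theorem eqv_sub (h : F.zer ⊆ Z₀) : Tq.Eqv (F.sub F.B Z₀).act2 F.act2 (F.sub F.B Z₀).cone2 F.cone2
    fun z => (id z.1, z.2) :=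
  ⟨fun _ a => ⟨⟨Fam.cone_sub subset_rfl h a.1.1, Fam.cone_sub subset_rfl h a.1.2⟩, a.2⟩,
    continuousOn_id, fun a ha _ _ => ⟨a, ha, rfl⟩⟩

theorem mem_d3 [DecidableEq R] (h : F.Good) (x : F.cone3) :
    Quo.mk F.act3 x ∈ range (d3 F) ↔ x.1 ∈ dg3 F :=
  haveI := h.fp3
  range_d3 h.toInv ▸ mem_part (fun a ha x hx =>
    ⟨IsAct.mem a ha x hx.1, ivt_dg3 h.toInv a ha x hx.2⟩) x

variable [DecidableEq R] [DecidableEq I] {e : K → ι → ℕ} {K₀ : Set K} {n : J → I → ℤ}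
  {ψ : J → (Λ → ℂ) → ℂ} {σ : I → R → ℂ} {τ : W3 Λ J → R → ℂ} (h : Cx F Z₀ φ ch e K₀ ℓ n ψ)
  (hT : NdT F Z₀ T T') (hv : Vd F e T O M d) (hv' : Vd F e T' O' M' d')
  (hσ : ∀ i i', ∑ r, F.w (φ i') r * σ i r = if i = i' then 1 else 0) (hτ : IsTau (F.sub F.B Z₀) τ)

section pairs

include h hT hv'

theorem Cx.eqh3 (q : ε) : Tq.Eqh (actF F.toWt) F.act3 (ch.solF _ κ F ∩ T') (F.sub F.B Z₀).cone3
    (θe ℓ q) (v3 q) :=
  ((hv'.gz h.std).eqh_vl2 (mq q false) (mq q true)).mono subset_rfl fun x hx =>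
    ⟨h.mem_cone hx.1 (hT.van x hx.2 q false), h.mem_cone hx.1 (hT.van x hx.2 q true)⟩

theorem Cx.evT_eq (q : ε) (t : Coch (F.sub F.B Z₀).X3) :
    evT (mq q false) (mq q true) (F.sub F.B Z₀).cone3 t = pull (h.eqh3 hT hv' q).toEqv.qm t :=
  (dif_pos fun z => (h.eqh3 hT hv' q).maps (Quo.out z).2).trans
    (congrArg (pull · t) (funext (h.eqh3 hT hv' q).toEqv.qm_out))

theorem Cx.eqM_E (q : ε) : EqM (aU ν κ ε ch F ℓ) (actV (F.sub F.B Z₀).act3 c3) (YM F Z₀ φ T')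
    (NU (F.sub F.B Z₀) φ) (θe ℓ q) (evE q) :=
  have a := h.eqh3 hT hv' q
  ⟨(eqM_of a).hom, fun y hy => ⟨a.maps hy.1.1, fun r => hy.2.2.1 (q, r),
      fun i => rho_blk _ y q i ▸ hy.2.2.2 (q, i)⟩,
    (a.cont.comp continuousOn_fst fun _ hy => hy.1.1).prodMk
      (continuous_pi fun r => (continuous_apply (q, r)).comp continuous_snd).continuousOn,
    fun s hs y hy => Prod.ext (a.eqv s hs _ hy.1.1) rfl⟩

theorem Cx.part_eq : Quo.part (actF F.toWt) (ch.solF _ κ F ∩ T')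
    {x | ∀ q, v3 q x ∈ dg3 (F.sub F.B Z₀)} =
      ⋂ q, (h.eqh3 hT hv' q).toEqv.qm ⁻¹' range (d3 (F.sub F.B Z₀)) := by
  ext z
  rw [mem_iInter]
  refine forall_congr' fun q => ?_
  rw [mem_preimage, ← (h.eqh3 hT hv' q).toEqv.qm_out]
  exact (mem_d3 h.nice.toGood ⟨_, (h.eqh3 hT hv' q).maps z.out.2⟩).symm

theorem Cx.mk_mem_part (x : (ch.solF _ κ F ∩ T' : Set _)) : Quo.mk _ x ∈ Quo.part (actF F.toWt) _
    {x | ∀ q, v3 q x ∈ dg3 (F.sub F.B Z₀)} ↔ ∀ q, v3 q x.1 ∈ dg3 (F.sub F.B Z₀) :=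
  haveI := (hv'.gz h.std).act
  mem_part (fun a ha x hx => ⟨IsAct.mem a ha x hx.1, fun q =>
    (h.eqh3 hT hv' q).eqv a ha x hx.1 ▸ ivt_dg3 h.nice.toInv _
      ((h.eqh3 hT hv' q).hm.isUnit ha) _ (hx.2 q)⟩) x

include hτ

theorem Cx.secM : Tq.Sec (actF F.toWt) (ch.solF _ κ F ∩ T') (cM ℓ) (τM τ) :=
  ⟨(chr_cM ℓ).hm, continuousOn_pi.2 fun q => (continuousOn_pi.1 hτ.sec.cont q.2).comp
      (h.eqh3 hT hv' q.1).cont (h.eqh3 hT hv' q.1).maps, fun a ha x hx q =>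
    have b := h.eqh3 hT hv' q.1
    (congrArg (τ · q.2) (b.eqv a ha x hx)).trans (hτ.sec.eqv _ (b.hm.isUnit ha) _ (b.maps hx) _)⟩

theorem Cx.tau_N0 {x} (hx : x ∈ ch.solF _ κ F ∩ T') (hm : ∀ q, v3 q x ∈ dg3 (F.sub F.B Z₀)) :
    (x, τM τ x) ∈ N0 (blk fun i => F.w (φ i)) (rM φ) (BM' ch ν κ ε F Z₀ φ) :=
  ⟨h.sub_BM' hT hv' hx, fun q => (mem_NU h.nice h.sh hτ (hm q.1)).2.1 q.2, fun q =>
    (rho_blk _ _ q.1 q.2).trans ((mem_NU h.nice h.sh hτ (hm q.1)).2.2 q.2)⟩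

include hσ

omit hτ in
theorem Cx.vl2_fM {y} (hy : y ∈ YM F Z₀ φ T') (q : ε) :
    vl2 (fM F φ ℓ σ y).1 (nq q false) (nq q true) =
      g3 F.toWt (Nd.lab (fun i => F.w (φ i)) σ (r3 φ) (evE q y)) :=
  (vl2_gM (z := Nd.lab _ _ _ y) h.lat hy.1.1.1 (h.lab_mem hσ hy.2).2.1 q).trans
    (congrArg _ (evE_lab _ _ _ _))

include hv

theorem Cx.exists_lift (z : ModS F T) (hz : ∀ q, z ∈ diq F.toWt _ (.inr q)) :
    hT.π z ∈ Quo.part _ _ {x | ∀ q, v3 q x ∈ dg3 (F.sub F.B Z₀)} ∧ ∃ y,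
      (h.eqM_f hT hv' hσ).map y = (eqM_graph (sec_zero chr_one.hm)).map z ∧
      Quo.incl _ inter_subset_left y = (eqM_graph (h.secM hT hv' hτ)).map (hT.π z) := by
  obtain ⟨x, rfl⟩ := Tq.mk_surj z
  have m := hT.mapsTo x.2
  have e : ∀ q, v3 q (uW x.1) = ((vl (uW x.1) (mq q false)).1, (vl (uW x.1) (mq q false)).2,
      (vl (uW x.1) (mq q false)).2) := fun q => Prod.ext rfl (Prod.ext rfl
    (congrArg Prod.snd ((hv.gz h.std).mk_mem_diq.1 (hz q)).symm :))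
  have a : ∀ q, v3 q (uW x.1) ∈ dg3 (F.sub F.B Z₀) := fun q =>
    e q ▸ diag_dg3 (h.mem_cone m.1 (hT.van _ m.2 q false))
  have b : τM τ (uW x.1) = fun _ => 1 := funext fun q => congrFun
    (hτ.eq _ (a q.1).1 1 isUnit_one (funext fun j => by rw [U3.act_app, e]; simp)) q.2
  have c := h.tau_N0 hT hv' hτ m a
  refine ⟨(h.mk_mem_part hT hv' ⟨_, m⟩).2 a, Quo.mk _ ⟨_, ⟨m, trivial⟩, N0_subset c⟩,
    congrArg (Quo.mk _) (Subtype.ext ((lf_eq c).trans (Prod.ext ?_ rfl))), rfl⟩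
  exact b ▸ gM_uW x.2.1.1

theorem Cx.exists_node {z' : ModS F T'}
    (hz : z' ∈ Quo.part _ _ {x | ∀ q, v3 q x ∈ dg3 (F.sub F.B Z₀)}) :
    ∃ z : ModS F T, (∀ q, z ∈ diq F.toWt _ (.inr q)) ∧ hT.π z = z' := by
  obtain ⟨x, rfl⟩ := Tq.mk_surj z'
  have a := (h.mk_mem_part hT hv' x).1 hz
  have c : (x.1, τM τ x.1) ∈ YM F Z₀ φ T' := ⟨⟨x.2, trivial⟩, N0_subset (h.tau_N0 hT hv' hτ x.2 a)⟩
  obtain ⟨s, hs, k⟩ := h.uW_fM hσ c.2
  refine ⟨Quo.mk _ ⟨_, ((h.eqM_f hT hv' hσ).maps c).1⟩, fun q => (hv.gz h.std).mk_mem_diq.2 ?_,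
    (congrArg (Quo.mk _) (Subtype.ext k)).trans
      (Tq.mk_act hs x.2 ((hv'.gz h.std).ivt s hs _ x.2))⟩
  have u := ((mem_iff h.nice h.sh hσ hτ ((h.eqM_E hT hv' q).maps c)).1 ⟨a q, rfl⟩).1.2
  exact Prod.ext rfl ((h.vl2_fM hT hv' hσ c q ▸ u :
    (vl2 _ (nq q false) (nq q true)).2.1 = (vl2 _ (nq q false) (nq q true)).2.2) :)

/-- the two products of cocycles are cohomologous -/
theorem Cx.cohom (hd : F.IsDiag F.diag) {t : Coch (F.sub F.B Z₀).X3} (ht : IsD3 (F.sub F.B Z₀) t)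
    (hs : ∀ p : ε × I, Sc (aD I ν κ ε ch F) ((ch.solF _ _ F ∩ T) ×ˢ univ) (fun _ => 1)
      fun z => z.2 p - 0)
    (hs' : ∀ p : ε × R, Sc (aU ν κ ε ch F ℓ) ((ch.solF _ _ F ∩ T') ×ˢ univ) (cM ℓ p)
      fun z => z.2 p - τM τ z.1 p) {l : List ε} (hl : ∀ q, q ∈ l) {lI : List I} (hI : lI.Nodup)
    (hI' : ∀ i, i ∈ lI) {lR : List R} (hR : lR.Nodup) (hR' : ∀ r, r ∈ lR)
    [IsAct (aU ν κ ε ch F ℓ) (YM F Z₀ φ T')]
    (ho : Orb (ch.AF (ν ⊕ ε × Bool) κ S)ˣ (Holo.Sp (aU ν κ ε ch F ℓ) (YM F Z₀ φ T'))) :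
    Cohom (Quo.part _ _ {y | (∀ q, v3 q y.1 ∈ dg3 (F.sub F.B Z₀)) ∧ y.2 = τM τ y.1})
      (pull (h.eqM_f hT hv' hσ).map (pull (eqM_fst fun _ a => a.1).map (dgE F _ l) *
        ((l ×ˢ lI).map fun p => (hs p).eu).prod))
      (pull (Quo.incl _ (inter_subset_left : YM F Z₀ φ T' ⊆ _))
        (pull (eqM_fst fun _ a => a.1).map (dgP (F.sub F.B Z₀) t _ l) *
          ((l ×ˢ lR).map fun p => (hs' p).eu).prod)) := by
  haveI := nice_of_orb ho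
  haveI := h.nice.toGood.fp3
  haveI := h.nice.toGood.nice2
  haveI := nice3 h.nice.toGood
  have i3 := lab3 h.nice.toInv h.sh hσ
  haveI : IsAct (actV (F.sub F.B Z₀).act3 c3) (NU (F.sub F.B Z₀) φ) :=
    chr_c3.isAct (fun _ a => a.1) i3.ivt1
  haveI := nice_of_orb (chr_c3.orb (Tq.orb (F.sub F.B Z₀).act3 (F.sub F.B Z₀).cone3)
    (T := NU (F.sub F.B Z₀) φ) (fun _ a => a.1) (V.lc h.nice h.sh hσ))
  have E := h.eqM_E hT hv'
  have u := eqM_u2 h.nice h.sh hσ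
  have w : EqM _ _ (NU (F.sub F.B Z₀) φ) _ _ _ := eqM_fst (c := c3) (act := (F.sub F.B Z₀).act3)
    fun _ hz => hz.1
  choose B b₁ b₂ b₃ using fun p : ε × I => sc_cmp ho Tq.Hm.const (hs p)
    (sc_log h.nice h.sh hσ p.2) (h.eqM_f hT hv' hσ) (E p.1) (fun _ _ => rfl) (fun _ _ => rfl)
    fun y _ => (congrArg Complex.log (rho_blk _ y p.1 p.2).symm).trans (sub_zero _).symm
  choose B' c₁ c₂ c₃ using fun p : ε × R => sc_cmp ho ((chr_cM ℓ).hm p) (hs' p)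
    (sc_tau h.nice h.sh hσ hτ p.2) (EqM.incl inter_subset_left) (E p.1) (fun _ _ => rfl)
    (fun _ _ => rfl) fun _ _ => rfl
  have d₂ := hd.pull h.std.inv h.nice.toInv (eqv_sub h.zer) fun _ _ => rfl
  obtain ⟨m, hm⟩ := isCo_diag d₂
  obtain ⟨m', hm'⟩ := ht.co
  have mp := mem_part (act := actV (F.sub F.B Z₀).act3 c3) (S := NU (F.sub F.B Z₀) φ)
    (B := {z | z.1 ∈ dg3 (F.sub F.B Z₀) ∧ z.2 = τ z.1}) fun a ha z hz =>
      ⟨i3.ivt1 a ha z hz.1, ivt_dg3 h.nice.toInv a ha _ hz.2.1, funext fun r =>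
        (congrArg (c3 r a * · r) hz.2.2).trans (hτ.sec.eqv a ha _ hz.1.1 r).symm⟩
  obtain ⟨k₁, k₂⟩ := cohom_inter (fun q => IsCo.pull' (IsCo.pull' hm u.map.continuous)
    (E q).map.continuous) b₂ b₃ (P := fun q => (E q).map ⁻¹' Quo.part _ _
      {z | z.1 ∈ dg3 (F.sub F.B Z₀) ∧ z.2 = τ z.1}) (fun q x a b => by
      obtain ⟨y, rfl⟩ := Tq.mk_surj x
      have c := (E q).maps y.2
      exact (mp ⟨_, c⟩).2 ((mem_iff h.nice h.sh hσ hτ c).2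
        ⟨⟨u.maps c, (h.nice.toInv.mk_mem_Δ2 (z := ⟨_, u.maps c⟩)).1 a⟩, fun i => b₁ (q, i) y (b i)⟩)) hl hI'
  obtain ⟨k₃, -⟩ := cohom_inter (fun q => IsCo.pull' (IsCo.pull' hm' w.map.continuous)
    (E q).map.continuous) c₂ c₃ (P := fun q => (E q).map ⁻¹' Quo.part _ _
      {z | z.1 ∈ dg3 (F.sub F.B Z₀) ∧ z.2 = τ z.1}) (fun q x a b => by
      obtain ⟨y, rfl⟩ := Tq.mk_surj x
      have c := (E q).maps y.2
      exact (mp ⟨_, c⟩).2 ⟨(mem_d3 h.nice.toGood ⟨_, c.1⟩).1 a,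
        funext fun r => sub_eq_zero.1 (c₁ (q, r) y (b r))⟩) hl hR'
  have k₄ := NF.cohom_prod (L := l) (fun q _ => k₂ q) (List.forall₂_map_right_iff.2
    (List.forall₂_same.2 fun q _ => by
      simpa only [map_mul, pull_prod] using
        (key h.nice h.sh hσ hτ d₂ ht hI hI' hR hR').pull (E q).map.continuous))
  have k := (k₁.trans (k₄.mono fun x a q => a q (hl q))).trans k₃.symm
  have e₁ : ∀ q, pull (h.eqM_f hT hv' hσ).map (pull (eqM_fst fun _ a => a.1).map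
      (F.coch _ (.dg (.inr q)))) = pull (E q).map (pull u.map
        (pull (eqv_sub h.zer).qm F.diag)) := fun q => by
    rw [show F.coch _ (.dg (.inr q)) = _ from (hv.gz h.std).evN_eq _ _]
    simp only [pull_pull]
    refine congrArg (pull · F.diag) (funext fun x => ?_)
    obtain ⟨y, rfl⟩ := Tq.mk_surj x
    exact congrArg (Quo.mk _) (Subtype.ext (h.vl2_fM hT hv' hσ y.2 q))
  have e₂ : ∀ q, pull (Quo.incl _ (inter_subset_left : YM F Z₀ φ T' ⊆ _))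
      (pull (eqM_fst (c := cM ℓ) fun _ a => a.1).map
        (evT (mq q false) (mq q true) (F.sub F.B Z₀).cone3 t)) = pull (E q).map (pull w.map t) :=
    fun q => by
    rw [h.evT_eq hT hv']
    simp only [pull_pull]
    refine congrArg (pull · t) (funext fun x => ?_)
    obtain ⟨y, rfl⟩ := Tq.mk_surj x
    rfl
  simp only [map_mul, dgE, dgP, pull_prod, e₁, e₂]
  refine k.mono fun x a => ?_
  have a' := fun q => (mp ⟨_, (E q).maps x.out.2⟩).1 (by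
    have := a q
    rwa [← Tq.mk_out x] at this)
  exact ⟨fun q => (a' q).1, funext fun p => congrFun (a' p.1).2 p.2⟩

end pairs

include h hT hv hv'

/-- **Nodes as pairs of marked points**: the matched loci and their virtual classes agree. -/
theorem nd_gys (hd : F.IsDiag F.diag) {t : Coch (F.sub F.B Z₀).X3} (ht : IsD3 (F.sub F.B Z₀) t)
    {C : Type} [TopologicalSpace C] {i : C → ModS F T} (hi : IsClosedEmbedding i)
    (hr : range i = ⋂ q, diq F.toWt _ (.inr q)) {l : List ε} (hl : l.Nodup) (hl' : ∀ q, q ∈ l)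
    [Nice (ModS F T)] [Nice (ModS F T')] :
    IsClosedEmbedding (hT.π ∘ i) ∧
      range (hT.π ∘ i) = Quo.part _ _ {x | ∀ q, v3 q x ∈ dg3 (F.sub F.B Z₀)} ∧
      (∃ m, IsCo (range i) m (dgE F _ l)) ∧
      (∃ m, IsCo (range (hT.π ∘ i)) m (dgP (F.sub F.B Z₀) t _ l)) ∧
      gys i (dgE F _ l) (virF F e T) = gys (hT.π ∘ i) (dgP (F.sub F.B Z₀) t _ l) (virF F e T') := by
  obtain ⟨σ, hσ⟩ := exists_dualC h.sh.li
  obtain ⟨τ, hτ⟩ := exists_tau h.nice.toGood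
  obtain ⟨U, hw, hO⟩ := h.shrink hT hv hv'
  obtain ⟨n₀, g⟩ := hw.gd h.std
  obtain ⟨n₁, g'⟩ := hv'.gd h.std
  have G := (chr_one (α := ε × I)).gd g
  have G' := (chr_cM ℓ).gd g'
  haveI := G.niceZ
  haveI := G'.niceZ
  haveI := g.isActZ
  haveI := g'.isActZ
  haveI := G'.isActZ
  haveI := nice3 h.nice.toGood
  haveI : Nice C := .of_isEmbedding hi.isEmbedding hi.isClosed_range.isLocallyClosed
  obtain ⟨o', o, v⟩ := h.vir_tot hT hw hv' hσ hO g g'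
  have iY : Ivt (aU ν κ ε ch F ℓ) (YM F Z₀ φ T') := fun a ha y hy =>
    ⟨G'.ivtZ a ha y hy.1, h.ivtN hσ a ha y hy.2⟩
  haveI : IsAct (aU ν κ ε ch F ℓ) (YM F Z₀ φ T') := G'.isActZ.mono inter_subset_left iY
  have ho := orb_mono G'.orbZ (inter_subset_left : YM F Z₀ φ T' ⊆ _) (by
    obtain ⟨V, a, b⟩ := h.openY hT hv' hσ
    exact b.symm.subst (G'.lcZ.inter a.isLocallyClosed))
  haveI := nice_of_orb ho
  have s := sec_zero (act := actF F.toWt) (S := ch.solF _ _ F ∩ T) (chr_one (α := ε × I)).hm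
  have s' := h.secM hT hv' hτ
  have hs := chr_one.sc g.orbZ s (fun _ a => a.1) G.ivtZ G.lcZ
  have hs' := (chr_cM ℓ).sc g'.orbZ s' (fun _ a => a.1) G'.ivtZ G'.lcZ
  obtain ⟨z₁, z₂, z₃⟩ := chr_one.gys_graph g hw.cyc s hs
    (hl.product (Finset.nodup_toList Finset.univ))
    fun p => List.pair_mem_product.2 ⟨hl' _, Finset.mem_toList.2 (Finset.mem_univ _)⟩
  obtain ⟨w₁, w₂, w₃⟩ := (chr_cM ℓ).gys_graph g' hv'.cyc s' hs'
    (hl.product (Finset.nodup_toList Finset.univ))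
    fun p => List.pair_mem_product.2 ⟨hl' _, Finset.mem_toList.2 (Finset.mem_univ _)⟩
  choose a j j₁ j₂ using fun c => h.exists_lift hT hv hv' hσ hτ (i c)
    (mem_iInter.1 (hr.le (mem_range_self c)))
  have r : range (hT.π ∘ i) = Quo.part _ _ {x | ∀ q, v3 q x ∈ dg3 (F.sub F.B Z₀)} :=
    (range_subset_iff.2 a).antisymm fun z hz => by
      obtain ⟨x, b, rfl⟩ := h.exists_node hT hv hv' hσ hτ hz
      obtain ⟨c, rfl⟩ := hr.ge (mem_iInter.2 b)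
      exact ⟨c, rfl⟩
  obtain ⟨m, hm⟩ := isCo_diag hd
  obtain ⟨m', hm'⟩ := ht.co
  have x₁ : ∀ q, IsCo (diq F.toWt (ch.solF _ _ F ∩ T) (.inr q)) m (F.coch _ (.dg (.inr q))) :=
    fun q => ⟨(hv.gz h.std).cocycle_dg hd _, (hv.gz h.std).dg_deg hm.deg _,
      (hv.gz h.std).supp_dg hd _⟩
  have y₁ := isCo_prod x₁ l
  have c₁ : IsCo (range i) (l.length * m) (dgE F _ l) :=
    IsCo.mono' y₁ fun x b => hr.ge (mem_iInter.2 fun q => b q (hl' q))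
  have x₂ : ∀ q, IsCo ((h.eqh3 hT hv' q).toEqv.qm ⁻¹' range (d3 (F.sub F.B Z₀))) m'
      (evT (mq q false) (mq q true) (F.sub F.B Z₀).cone3 t) := fun q => by
    rw [h.evT_eq hT hv']
    exact IsCo.pull' hm' (h.eqh3 hT hv' q).toEqv.qm.continuous
  have y₂ := isCo_prod x₂ l
  have c₂ : IsCo (range (hT.π ∘ i)) (l.length * m') (dgP (F.sub F.B Z₀) t _ l) :=
    IsCo.mono' y₂ fun x b => (r.trans (h.part_eq hT hv')).ge (mem_iInter.2 fun q => b q (hl' q))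
  obtain ⟨k₁, -, k₂, k₃⟩ := gys_sq hi z₁ (eqM_fst fun _ a => a.1).map.continuous
    (fun x => Quot.inductionOn x fun _ => rfl) o j₁ c₁ z₂
    (((ch.kd ν (κ ⊕ ε) F e).pb id Prod.fst).vr _ _ _ (G.fu (d + Fintype.card (ε × I))))
  have e' : IsClosedEmbedding (hT.π ∘ i) :=
    ⟨IsEmbedding.of_comp (hT.π.continuous.comp hi.continuous) w₁.continuous
      ((funext j₂ : _ ∘ j = _ ∘ hT.π ∘ i) ▸ o'.isEmbedding.comp k₁.isEmbedding), by
      rw [r, h.part_eq hT hv']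
      exact isClosed_iInter fun q => (isClosedEmbedding_d3 h.nice.toGood).isClosed_range.preimage
        (h.eqh3 hT hv' q).toEqv.qm.continuous⟩
  obtain ⟨-, u₁, u₂, u₃⟩ := gys_sq e' w₁ (eqM_fst fun _ a => a.1).map.continuous
    (fun x => Quot.inductionOn x fun _ => rfl) o' j₂ c₂ w₂
    (((ch.kd _ κ F e).pb id Prod.fst).vr _ _ _ (G'.fu (d' + Fintype.card (ε × R))))
  refine ⟨e', r, ⟨_, c₁⟩, ⟨_, c₂⟩, ?_⟩
  rw [hw.virF_vr h.std, hv'.virF_vr h.std]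
  refine ((congrArg _ z₃).symm.trans k₃.symm).trans (Eq.trans ?_ (u₃.trans (congrArg _ w₃)))
  rw [← v, gys_congr k₁ k₂.cocycle k₂.supp u₂.cocycle u₂.supp ((h.cohom hT hv hv' hσ hτ hd ht hs hs'
    hl' (Finset.nodup_toList _) (fun _ => Finset.mem_toList.2 (Finset.mem_univ _))
    (Finset.nodup_toList _) (fun _ => Finset.mem_toList.2 (Finset.mem_univ _)) ho).mono ?_)]
  intro y hy
  obtain ⟨c, hc⟩ := r.ge ((h.mk_mem_part hT hv' ⟨_, y.out.2.1.1⟩).2 hy.1)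
  refine u₁.ge ⟨c, ((congrArg _ hc).trans (NA.graph_mk s' (z := ⟨_, y.out.2.1⟩) hy.2)).trans ?_⟩
  exact congrArg (Quo.incl _ _) (Tq.mk_out y)

end Vale.Agent.P269.Nd
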