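import Vale.Agent.P269.Glu.NdM
import Vale.Agent.P269.Glu.Pcy
import Vale.Agent.P269.Spl.Num
import Vale.Agent.P269.Spl.DictC
import Vale.Agent.P269.Vir.Std

/-!
# Corresponding base cycles
-/

set_option linter.unusedSectionVars false

namespace Vale.Agent.P269.Nd

open P291Z Set Function Topology Filter Module Orb Holo Ch Ch.KD

variable {S Λ R J K ι ν κ ε : Type} [Fintype S] [Fintype Λ] [Fintype R] [Fintype J] [Fintype K]
  [Fintype ι] [DecidableEq ι] [Fintype ν] [Fintype κ] [Fintype ε] {ch : Ch ι J}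
  {F : Fam S Λ R J K} {ℓ : R → ι → ℤ} {e : K → ι → ℕ} {K₀ : Set K} {b : ℕ}

open Cv in
theorem rep_uW {W : Wt S Λ R J} (hl : ch.Lat W ℓ) {A : Set J} {x : ch.WF ν (κ ⊕ ε) Λ}
    (hx : x.2 ∈ ch.base _) {m : AM Λ R J ν (κ ⊕ ε)} (h : Rep ℓ A x m) :
    Rep ℓ A (uW x) (m.re (unp ν κ ε).toEmbedding) := by
  classical
  obtain ⟨B, π, u, s, d⟩ := h.exists_data hx
  obtain ⟨v, v1, v2, -⟩ := hl.dual
  let m' := m.re (unp ν κ ε).toEmbedding
  have e : m'.P = m.P := AC.re_P _ _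
  have r : Cr m.N B (uW x).2 π u m'.p (m.sg ^ ch.k) :=
    ⟨uW_mem_base.2 hx, d.cr.par, d.cr.gr, m'.sm, m'.inj, fun n => d.cr.mark _,
      (congrArg (fun P => m.sg ^ ch.k ∈ H0 m.N ((omega m.R m.N P ^ ch.k)⁻¹ * bz B ch.χ)) e).mpr
        d.cr.xi, d.cr.ne, fun y μ => (d.cr.Xi y μ).trans
        (congrArg (fun P => (m.sg ^ ch.k) y * wsec B π m.N P μ y) e.symm)⟩
  let g : m.X → ℂ := fun y => (m.sg y * m'.sg y) ^ ch.k
  have g0 : ∀ y, g y ≠ 0 := fun y => pow_ne_zero _ (mul_ne_zero (m.sg_ne y) (m'.sg_ne y))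
  let c : m.X → ι → ℂ := fun y i => g y ^ v none i
  have c0 : ∀ y i, c y i ≠ 0 := fun y i => zpow_ne_zero _ (g0 y)
  have cp : ∀ y (a : ι → ℤ), ∏ i, c y i ^ a i = g y ^ ∑ i, a i * v none i := fun y a => by
    simp only [c, ← zpow_mul, mul_comm (v none _), zpow_sum_ne (g0 y)]
  have cl : ∀ y r, ∏ i, c y i ^ ℓ r i = 1 := fun y r => by
    rw [cp, show ∑ i, ℓ r i * v none i = 0 from v2 (some r) none nofun, zpow_zero]
  have g1 : ∀ y ∉ m.P, g y = 1 := fun y a => by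
    simp only [g, m.sg_of_not_mem a, m'.sg_of_not_mem (e ▸ a), one_mul, one_pow]
  have hc : ∀ i, (fun y => c y i) ∈ H0 m.N (B i * LB.cst m.R (fun y => c y i) (c0 · i) / B i) :=
    fun i => by
      rw [mul_div_cancel_left]
      exact cst_mem0 _ fun n hn => by
        simp only [c, g1 _ fun a => Xi.not_sm_fst hn (m.sm_P _ a),
          g1 _ fun a => Xi.not_sm_snd hn (m.sm_P _ a)]
  have e₁ : (fun y => (m.sg ^ ch.k) y * ∏ i, c y i ^ ch.χ i) = m'.sg ^ ch.k := funext fun y => by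
    rw [cp, show ∑ i, ch.χ i * v none i = 1 from v1 none, zpow_one, Pi.pow_apply, Pi.pow_apply,
      ← mul_pow, ← mul_assoc, AC.sg_sq, one_mul]
  refine RepD.rep (m := m') (s := fun n => s (n.elim (Sum.elim .inl fun a => .inr (.inr a.1))
    fun q => .inr (.inl q)) / c (m'.p (n.map id fun q => (q, false))))
    ⟨d.l, e₁ ▸ r.of_iso hc c0, fun n => ?_, fun r => Eqv.trans ?_ (d.L r), fun j hj y μ => ?_⟩
  · have a : c (m'.p ((n.map id Prod.fst).map id fun q => (q, false))) = c (m'.p n) := by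
      rcases n with n | ⟨q, _ | _⟩
      · rfl
      · rfl
      · have a1 : m.sg (m'.p (.inr (q, false))) = 1 := m.sg_false (.inl q)
        have a2 : m.sg (m'.p (.inr (q, true))) = -1 := m.sg_true (.inl q)
        simp only [c, g, Sum.map_inr, a1, a2, AC.sg_true, AC.sg_false, neg_mul_neg]
    rw [a, div_eq_mul_inv, mul_smul, Dict.inv_smul (c0 _)]
    refine (d.mark _).trans ?_
    rcases n with (_ | _) | _ <;> rfl
  · have := (bz_mem hc c0 (ℓ r)).1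
    simp only [cl, bz_div] at this
    exact this
  · refine ((d.ind j hj).comp id c0 y μ).trans (congrArg (· * _) ?_)
    simp only [hl.wd, ← prod_prod_zpow (c0 y), cl, one_zpow, Finset.prod_const_one, one_mul]
    rfl

theorem lev_locP (hs : ch.Std F e K₀ ℓ) (hl : ch.Lat F.toWt ℓ) {Q : AM Λ R J ν κ → Prop}
    (hQ : AM.IvtA F.toWt F.movᶜ Q) : Lev F (ch.locP F ℓ Q) :=
  have _ := hl
  ⟨fun _ a => a.1, fun _ ha _ hx => actF_mem_locP hs.inv hQ hx ha, stb_locP hs.inv⟩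

/-- the virtual class of the closure of a locus -/
theorem vd_clP {U : Set (ch.WF ν κ Λ)} (h : ch.Ok F e K₀ ℓ b U) {Q : AM Λ R J ν κ → Prop}
    (hQ : AM.IvtA F.toWt F.movᶜ Q) {n : ℤ} (hc : ch.CyP F ℓ Q n) :
    ∃ O M d, Vd F e (ch.clP F ℓ Q) O M d := by
  obtain ⟨V, N, v1, v2, v3, v4, v5, -⟩ := hc
  have a := lev_locP h.toStd h.lat hQ
  have c : Lev F (ch.clP F ℓ Q) := a.clo h.inv h.cuts
  have z : Lev F (ch.locP F ℓ Q ∩ V) := ⟨fun _ k => k.1.1,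
    fun s hs x k => ⟨a.inv s hs x k.1, v2 s hs x k.2⟩,
    fun x k X hX => ⟨a.mov x k.1 X hX, v3 x k.2 X hX⟩⟩
  have p := v5.inter h.pr.opn
  have q : PCy (ch.clP F ℓ Q ∩ V ∩ U) (ch.locP F ℓ Q ∩ V ∩ U)
      (finrank ℂ (ch.AF ν κ S) + (N - finrank ℂ (ch.AF ν κ S))) := by
    rcases (ch.locP F ℓ Q ∩ V ∩ U).eq_empty_or_nonempty with k | ⟨x, k⟩
    · have k' : ch.clP F ℓ Q ∩ V ∩ U = ∅ := subset_empty_iff.1 (by simpa [k] using p.dense)
      rw [k, k']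
      exact pcy_self fun _ a => a.elim
    · rwa [Nat.add_sub_cancel' (h.pr.finrank_le z (v5.mfd x k.1) k.2)]
  have r := q.cyc (h.pr.ivt z) (h.pr.free z)
  rw [inter_assoc] at r
  exact ⟨_, _, _, h.toStd.vd c.adm c.inv (v1.inter h.pr.opn)
    (fun s hs x k => ⟨c.inv s hs x k.1, v2 s hs x k.2.1, h.pr.inv s hs x k.2.2⟩)
    (fun x k => ⟨v4 k, h.pr.sol k.1⟩)
    ((h.pr.prp_lev c).mono (inter_subset_inter_right _ inter_subset_right)) r⟩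

theorem mem_locP_iff (hs : ch.Std F e K₀ ℓ) (hl : ch.Lat F.toWt ℓ)
    {Q : AM Λ R J ν (κ ⊕ ε) → Prop} {Q' : AM Λ R J (ν ⊕ ε × Bool) κ → Prop}
    (hQ : AM.IvtA F.toWt F.movᶜ Q') (hq : ∀ m, Q m ↔ Q' (m.re (unp ν κ ε).toEmbedding))
    {x : ch.WF ν (κ ⊕ ε) Λ} :
    x ∈ ch.locP F ℓ Q ↔ x ∈ ch.adm ν (κ ⊕ ε) F ∧ uW x ∈ ch.locP F ℓ Q' :=
  have _ := hs
  ⟨fun ⟨a, m, c, d⟩ => ⟨a, (mem_adm_iff.1 a).2.1, _, rep_uW hl a.1.2.1 c, (hq m).1 d⟩,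
    fun ⟨a, c⟩ => let ⟨m, d⟩ := hl.exists_rep_adm a
      ⟨a, m, d, (hq m).2 ((mem_locP hl.wd hQ c.1 (rep_uW hl a.1.2.1 d)).1 c)⟩⟩

/-- vanishing at a marked point passes to the closure -/
theorem van_clo {Z : Set (ch.WF ν κ Λ)} (hZ : Z ⊆ ch.adm ν κ F) {n : Mk ν κ} {j : J}
    (hj : j ∉ F.mov) (h : ∀ x ∈ Z, (vl x n).2 j = 0) {x : ch.WF ν κ Λ} (hx : x ∈ closure Z)
    (hb : x.2 ∈ ch.base _) : (vl x n).2 j = 0 := by
  obtain ⟨U, a, c⟩ := mem_closure_iff_ultrafilter.1 hx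
  have d : Tendsto id U.toFilter (𝓝 x) := c
  exact tendsto_nhds_unique_of_eventuallyEq (lim_fld hb.1 d
    (((W.pL (ch := ch) n).continuous.tendsto _).comp d.snd_nhds) (hb.2.2.2.1 n).1 (j := j)
    (mem_of_superset a fun y k => have k' := ((hZ k).1.2.1.2.2.2.1 n).1
      ⟨k', (hZ k).2.1 j hj _ k'⟩)).2 tendsto_const_nhds (mem_of_superset a h)

theorem cont_sM (hc : ch.Cuts) {x : ch.WF (ν ⊕ ε × Bool) κ Λ} (hx : x.2 ∈ ch.base _) (q : ε)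
    (i : ι) : ContinuousWithinAt (fun y => sM ℓ (y, fun _ => 1) q i) {y | y.2 ∈ ch.base _} x := by
  obtain ⟨l, hl⟩ := hc.cut
  have a : ∀ n, ContinuousWithinAt (fun y : ch.WF (ν ⊕ ε × Bool) κ Λ => rsd y.2 n)
      {y | y.2 ∈ ch.base _} x := fun n =>
    ContinuousWithinAt.comp (g := fun y => rsd y n) ((holOn_rsd hl hx n).tendsto hx)
      continuousWithinAt_snd fun _ k => k
  have k := mul_ne_zero (pow_ne_zero ch.k (neg_ne_zero.2 one_ne_zero)) (rsd_ne hx (mq q true))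
  refine tendsto_finsetProd _ fun o _ => ?_
  cases o
  · exact ((a _).div (continuousWithinAt_const.mul (a _)) k).zpow₀ _
      (.inl (div_ne_zero (rsd_ne hx _) k))
  · exact tendsto_const_nhds

theorem cont_tM : Continuous (tM : (ε → ι → ℂ) → ch.AF (ν ⊕ ε × Bool) κ S) := by
  refine continuous_const.prodMk (continuous_const.prodMk (continuous_const.prodMk
    (continuous_pi fun n => ?_)))
  rcases n with (_ | ⟨q, _ | _⟩) | _
  exacts [continuous_const, continuous_const, continuous_apply q, continuous_const]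

theorem cont_gM (hc : ch.Cuts) (W : Wt S Λ R J) {x : ch.WF (ν ⊕ ε × Bool) κ Λ}
    (hx : x.2 ∈ ch.base _) :
    ContinuousWithinAt (fun y => gM W ℓ (y, fun _ => 1)) {y | y.2 ∈ ch.base _} x := by
  have a : ContinuousAt (fun p : (ε → ι → ℂ) × ch.WF (ν ⊕ ε × Bool) κ Λ => actF W (tM p.1) p.2)
      (sM ℓ (x, fun _ => 1), x) :=
    ContinuousAt.comp (f := fun p : (ε → ι → ℂ) × ch.WF (ν ⊕ ε × Bool) κ Λ => (tM p.1, p.2))
      (an_actF (F := W) analyticAt_fst analyticAt_snd fun _ => one_ne_zero).continuousAt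
      ((cont_tM.comp continuous_fst).prodMk continuous_snd).continuousAt
  exact continuous_dW.continuousAt.comp_continuousWithinAt
    (ContinuousAt.comp_continuousWithinAt (f := fun y => (sM ℓ (y, fun _ => 1), y)) a
      ((continuousWithinAt_pi.2 fun q => continuousWithinAt_pi.2 (cont_sM hc hx q)).prodMk
        continuousWithinAt_id))

theorem ndT_clP (hs : ch.Std F e K₀ ℓ) (hn : Num₀ ch) (hl : ch.Lat F.toWt ℓ)
    {Q : AM Λ R J ν (κ ⊕ ε) → Prop} {Q' : AM Λ R J (ν ⊕ ε × Bool) κ → Prop}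
    (hQ : AM.IvtA F.toWt F.movᶜ Q') (hq : ∀ m, Q m ↔ Q' (m.re (unp ν κ ε).toEmbedding))
    (hv : ∀ m, Q' m → ∀ q, ∀ j ∈ F.movᶜ, m.y j (m.p (.inl (.inr q))) = 0) :
    NdT F F.movᶜ (ch.clP F ℓ Q) (ch.clP F ℓ Q') := by
  have a : ∀ x ∈ ch.locP F ℓ Q', ∀ q t, ∀ j ∈ F.movᶜ, (vl x (mq q t)).2 j = 0 :=
    fun x ⟨k, m, c, d⟩ q t j hj =>
      let ⟨_, _, _, _, r⟩ := c.exists_data k.1.2.1
      (r.fld_p hj _).trans (mul_eq_zero_of_right _ (hv m d _ j hj))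
  have c : MapsTo uW (ch.clP F ℓ Q) (ch.clP F ℓ Q') := fun x k =>
    ⟨map_mem_closure continuous_uW k.1 fun y r => ((mem_locP_iff hs hl hQ hq).1 r).2,
      (mem_baseF_iff.1 k.2).1⟩
  have d : MapsTo (fun y => gM F.toWt ℓ (y, fun _ => 1)) (ch.locP F ℓ Q') (ch.locP F ℓ Q) :=
    fun y k => by
      have r : uW (gM F.toWt ℓ (y, fun _ => 1)) ∈ ch.locP F ℓ Q' := by
        rw [uW_gM]
        exact actF_mem_locP hs.inv hQ k (isUnit_tM (sM_ne k.1.1.2.1 fun _ => one_ne_zero))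
      exact (mem_locP_iff hs hl hQ hq).2 ⟨mem_adm_iff.2 ⟨gM_mem_baseF hl hs.inv k.1.1
        fun _ => one_ne_zero, r.1, fun j hj q => (a _ r q _ j hj).trans (a _ r q _ j hj).symm⟩, r⟩
  refine ⟨fun x k q t j hj => van_clo (fun _ r => r.1) hj (fun y r => a y r q t j hj) k.1 k.2.2.1,
    fun x k => c k.2, fun _ _ _ => .of_forall fun y => ⟨fun k =>
      ⟨hn.cuts.closure_inter_subset_adm hs.inv (fun _ r => r.1) k, c k⟩, fun k => ⟨?_, k.1.1⟩⟩⟩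
  exact gM_uW (W := F.toWt) (ℓ := ℓ) k.1.1 ▸ ((cont_gM hn.cuts F.toWt k.2.2.2.1).mono
    fun _ r => r.1.1.2.1).mem_closure k.2.1 d

theorem ndT_adm : NdT F F.zer (ch.adm ν (κ ⊕ ε) F) (ch.adm (ν ⊕ ε × Bool) κ F) :=
  ⟨fun _ k _ _ j hj => fld_of_zero (k.1.2.1.2.2.2.1 _).1 (k.2.2.2.1 j hj),
    fun _ k => (mem_adm_iff.1 k.2).2.1,
    fun _ _ _ => .of_forall fun _ => ⟨fun k => ⟨k, (mem_adm_iff.1 k).2.1⟩, fun k => k.1⟩⟩

/-- a base field without zeros has no zeros on nearby curves -/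
theorem ev_nz {x : ch.WF ν κ Λ} (hx : x.2 ∈ ch.base _) {j : J} (hj : j ∉ F.mov)
    (h : ∀ c ∈ crv x.2, fld x.2 c j ≠ 0) :
    ∀ᶠ y in 𝓝 x, y ∈ ch.adm ν κ F → ∀ c ∈ crv y.2, fld y.2 c j ≠ 0 := by
  refine mem_iff_ultrafilter.2 fun U hU => by_contra fun hn => ?_
  have : Nonempty ch.Pt := ⟨0⟩
  obtain ⟨z, hz⟩ := ((Ultrafilter.eventually_not.2 hn).mono fun y b =>
    show ∃ z : ch.Pt, y ∈ ch.adm ν κ F ∧ z ∈ gr y.2 ∧ fld y.2 z.1 j = 0 from by_contra fun c =>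
      b fun a _ ⟨z, k, r⟩ d => c ⟨z, a, k, r ▸ d⟩).choice
  have h1 : Tendsto id U (𝓝 x) := hU
  obtain ⟨t, z₀, a, b, c⟩ := exists_lim_gr U hx.1 h1.snd_nhds (hz.mono fun _ b => b.2.1)
  refine h _ ⟨z₀, b, rfl⟩ (tendsto_nhds_unique_of_eventuallyEq (lim_fld hx.1 h1 c.fst_nhds
    ⟨z₀, b, rfl⟩ (j := j) (hz.mono fun y k => have r : _ ∈ crv y.2 := ⟨_, tz_mem k.2.1 (a y), rfl⟩
      ⟨r, k.1.2.1 j hj _ r⟩)).2 tendsto_const_nhds (hz.mono fun y k => ?_))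
  exact (fld_smul ⟨_, k.2.1, rfl⟩ (k.1.2.1 j hj _ ⟨_, k.2.1, rfl⟩) (a y)).trans
    (mul_eq_zero_of_right _ k.2.2)

/-- near the solutions the main cycle of the absolute theory is the whole admissible space -/
theorem cyc_loc [DecidableEq R] (hs : ch.Std F e K₀ ℓ) (hF : F.Nice 0) {x : ch.WF ν κ Λ}
    (hx : x ∈ ch.solF ν κ F ∩ ch.adm ν κ F) :
    ∀ᶠ y in 𝓝 x, y ∈ ch.cyc κ F 0 ↔ y ∈ ch.adm ν κ F := by
  obtain ⟨_, _, _, _, s⟩ := hF.sh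
  filter_upwards [eventually_all.2 fun j => eventually_imp_distrib_left.2 fun hj : j ∉ F.mov =>
    eventually_imp_distrib_left.2 fun hz : j ∉ F.zer => ev_nz hx.1.1.2.1 hj fun c hc =>
      s.ne j hj hz rfl _ ((mem_solF.1 hx.1).2 c hc).2] with y a
  refine ⟨fun k => hs.cuts.cyc_subset_adm hs.inv _ k, fun k => ⟨subset_closure ⟨k,
    fun j hj hz γ hγ => ?_⟩, k.1⟩⟩
  simpa using (analyticOrderAt_eq_zero (f := fun t => fld y.2 (γ t) j)).2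
    (.inr (a j hj hz k _ hγ.mem.self_of_nhds))

theorem ndT_cyc [DecidableEq R] (hs : ch.Std F e K₀ ℓ) (hF : F.Nice 0) :
    NdT F F.zer (ch.cyc (κ ⊕ ε) F (0 : ν → J → ℕ)) (ch.cyc κ F (0 : ν ⊕ ε × Bool → J → ℕ)) := by
  have a : ∀ x ∈ ch.solF ν (κ ⊕ ε) F ∩ ch.adm ν (κ ⊕ ε) F,
      ∀ᶠ y in 𝓝 x, uW y ∈ ch.cyc κ F 0 ↔ uW y ∈ ch.adm _ κ F := fun x k =>
    continuous_uW.continuousAt.eventually (cyc_loc hs hF
      ⟨(mem_solF_iff.1 k.1).2, (mem_adm_iff.1 k.2).2.1⟩)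
  refine ⟨fun x k => ndT_adm.van x (hs.cuts.cyc_subset_adm hs.inv _ k), fun x k => ?_,
    fun x k _ => ?_⟩
  · have c := hs.cuts.cyc_subset_adm hs.inv _ k.2
    exact (a x ⟨k.1, c⟩).self_of_nhds.2 (mem_adm_iff.1 c).2.1
  · filter_upwards [a x k, cyc_loc hs hF k] with y c d
    exact d.trans ⟨fun r => ⟨r, c.2 (mem_adm_iff.1 r).2.1⟩, fun r => r.1⟩

end Vale.Agent.P269.Nd
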