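import Vale.Agent.P269.Glu.GC
import Vale.Agent.P269.Spl.GBp
import Vale.Agent.P269.Spl.Spec
import Vale.Agent.P269.Spl.DictP
import Vale.Agent.P269.Vir.Sd

set_option linter.unusedSectionVars false
set_option linter.unusedVariables false

/-!
# Positive curves in the standard charts can be glued and normalised
-/

namespace Vale.Agent.P269

open P291Z Set Function Topology Filter Module Holo Base Cv Ch

variable {S Λ R J K ι ν κ ε : Type} [Fintype S] [Fintype Λ] [Fintype R] [Fintype J] [Fintype K]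
  [Fintype ι] [DecidableEq ι] [Fintype ν] [Fintype κ] [Fintype ε] {F : Fam S Λ R J K}

namespace Ch

variable {ch : Ch ι J} {ℓ : R → ι → ℤ} {Z O : Set (ch.WF ν κ Λ)}

theorem continuous_setF (X : ch.Fld) :
    Continuous fun y : ch.WF ν κ Λ => ((y.1, setX y.2 X) : ch.WF ν κ Λ) :=
  continuous_fst.prodMk (continuous_iff_continuousAt.2 fun y =>
    have s : AnalyticAt ℂ Prod.snd y := analyticAt_snd
    AnalyticAt.continuousAt (𝕜 := ℂ) (W.an_iff.2 ⟨W.an_Q (x := Prod.snd) s,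
      W.an_p (x := Prod.snd) s, W.an_Ξ (x := Prod.snd) s, fun _ => analyticAt_const⟩))

theorem Rep.setF {A : Set J} {x : ch.WF ν κ Λ} {m : AM Λ R J ν κ} (r : Rep ℓ A x m) (X : ch.Fld) :
    Rep ℓ ∅ ((x.1, setX x.2 X) : ch.WF ν κ Λ) m :=
  let ⟨a, B, π, d, f, _⟩ := r
  ⟨a, B, π, ⟨d.par, d.mark, d.triv, d.xi⟩, f, fun _ h => h.elim⟩

theorem Lev.interS (h : Lev F Z) (hi : Ivt (actF F.toWt) O) (hs : Stb F.mov O) : Lev F (Z ∩ O) :=
  ⟨fun _ a => h.adm a.1, fun s e x a => ⟨h.inv s e x a.1, hi s e x a.2⟩,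
    fun x a X e => ⟨h.mov x a.1 X e, hs x a.2 X e⟩⟩

theorem lev_locS (hF : F.Inv) {P : AM Λ R J ν κ → Prop} (hP : AM.IvtA F.toWt F.movᶜ P) :
    Lev F (ch.locP F ℓ P) :=
  ⟨fun _ h => h.1, fun _ a _ h => actF_mem_locP hF hP h a, stb_locP hF⟩

theorem exists_axs {γ : ε → Bool → ℂ → V ch.M} (h : ∀ e, γ e true 0 = γ e false 0) :
    ∃ σ, axs σ = γ := by
  classical
  refine ⟨fun e z => if z.2 = 0 then γ e false z.1 else γ e true z.2, ?_⟩
  funext e b t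
  cases b
  · exact if_pos rfl
  · by_cases a : t = 0
    · subst a
      exact (if_pos rfl).trans (h e).symm
    · exact if_neg a

end Ch

namespace Fam

variable [DecidableEq R] {k D : ℕ} {g g' : ℤ} {d : R → ℤ}

theorem isOpen_posG : IsOpen (F.posG ν κ k D g d) := isOpen_interior

theorem ivt_posG : Ivt (actF F.toWt) (F.posG ν κ k D g d) := by
  rintro _ ⟨s, rfl⟩ x hx
  refine mem_interior_iff_mem_nhds.2 (((Ch.continuous_actF s⁻¹.isUnit).continuousAt.eventually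
    (mem_interior_iff_mem_nhds.1 (by rwa [← Ch.actF_mul, s.inv_mul, Ch.actF_one]))).mono
      fun y a b m e => ?_)
  exact a (Cv.act_mem_base b (Ch.isUnit_dupF s⁻¹.isUnit)) (m.scl F.toWt _) (e.actF b s⁻¹.isUnit)

theorem stb_posG (A : Set J) : Stb A (F.posG ν κ k D g d) := fun x hx X _ =>
  mem_interior_iff_mem_nhds.2 ((((continuous_setF x.2.X).tendsto' (x.1, setX x.2 X) x rfl).eventually
    (mem_interior_iff_mem_nhds.1 hx)).mono fun _ a b m e => a b m (e.setF _))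

theorem pos_of_posG {x} (hx : x ∈ F.posG ν κ k D g d) (hb : x.2 ∈ Ch.base _ _) {A : Set J}
    {m : AM Λ R J ν κ} (r : Rep ℓs A x m) : m.Pos F.θ k :=
  interior_subset hx hb m (r.mono (empty_subset _))

theorem mem_posG (hk : F.Big k) (hD : F.BigD k D) {x : (F.sch ν κ k D g d).WF ν κ Λ}
    (hb : x.2 ∈ Ch.base _ _) {A : Set J} {m : AM Λ R J ν κ} (r : Rep ℓs A x m) (h : m.Pos F.θ k) :
    x ∈ F.posG ν κ k D g d := by
  obtain ⟨B₀, π₀, u₀, s₀, r⟩ := r.exists_data hb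
  obtain ⟨_, y, z₀, -, -, a⟩ := r.exists_spec (chart_cuts hD) finite_empty
  refine mem_interior_iff_mem_nhds.2 (a.mono fun x b e m H => ?_)
  obtain ⟨B, π, u, s, H⟩ := H.exists_data e
  obtain ⟨z, -, c, -⟩ := b ∅ m B π u s H
  refine SpecP.pos_of h fun U v w => ?_
  obtain ⟨U₀, d1, -, -, d2, d3, -⟩ := c U v
  exact ⟨U₀, d1, d3 w, SpecP.deg_eq (by have := hk.two_le; change k ≠ 0; omega) H r d2⟩

theorem sol_posG (hF : F.Inv) (hk : F.Big k) (hD : F.BigD k D) :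
    Ch.solF _ ν κ F ⊆ F.posG ν κ k D g d := fun _ hx =>
  let ⟨_, h⟩ := (chart_lat hD).exists_rep_sol hx
  mem_posG hk hD hx.1.2.1 h
    (AM.Sol.pos hk ((h.mem_solF hx.1.2.1 hF chart_wd').1 hx) (rep_stable hD h hx.1.2.1))

variable (hk : F.Big k) (hD : F.BigD k D) (hg : g' + Fintype.card ε = g)
include hk hD hg

theorem gn : (F.sch ν κ k D g d).GN (F.nms ν (κ ⊕ ε) k D g' d) ε :=
  ⟨num₀ hk.two_le hD _ _ _, num₀ hk.two_le hD g' _ d, ⟨chart_tight, fun _ => rfl⟩,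
    ⟨chart_tight (g := g') (n := Fintype.card (Mk ν (κ ⊕ ε))), fun _ => rfl⟩, hg, funext fun o => by
      subst hg
      change k * (2 * g' - 2 + (Fintype.card (Mk ν (κ ⊕ ε)) : ℕ) + _) + _ =
        k * (2 * (g' + _) - 2 + (Fintype.card (Mk ν κ) : ℕ) + _) + _
      simp only [Fintype.card_sum, Fintype.card_prod, Fintype.card_bool]
      push_cast
      ring⟩

/-- a positive map with matched fields has a glued point -/
theorem exists_glG {y : (F.sch ν (κ ⊕ ε) k D g' d).WF ν (κ ⊕ ε) Λ} {A : Set J}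
    {m : AM Λ R J ν (κ ⊕ ε)} (hy : y ∈ F.posG ν (κ ⊕ ε) k D g' d) (hb : y.2 ∈ Ch.base _ _)
    (r : Rep ℓs A y m) (hm : ∀ j ∈ A, m.Mt (m.y j)) : ∃ (x : (F.sch ν κ k D g d).WF ν κ Λ)
      (w : (F.sch ν κ k D g d).Lb (F.nms ν (κ ⊕ ε) k D g' d) (Mk ν (κ ⊕ ε))),
      μL x w = y ∧ Gl x.2 w ∧ ∀ j ∈ A, Mt x.2 w j := by
  have a := AM.pos_glue.2 (pos_of_posG hy hb r)
  have b := hg ▸ AM.typ_glue.2 (rep_typ r hb)
  obtain ⟨B', π', u', s', r'⟩ := r.exists_data hb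
  obtain ⟨x, π, u, c⟩ := a.exists_repD (A := A) hD b (fun j hj => AC.mem_H0_glue.2
    ⟨r'.sec (W := F.toWt) chart_wd' hj, fun e => hm j hj (.inr e)⟩)
    (s := fun q => s' (q.map id .inl)) fun _ => r'.ne _
  obtain ⟨w, e, f, h, -⟩ := c.exists_gl (n := F.nms ν (κ ⊕ ε) k D g' d) (chart_lat hD) chart_tight
    r' fun _ => rfl
  exact ⟨x, w, e, f, h⟩

/-- positive curves can be glued -/
theorem sur_posG (hF : F.Inv) {T : Set ((F.sch ν (κ ⊕ ε) k D g' d).WF ν (κ ⊕ ε) Λ)}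
    (hT : T ⊆ Ch.adm _ ν _ F ∩ F.posG ν (κ ⊕ ε) k D g' d) : SurjOn μG
      (Zn F T : Set ((F.sch ν κ k D g d).WG (F.nms ν (κ ⊕ ε) k D g' d) ν κ ε Λ)) T := by
  classical
  intro y hy
  obtain ⟨a, b⟩ := hT hy
  obtain ⟨m, r⟩ := (chart_lat hD).exists_rep_adm a
  obtain ⟨x, w, rfl, h, e⟩ := exists_glG (κ := κ) hk hD hg b a.1.2.1 r
    ((r.mem_adm a.1.2.1 hF chart_wd' Subset.rfl).1 a).2.2.2
  exact ⟨((x.1, setX x.2 fun j => if j ∈ F.mov then 0 else x.2.X j), w),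
    ⟨⟨⟨⟨h.Q, h.Ξ⟩, h.mem, h.mem', h.surj, h.inj, h.mark, h.node, h.par⟩, hy, fun j hj μ =>
      (congrArg (fun T : _ →L[ℂ] _ => w.2.2 (some j) (T μ)) (if_neg hj)).trans (e j hj μ)⟩,
      fun j hj => if_pos hj⟩, rfl⟩

theorem glb_posG {y : (F.sch ν (κ ⊕ ε) k D g' d).WF ν (κ ⊕ ε) Λ}
    (hy : y ∈ F.posG ν (κ ⊕ ε) k D g' d) :
    (F.sch ν κ k D g d).Glb (n := F.nms ν (κ ⊕ ε) k D g' d) y.2 :=
  ((Continuous.prodMk_right y.1).continuousAt.eventually (isOpen_posG.mem_nhds hy)).mono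
    fun y' a b => by
      obtain ⟨m, r⟩ := (chart_lat hD).exists_rep (A := ∅) (Z := univ) (x := (y.1, y'))
        (Ch.mem_baseF.2 ⟨trivial, b⟩) fun _ h => h.elim
      obtain ⟨x, w, e, h, -⟩ := exists_glG (κ := κ) hk hD hg a b.1 r fun _ h => h.elim
      exact ⟨x.2, w, h, congrArg Prod.snd e⟩

/-- positive curves can be normalised -/
theorem lab_posG {x : (F.sch ν κ k D g d).WF ν κ Λ} (hx : x ∈ F.posG ν κ k D g d)
    (hb : x ∈ Ch.baseF _ ν κ univ) : Lab ε (F.nms ν (κ ⊕ ε) k D g' d) x.2 := fun γ a b => by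
  obtain ⟨σ, rfl⟩ := exists_axs fun e => (a e).2.2.2.1
  obtain ⟨m, r⟩ := (chart_lat hD).exists_rep (A := ∅) hb fun _ h => h.elim
  obtain ⟨B, π, u, s, c⟩ := r.exists_data hb.2.1
  obtain ⟨v, hv, e⟩ := c.exists_axes (σ := σ) a b
  have p := (AM.pos_cut hv).2 (pos_of_posG hx hb.2.1 r)
  obtain ⟨w, f, -, -, h, i⟩ := c.exists_lab (n := F.nms ν (κ ⊕ ε) k D g' d) (chart_lat hD)
    chart_tight hv fun s' hs =>
      let ⟨x', π', u', r'⟩ := p.exists_repD (A := ∅) hD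
        ((AM.typ_cut hv).2 (hg ▸ rep_typ r hb.2.1)) (fun _ h => h.elim) hs
      ⟨x', _, π', u', r'⟩
  exact ⟨w, f, i σ e, glb_posG hk hD hg (mem_posG hk hD f.mem' h p)⟩

end Fam

end Vale.Agent.P269
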