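import Vale.Agent.P269.LG.Lab
import Vale.Agent.P269.Glu.Main
import Vale.Agent.P269.Glu.Cls
import Vale.Agent.P269.Glu.Std0
import Vale.Agent.P269.Glu.Cas0
import Vale.Agent.P269.Glu.NdC
import Vale.Agent.P269.Glu.NdT
import Vale.Agent.P269.Fg.Dm
import Vale.Agent.P269.Bas.Dg

/-!
# Gluing one node on the level of classes
-/

set_option linter.unusedSectionVars false

namespace Vale.Agent.P269

open P291Z Set Function Topology Filter Module Holo Ch Ch.KD Nd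

variable {S Λ R J K I ι ν κ ε : Type} [Fintype S] [Fintype Λ] [Fintype R] [Fintype J] [Fintype K]
  [Fintype I] [Fintype ι] [DecidableEq ι] [Fintype ν] [Fintype κ] [Fintype ε]
  {F : Fam S Λ R J K} {K₀ : Set K}

namespace NdG

section gen

variable {ch : Ch ι J} {n : Nm ι J} {e : K → ι → ℕ} {ℓ : R → ι → ℤ}
  {T M : Set ((ch.re n).WF ν (κ ⊕ ε) Λ)} {N : ℕ} {U : Set (ch.WF ν κ Λ)}

theorem lf_Qp (z : ch.WG n ν κ ε Λ) :
    (Ch.lf F z).2.Q = z.2.1.Q ∧ (Ch.lf F z).2.p = z.2.1.p :=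
  have e := add_ι₂ (F := F) (z := z) (lfX F.mov z.1.2 z.2)
  ⟨(congrArg (fun y => (μG y).2.Q) e :), (congrArg (fun y => (μG y).2.p) e :)⟩

variable (h : ch.GH n F e K₀ ℓ T M N)
include h

theorem gz : GZ F ℓ ((ch.re n).solF ν (κ ⊕ ε) F ∩ T) :=
  let ⟨_, a⟩ := h.pr'
  (h.vd a).gz (h.std.re n)

variable (hU : Pr F U)
include hU

/-- the virtual class of the labelled space is unique -/
theorem uniq {v v'} (hv : (ch.kdL ν κ ε n F e).IsV (actG F.toWt) (ZL F T) (Zf F T) v)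
    (hv' : (ch.kdL ν κ ε n F e).IsV (actG F.toWt) (ZL F T) (Zf F T) v') : v = v' := by
  obtain ⟨m, g⟩ := h.gd hU
  obtain ⟨V, a, b⟩ := h.std.exists_OF (κ' := ε) h.num hU.opn
  have o : ∃ V, IsOpen V ∧ OF F e T U = Zf F T ∩ V :=
    ⟨V, a, Set.ext fun z => and_congr_right fun c => b T h.lev z c.1⟩
  obtain ⟨k, i, c, -⟩ := g.exists_isKP
  exact ((g.dom' o).eq_vir_fnd (h.cyc hU) c hv).trans
    ((g.dom' o).eq_vir_fnd (h.cyc hU) c hv').symm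

/-- the cotangent lines of the normalised curve -/
theorem psi_lf (a : Mk ν (κ ⊕ ε)) : H.map h.eqM_lf.map (F.cl _ (.psi a)) =
    -hcls ((((ch.re n).sdψ S Λ a).pb θG μG).eu (actG F.toWt : ch.AG n ν κ ε S → _) (ZL F T)) := by
  obtain ⟨m, g⟩ := h.gd hU
  have z := gz h
  have := g.isActZ
  have := z.act
  have o := z.psi a
  have b : ((ch.re n).sdψ S Λ a).pb (θG : ch.AG n ν κ ε S → _) μG =
      ((ch.re n).sdψ S Λ a).pb θG (Ch.lf F) := by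
    simp only [SD.pb, crv, gr, (lf_Qp _).1, (lf_Qp _).2]
    rfl
  rw [z.cl_psi, map_neg, b]
  exact congrArg Neg.neg ((o.pb h.eqM_lf).pull_id o g.orbZ z.orb h.eqM_lf (fun _ _ => rfl)
    (fun _ _ => rfl) fun _ _ _ _ _ _ => rfl).1.symm

variable [DecidableEq R] [DecidableEq I] {φ : I → J} {c : J → I → ℤ} {ψ : J → (Λ → ℂ) → ℂ}
  {T' O' M' : Set ((ch.re n).WF (ν ⊕ ε × Bool) κ Λ)} {d' : ℕ}
  (hF : F.Good) (hc : Cx F F.zer φ (ch.re n) e K₀ ℓ c ψ) (hT : NdT F F.zer T T')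
  (hv : Vd F e T' O' M' d') {t : Coch F.X3} (ht : IsD3 F t)
include hF hc hT hv ht

/-- the normalisation map and the virtual classes -/
theorem vir {l : List ε} (hl : l.Nodup) (hl' : ∀ q, q ∈ l) :
    IsClosedEmbedding (hT.π ∘ h.eqM_lf.map) ∧
    (∃ m, IsCo (range (hT.π ∘ h.eqM_lf.map)) m (dgP F t _ l)) ∧
    ∀ [Nice (ModS F T')] v, (ch.kdL ν κ ε n F e).IsV (actG F.toWt) (ZL F T) (Zf F T) v →
      gys (hT.π ∘ h.eqM_lf.map) (dgP F t _ l) (virF F e T') = v := by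
  obtain ⟨U', hU'⟩ := h.pr'
  have := h.nice
  have := hv.nice hc.std
  obtain ⟨a, b⟩ := h.emb hU
  obtain ⟨c1, -, -, c2, c3⟩ := nd_gys hc hT (h.vd hU') hv (St.dg F K₀ hF h.std.reg).1 ht a
    (b.trans (Set.ext fun y => ⟨fun a => mem_iInter.2 fun q => a q, fun a q => mem_iInter.1 a q⟩)) hl hl'
  refine ⟨c1, c2, fun v d => ?_⟩
  rw [uniq h hU d (h.isV hU hF hl hl').2.2, Fam.dgL, List.map_map]
  exact c3.symm

theorem core (hK : CompactSpace (ModS F T')) {C : Set (ch.WF ν κ Λ)} (hz : GZ F ℓ (ch.solF ν κ F ∩ C))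
    (hC : ch.adm ν κ F ⊆ C) {l : List ε} (hl : l.Nodup) (hl' : ∀ q, q ∈ l) :
    ∃ (Ψ : C(Quo (actG F.toWt : ch.AG n ν κ ε S → _) (ZL F T), ModS F C))
      (Φ : C(Quo (actG F.toWt : ch.AG n ν κ ε S → _) (ZL F T), ModS F T')),
      Nice (Quo (actG F.toWt : ch.AG n ν κ ε S → _) (ZL F T)) ∧
      CompactSpace (Quo (actG F.toWt : ch.AG n ν κ ε S → _) (ZL F T)) ∧
      (∀ z, ∃ h, Ψ (Quo.mk _ z) = Quo.mk _ ⟨z.1.1, h⟩) ∧ Injective Φ ∧
      (∀ z m, Rep ℓ univ (Ch.lf F z.1) m → ∃ x, Φ (Quo.mk _ z) =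
        Quo.mk _ x ∧ Rep ℓ univ x.1 (m.re (unp ν κ ε).toEmbedding)) ∧
      (∀ n, H.map Φ (hcls (psiF (.inl (.inl n)))) = H.map Ψ (hcls (psiF (.inl n)))) ∧
      (∀ q b, H.map Φ (hcls (psiF (mq q b))) =
        -hcls ((((ch.re n).sdψ S Λ (nq q b)).pb θG μG).eu _ _)) ∧
      ∀ t, IsD3 F t → (∃ m, IsCo (range Φ) m (dgP F t _ l)) ∧ ∀ [Nice (ModS F T')] v,
        (ch.kdL ν κ ε n F e).IsV (actG F.toWt) (ZL F T) (Zf F T) v →
        gys Φ (dgP F t _ l) (virF F e T') = v := by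
  have f : EqM (actG F.toWt : ch.AG n ν κ ε S → _) (actF F.toWt) (ZL F T) (ch.solF ν κ F ∩ C)
      (fun a => a.1) Prod.fst := eqM_fst.mono (subset_univ _) fun z a =>
    ⟨a.2, hC (Zb.adm h.num h.std.inv h.lev.adm a.1.1)⟩
  obtain ⟨m, gd⟩ := h.gd hU
  have a := (vir h hU hF hc hT hv ht hl hl').1
  have p := fun a => (bc_uW hT.mapsTo).cl_psi (gz h) (hv.gz hc.std) a
  have := gd.isActZ
  refine ⟨f.map, hT.π.comp h.eqM_lf.map, gd.niceZ, a.compactSpace, fun z => ⟨_, rfl⟩, a.injective,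
    fun z m a => ⟨_, rfl, rep_uW hc.lat (h.eqM_lf.maps z.2).1.1.2.1 a⟩, fun n => ?_, fun q b => ?_,
    fun t ht => (vir h hU hF hc hT hv ht hl hl').2⟩
  · rw [← H.map_map]
    exact (congrArg _ (p _).symm).trans (psi_glue hz (gz h) gd.orbZ (fun _ a => a.1.1.1)
      (fun z _ => lf_Qp z) f h.eqM_lf (.inl n)).symm
  · rw [← H.map_map]
    exact (congrArg _ (p _).symm).trans (psi_lf h hU (nq q b))

end gen

variable [DecidableEq R] {k D b : ℕ} {g g' : ℤ} {d : R → ℤ}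

theorem posO_eq : F.posO ν κ k D g d = F.posG ν κ k D g d :=
  congrArg interior (Set.ext fun _ => imp_congr_right fun _ => ⟨fun h => h ∅, fun h _ m r =>
    let ⟨a, B, π, b, c, _⟩ := r
    h m ⟨a, B, π, b, c, fun _ => False.elim⟩⟩)

theorem pcy_adm {ch : Ch ι J} (hA : F.Abs) (hF : F.Inv) (hB : F.Sm b) (h : Num₀ ch) :
    PCy (ch.adm ν κ F) (ch.adm ν κ F) (ch.dimM ν κ F b (Fintype.card Empty)).toNat :=
  (abs_cyc (ch := ch) (ν := ν) (κ := κ) hA hF).2 ▸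
    pcy_self fun _ hx => (h.mfd_main hB (abs_gr hA hF h) hx).2

variable (ν d) in
theorem gh (hF : F.Good) (hR : F.Reg K₀) (hB : F.Sm b) (hA : F.Abs) (hk : F.Big k)
    (hD : F.BigD k D) (hg : g = g' + 1) :
    ∃ N, (F.sch ν (Fin 0) k D g d).GH (F.nms ν (Fin 0 ⊕ Unit) k D g' d) F
      (F.tdeg (F.sch ν (Fin 0) k D g d)) K₀ ℓs (F.TL ν k D g' d) (F.TL ν k D g' d) N := by
  have hg' : g' + Fintype.card Unit = g := hg.symm
  have a := Fam.gn (ν := ν) (κ := Fin 0) (d := d) hk hD hg'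
  have l := (lev_adm hF.toInv).interS (Fam.ivt_posG (F := F) (ν := ν) (κ := Fin 0 ⊕ Unit) (k := k)
    (D := D) (g := g') (d := d)) (Fam.stb_posG _)
  rw [Fam.TL, posO_eq]
  exact ⟨_, Fam.chart_std hF hR hD, a, l, l, (pcy_adm hA hF.toInv hB a.num').inter Fam.isOpen_posG,
    hF.exists_pr hk hD g' d, Fam.sur_posG hk hD hg' hF.toInv Subset.rfl⟩

variable (F ν k D g g' d) in
/-- The statement for the chart with `N` special points. -/
def Aux (N : ℕ) : Prop :=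
    ∃ (Ψ : C(F.ML ν k D g g' d, F.Mod (Fin 0) k D g d (0 : ν → J → ℕ)))
      (Φ : C(F.ML ν k D g g' d,
        ModS F ((F.chart g' N d k D).cyc (Fin 0) F (0 : ν ⊕ Unit × Bool → J → ℕ)))),
      P291Z.Nice (F.ML ν k D g g' d) ∧ CompactSpace (F.ML ν k D g g' d) ∧
      (∀ z : F.SL ν k D g g' d, ∃ h, Ψ (Quo.mk _ z) = Quo.mk _ ⟨z.1.1, h⟩) ∧ Injective Φ ∧
      (∀ (z : F.SL ν k D g g' d) m, Ch.Rep ℓs univ (Ch.lf F z.1) m → ∃ x, Φ (Quo.mk _ z) =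
        Quo.mk _ x ∧ Ch.Rep ℓs univ x.1 (m.re (Ch.unp ν (Fin 0) Unit).toEmbedding)) ∧
      (∀ n, H.map Φ (hcls (psiF (.inl (.inl n)))) = H.map Ψ (hcls (psiF (.inl n)))) ∧
      (∀ b, H.map Φ (hcls (psiF (mq () b))) = -hcls ((F.sdL ν k D g g' d b).eu _ _)) ∧
      ∀ t, IsD3 F t → (∃ m, IsCo (range Φ) m (evT (mq () false) (mq () true) F.cone3 t)) ∧
        ∀ [P291Z.Nice (ModS F ((F.chart g' N d k D).cyc (Fin 0) F (0 : ν ⊕ Unit × Bool → J → ℕ)))]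
        v, (F.kdL ν k D g g' d).IsV (F.acL ν k D g g' d) (F.SL ν k D g g' d) (F.OL ν k D g g' d) v →
          gys Φ (evT (mq () false) (mq () true) F.cone3 t)
            (virF F (F.tdeg (F.chart g' N d k D)) _) = v

theorem aux (hF : F.Nice 0) (hA : F.Abs) (hC : F.Cp) (hk : F.Big k) (hD : F.BigD k D)
    (hg : g = g' + 1) (N : ℕ) (hN : Fintype.card (Mk ν (Fin 0 ⊕ Unit)) = N) :
    Aux ν F k D g g' d N := by
  subst hN
  have hI := hF.toInv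
  obtain ⟨K₀, hR⟩ := hF.reg
  obtain ⟨b, hB⟩ := hF.sm
  obtain ⟨r, φ, c, ψ, hs⟩ := hF.sh
  obtain ⟨t₀, ht₀⟩ := X3.exists_isD3 hF
  obtain ⟨N, h⟩ := gh ν d hF.toGood hR hB hA hk hD hg
  obtain ⟨U, hU⟩ := hF.toGood.ok' ν (Fin 0) hR hB hk hD g d
  have hn := Fintype.card_congr (Ch.unp ν (Fin 0) Unit)
  obtain ⟨U', u1, u2, u3, u4, u5⟩ := hF.toGood.exists_prp (g := g') (d := d) hk hD hn
  have ok := Fam.chart_ok hF.toGood hR hB hk hD
    (⟨u1, fun _ hs => u2 hs.unit, u3, u4, fun y hy => (u5 y hy).mk'⟩ : Pr F U')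
  obtain ⟨B, b1, b2, b3⟩ := hF.toGood.exists_cp hC
  have hK := Cpt.compactSpace_mod (g := g') (d := d) hF.toGood hk hD hn b2 b1 b3
    (0 : ν ⊕ Unit × Bool → J → ℕ)
  have hv : Vm F _ (0 : ν ⊕ Unit × Bool → J → ℕ) U' _ :=
    ok.vd (abs_gr hA hI ok.num) (locAn_main ok.cuts ok.wt hF.pol _)
  have hc : Cx F F.zer φ _ _ K₀ ℓs c ψ := ⟨ok.toStd, ok.num, ok.lat, Subset.rfl, hF, hs⟩
  have hT : NdT F F.zer (F.TL ν k D g' d) ((F.sch ν (Fin 0 ⊕ Unit) k D g' d).cyc (Fin 0) F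
      (0 : ν ⊕ Unit × Bool → J → ℕ)) := by
    rw [(abs_cyc hA hI).1, Fam.TL, posO_eq]
    refine ⟨ndT_adm.van, fun x a => ndT_adm.maps x ⟨a.1, a.2.1⟩, fun x a e => ?_⟩
    filter_upwards [ndT_adm.loc x a e, Fam.isOpen_posG.mem_nhds (Fam.sol_posG hI hk hD a.1)]
      with y f p using (and_iff_left p).trans f
  obtain ⟨Ψ, Φ, a1, a2, a3, a4, a5, a6, a7, a8⟩ := core h hU.pr hF.toGood hc hT hv ht₀ hK
    ((hU.vd (abs_gr hA hI hU.num) (locAn_main hU.cuts hU.wt hF.pol _)).gz hU.toStd)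
    (abs_cyc hA hI).1.ge (List.nodup_singleton ()) fun _ => List.mem_singleton.2 rfl
  simp only [dgP, List.map_singleton, List.prod_singleton] at a8
  exact ⟨Ψ, Φ, a1, a2, a3, a4, a5, a6, a7 (), a8⟩

end NdG

/-- **Gluing one node.** -/
theorem St.gnc : St.GNc := fun _ _ _ _ _ d hF hA hC hk hD hg =>
  let ⟨Ψ, Φ, a1, a2, a3, a4, a5, a6, a7, a8⟩ := NdG.aux (d := d) hF hA hC hk hD hg _
    (Fintype.card_congr (Ch.unp _ (Fin 0) Unit)).symm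
  ⟨Ψ, Φ, a1, a2, a3, a4, a5, a6, a7, X3.exists_isD3 hF, fun t ht => (a8 t ht).1,
    fun t ht => (a8 t ht).2⟩

end Vale.Agent.P269
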