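import Vale.Agent.P269.Glu.FpB
import Vale.Agent.P269.Gen.Num
import Vale.Agent.P269.LG.KunB
import Vale.Agent.P269.Prj.Tgt

set_option linter.unusedSectionVars false
set_option linter.style.haveILetI false

/-!
# The parameter space: the class of the diagonal
-/

namespace Vale.Agent.P269

open Set Function Topology Filter Module P291Z Holo Ch Ch.KD

namespace FpD

variable {X X₁ X₂ : Type} [TopologicalSpace X] [TopologicalSpace X₁] [TopologicalSpace X₂]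

theorem cls_mul {c : H X} (hc : c ∈ Hev X) {a : Coch X} (ha : a ∈ Zc X) :
    ∀ t, supp (δ t) = ∅ → hcls t = c →
      P291Z.cls (t * a) = Hc.act c (P291Z.cls a) := by
  have key : ∀ t t' : Coch X, supp (δ t) = ∅ → supp (δ t') = ∅ → hcls t = hcls t' →
      P291Z.cls (t * a) = P291Z.cls (t' * a) := fun t t' h h' e =>
    let ⟨u, hu⟩ := (hcls_eq_iff h h').1 e
    cls_eq_of_cohom ha.1
      ((Cohom.mul_right (A := univ) ⟨u, subset_univ _, hu⟩ ha.2).mono inter_subset_right)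
  refine Hev.induction (P := fun c => ∀ t, supp (δ t) = ∅ → hcls t = c →
    P291Z.cls (t * a) = Hc.act c (P291Z.cls a)) hc (fun k c h t ht e => ?_)
    fun c c' h h' t ht e => ?_
  · obtain ⟨s, h1, h2, rfl⟩ := H.isDeg_iff.1 h
    rw [key t s ht h1 e, Hc.act_cls h1 ha]
    exact cls_eq_of_cohom ha.1 ((cohom_comm_even ha.2 h1 h2).symm.mono inter_subset_left)
  · obtain ⟨s, h1, rfl⟩ := hcls_surj c
    obtain ⟨s', h2, rfl⟩ := hcls_surj c'
    rw [key t (s + s') ht (cocycle_add h1 h2) (e.trans (hcls_add h1 h2).symm), add_mul,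
      cls_add (mul_Zc' h1 ha) (mul_Zc' h2 ha), h s h1 rfl, h' s' h2 rfl, map_add,
      LinearMap.add_apply]

theorem ev_mul {c : H X} (hc : c ∈ Hev X) {a t : Coch X} (ha : a ∈ Zc X) (ht : supp (δ t) = ∅)
    (e : hcls t = c) (β : BM X) : ev β (t * a) = ev (cap c β) a := by
  rw [ev_eq, ev_eq, cls_mul hc ha t ht e, cap_apply]

theorem nd [Nice X] [CompactSpace X] {β γ : BM X} (h : ∀ c, Loc.intg β c = Loc.intg γ c) : β = γ :=
  BM.ext_ev fun a ha => by rw [← Loc.intg_hcls β ha.2, ← Loc.intg_hcls γ ha.2, h]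

variable [Nice X₁] [Nice X₂]

theorem cap_cross {c₁ : H X₁} (h : c₁ ∈ Hev X₁) (c₂ : H X₂) (β₁ : BM X₁) (β₂ : BM X₂) :
    pd (cross Prod.fst Prod.snd β₁ β₂) (H.map .fst c₁ * H.map .snd c₂) =
      cross Prod.fst Prod.snd (cap c₁ β₁) (cap c₂ β₂) := by
  refine Hev.induction (P := fun c₁ => pd (cross Prod.fst Prod.snd β₁ β₂)
    (H.map .fst c₁ * H.map .snd c₂) = cross Prod.fst Prod.snd (pd β₁ c₁) (cap c₂ β₂)) h
    (fun k c h => P291Z.cap_cross (p₁ := .fst) (p₂ := .snd) MultB.isHomeomorph_prod h _ _ _)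
    fun a b ha hb => ?_
  rw [map_add, add_mul, map_add, ha, hb, map_add, map_add, LinearMap.add_apply]

theorem ext_cross [CompactSpace X₁] [CompactSpace X₂] {β γ : BM (X₁ × X₂)}
    (h : ∀ c c', Loc.intg β (H.map .fst c * H.map .snd c') =
      Loc.intg γ (H.map .fst c * H.map .snd c')) : β = γ := by
  obtain ⟨e, he⟩ := LG.KB.exists_kun (A₁ := X₁) (A₂ := X₂)
  refine nd fun c => ?_
  obtain ⟨x, rfl⟩ := e.surjective c
  induction x with
  | zero => rw [map_zero, map_zero, map_zero]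
  | add a b ha hb => rw [map_add, map_add, map_add, ha, hb]
  | tmul c c' => rw [he, h]

theorem ori_cross {b : ℕ} {β : BM X₁} (hβ : Orb.Ori (2 * b) β)
    (h : ∀ y, ∃ σ : (Fin b → ℂ) → X₁, σ 0 = y ∧ LH σ 0 ∧ Orb.Val β σ 1) :
    Orb.Ori (2 * (b + b : ℕ)) (cross Prod.fst Prod.snd β β) := by
  refine ⟨(by push_cast; ring : (2 * b + 2 * b : ℤ) = 2 * (b + b : ℕ)) ▸
    BM.IsDeg.cross MultB.isHomeomorph_prod hβ.deg hβ.deg, FpB.locFin_prod hβ.fin hβ.fin,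
    fun x => ?_⟩
  obtain ⟨σ, s1, s2, s3⟩ := h x.1
  obtain ⟨σ', t1, t2, t3⟩ := h x.2
  obtain ⟨a, a1, a2⟩ := (MultB.gch_of_lh (FpB.lh_pc s2 t2)).gen
  exact ⟨a, (Prod.ext s1 t1 : (Prod.map σ σ' ∘ FpB.sp b b) 0 = x) ▸ a1,
    right_ne_zero_of_mul_eq_one (FpB.val_pc s2 t2 s3 t3 a 1 a1.cyc a1.pt a2)⟩

/-- the class of the diagonal of a compact oriented manifold -/
theorem hcls_diag [CompactSpace X₁] {n : ℤ} {φ : BM X₁}
    (o : Orb.Ori n (cross Prod.fst Prod.snd φ φ : BM (X₁ × X₁))) {Δ : Coch (X₁ × X₁)} {b : ℕ}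
    (h1 : IsCo (range fun x => (x, x)) b Δ)
    (h2 : gys (fun x => (x, x)) Δ (cross Prod.fst Prod.snd φ φ) = φ) {ι : Type} [Fintype ι]
    {e f : ι → H X₁} (he : ∀ q, e q ∈ Hev X₁ ∧ f q ∈ Hev X₁)
    (h : ∀ c c', ∑ q, Loc.intg φ (e q * c) * Loc.intg φ (f q * c') = Loc.intg φ (c * c')) :
    hcls Δ = ∑ q, H.map .fst (e q) * H.map .snd (f q) := by
  refine o.pd_bijective.1 (ext_cross fun c c' => ?_)
  rw [Orb.pd_eq_cap, ← Loc.push_gys_eq_cap FpB.emb_diag h1.cocycle h1.supp, h2, map_sum,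
    Loc.intg_sum]
  refine (Loc.intg_push ⟨_, FpB.emb_diag.continuous⟩ φ _).trans ?_
  rw [map_mul, H.map_map, H.map_map, H.map_id fun _ => rfl, H.map_id fun _ => rfl, ← h]
  refine Finset.sum_congr rfl fun q _ => ?_
  rw [cap_cross (he q).1, LG.KB.intg_cross, Loc.intg_cap, Loc.intg_cap, Hev.commute (he q).1,
    Hev.commute (he q).2]

end FpD

variable {S Λ R J K β : Type} [Fintype S] [Fintype Λ] [Fintype R] [Fintype J] [Fintype K]
  [Fintype β]

theorem Fam.Good.bsOk [DecidableEq R] {F : Fam S Λ R J K} (h : F.Good) {b : ℕ} (hB : F.Sm b) :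
    ∃ b', BsOk F.actL F.B b' :=
  haveI := h.fpB
  ⟨_, this.toIsAct, Tq.orb F.actL F.B, fun l hl a ha e => h.freeB a ha l hl e,
    Tq.Dim.of_mfd (act := F.actL) fun x hx => ⟨hx, hB ⟨x, hx⟩⟩⟩

variable {F : Wt S Λ R J} {B : Set (Λ → ℂ)} {b : ℕ} [IsAct F.actL B] [Nice (F.Bs B)]
  [CompactSpace (F.Bs B)]

theorem BsOk.intB_eq (h : BsOk F.actL B b) (c : H (F.Bs B)) :
    F.intB B c = Loc.intg (fnd F.actL B b) c := by
  haveI : Mono.FP F.actL B :=
    { h.isAct with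
      proper := h.orb.proper
      lc := h.orb.nice.lc
      free := fun x => Holo.Sp.free_iff.1 (h.free _ x.val_mem) }
  exact (Wt.intB_eq c).trans (congrArg (Loc.intg · c) (Tq.Dim.fnd_eq (act := F.actL) h.mf))

/-- **the class of the diagonal** -/
theorem BsOk.hcls_eq (h : BsOk F.actL B b) {Δ : Coch (F.Bs B × F.Bs B)} (hΔ : IsDB F.actL B b Δ)
    {e f : β → H (F.Bs B)} (hc : F.CasB B e f) :
    hcls Δ = ∑ q, H.map .fst (e q) * H.map .snd (f q) := by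
  refine FpD.hcls_diag (FpD.ori_cross ((FpB.holOrb h).ori Orb.isQuo_sp) fun y => ?_) hΔ.co hΔ.gys
    hc.1 fun c c' => ?_
  · obtain ⟨l, rfl⟩ := Holo.Sp.surjective_mk y
    obtain ⟨_, _, _, a1, a2, a3, _⟩ := FpB.exists_base h l
    exact ⟨_, congrArg Holo.Sp.mk a1, a2, a3⟩
  · have := hc.2 c c'
    simp only [h.intB_eq] at this
    exact this

section num

variable {X X₁ X₂ Y : Type} [TopologicalSpace X] [TopologicalSpace X₁] [TopologicalSpace X₂]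
  [TopologicalSpace Y] [Nice X₁] [Nice X₂] [Nice Y]

/-- **integrals over a fibre product** -/
theorem ev_gys_cross {Φ : X → X₁ × X₂} (hΦ : IsClosedEmbedding Φ) (p₁ : C(X₁, Y)) (p₂ : C(X₂, Y))
    {Δ : Coch (Y × Y)} {n : ℕ} (hΔ : IsCo (range fun y => (y, y)) n Δ)
    (hr : range Φ = {x | p₁ x.1 = p₂ x.2}) {e f : β → H Y} (he : ∀ q, e q ∈ Hev Y ∧ f q ∈ Hev Y)
    (h : hcls Δ = ∑ q, H.map .fst (e q) * H.map .snd (f q)) (v₁ : BM X₁) (v₂ : BM X₂)
    {a₁ : Coch X₁} {a₂ : Coch X₂} (h₁ : a₁ ∈ Zc X₁) (h₂ : a₂ ∈ Zc X₂) :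
    ev (gys Φ (pull (Prod.map p₁ p₂) Δ) (cross Prod.fst Prod.snd v₁ v₂))
        (pull (fun x => (Φ x).1) a₁ * pull (fun x => (Φ x).2) a₂) =
      ∑ q, ev v₁ (pull p₁ (rep (e q)) * a₁) * ev v₂ (pull p₂ (rep (f q)) * a₂) := by
  have hp : IsHomeomorph fun x : X₁ × X₂ => (x.1, x.2) := MultB.isHomeomorph_prod
  have ha := cross_Zc (IsPr.of_isHomeomorph hp) h₁ h₂
  have ht := cocycle_pull (p₁.prodMap p₂).continuous hΔ.cocycle
  have e1 : pull (fun x => (Φ x).1) a₁ * pull (fun x => (Φ x).2) a₂ =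
      pull Φ (pull Prod.fst a₁ * pull Prod.snd a₂) := by
    rw [map_mul, pull_pull, pull_pull]
    rfl
  rw [e1]
  refine (Orb.ev_gys hΦ ht (fun x hx => ?_) _ (Near.of_Zc ha)).trans ?_
  · obtain ⟨y, hy⟩ := hΔ.supp (supp_pull (p₁.prodMap p₂).continuous Δ hx)
    rw [hr]
    exact (congrArg Prod.fst hy).symm.trans (congrArg Prod.snd hy)
  rw [← Orb.ev_cap ht ha, ← H.map_hcls _ hΔ.cocycle, h, ← Orb.pd_eq_cap, map_sum, map_sum,
    Orb.sum_ev]
  refine Finset.sum_congr rfl fun q _ => ?_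
  have k : ∀ {Z : Type} [TopologicalSpace Z] (p : C(Z, Y)) {c : H Y}, c ∈ Hev Y →
      ∀ (v : BM Z) {a : Coch Z}, a ∈ Zc Z → ev v (pull p (rep c) * a) = ev (cap (H.map p c) v) a :=
    fun p c hc v a ha => FpD.ev_mul (map_mem_Hev p hc) ha
      (cocycle_pull p.continuous (Mono.DgI.rep_cocycle c))
      (by rw [← H.map_hcls _ (Mono.DgI.rep_cocycle c), Mono.DgI.hcls_rep]) v
  rw [k p₁ (he q).1 v₁ h₁, k p₂ (he q).2 v₂ h₂, ← cross_spec hp _ _ a₁ h₁ a₂ h₂,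
    ← FpD.cap_cross (map_mem_Hev p₁ (he q).1), map_mul, H.map_map, H.map_map, H.map_map, H.map_map]
  rfl

end num

end Vale.Agent.P269
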