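import Vale.Agent.P269.Glu.PrDefs

set_option linter.unusedSectionVars false

/-!
# Disjoint unions of embedded curves
-/

namespace Vale.Agent.P269.PrCv

open Set Function Topology Filter

variable {ι : Type} [Fintype ι] {M M' : ι → ℕ} (φ : HV M M') {γ γ' γ₁ γ₂ : ℂ → V M} {o : ι}
  {C : Set (V M)} {c : V M}

/-- The map of the ambient spaces as a continuous linear map. -/
noncomputable def apL : V M →L[ℂ] V M' := .pi fun i => φ i ∘L .proj i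

theorem cont : Continuous (apV φ) := (apL φ).continuous

theorem smul (t : ι → ℂ) (c : V M) : apV φ (t • c) = t • apV φ c :=
  funext fun i => map_smul (φ i) (t i) (c i)

theorem an (h : AnalyticAt ℂ γ 0) : AnalyticAt ℂ (fun t => apV φ (γ t)) 0 :=
  ((apL φ).analyticAt _).comp h

theorem der (h : AnalyticAt ℂ γ 0) : deriv (fun t => apV φ (γ t)) 0 = apV φ (deriv γ 0) :=
  ((apL φ).hasFDerivAt.comp_hasDerivAt 0 h.differentiableAt.hasDerivAt).deriv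

variable {φ}

theorem li (hφ : Injective (φ o)) {n : ℕ} {v : Fin n → Fin (M o) → ℂ} {w : Fin n → Fin (M' o) → ℂ}
    (e : ∀ i, w i = φ o (v i)) : LinearIndependent ℂ w ↔ LinearIndependent ℂ v := by
  rw [show w = (φ o).toLinearMap ∘ v from funext e]
  exact LinearMap.linearIndependent_iff _ (LinearMap.ker_eq_bot.2 hφ)

theorem br_congr (h : IsBranch o C γ) (e : γ =ᶠ[𝓝 0] γ') : IsBranch o C γ' :=
  ⟨h.holo.congr e, (h.mem.and e).mono fun _ ht => ht.2 ▸ ht.1, by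
    rw [← e.self_of_nhds, ← e.deriv_eq]; exact h.imm⟩

theorem cr_congr (h : IsCross o C c γ γ') (e : γ =ᶠ[𝓝 0] γ₁) (e' : γ' =ᶠ[𝓝 0] γ₂) :
    IsCross o C c γ₁ γ₂ :=
  ⟨br_congr h.1 e, br_congr h.2.1 e', e.self_of_nhds ▸ h.2.2.1, e'.self_of_nhds ▸ h.2.2.2.1, by
    rw [← e.deriv_eq, ← e'.deriv_eq]; exact h.2.2.2.2⟩

theorem smul_ne {t : ι → ℂ} (ht : ∀ i, t i ≠ 0) (hc : ∀ i, c i ≠ 0) (i : ι) : (t • c) i ≠ 0 :=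
  smul_ne_zero (ht i) (hc i)

theorem sec_congr {a : ι → ℕ} {f f' : V M → ℂ} (h : IsSec o C a f) (hC : ∀ c ∈ C, ∀ i, c i ≠ 0)
    (e : ∀ c, c o ≠ 0 → f' c = f c) : IsSec o C a f' :=
  ⟨h.cont.congr fun c hc => e c (hC c hc o),
    fun t ht c hc => by rw [e _ (smul_ne ht (hC c hc) o), e c (hC c hc o), h.hom t ht c hc],
    fun γ hγ => (h.holo γ hγ).congr (hγ.mem.mono fun _ a => (e _ (hC _ a o)).symm)⟩

end Vale.Agent.P269.PrCv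

namespace Vale.Agent.P269.Ch.Bip

open P291Z Set Function Topology Filter Module Base Cv Holo Vir

variable {J ι : Type} [Fintype J] [Fintype ι] [DecidableEq ι] {ch : Ch ι J} {n₁ n₂ : Nm ι J}
  (b : ch.Bip n₁ n₂) {C₁ : Set (V n₁.M)} {C₂ : Set (V n₂.M)} {o : ι}

/-- The union of two multicones. -/
def un (C₁ : Set (V n₁.M)) (C₂ : Set (V n₂.M)) : Set (V ch.M) := apV b.φ₁ '' C₁ ∪ apV b.φ₂ '' C₂

theorem un_symm : b.symm.un C₂ C₁ = b.un C₁ C₂ := union_comm _ _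

theorem apV_ψφ₁₁ (c : V n₁.M) : apV b.ψ₁ (apV b.φ₁ c) = c := funext fun i => b.ψφ₁₁ i (c i)

theorem apV_ψφ₁₂ (c : V n₂.M) : apV b.ψ₁ (apV b.φ₂ c) = 0 := funext fun i => b.ψφ₁₂ i (c i)

theorem pbT_φψ₁₁ {σ : Type} [Fintype σ] {τ : σ → ι} (μ : Tn n₁.M τ) :
    pbT b.φ₁ τ (pbT b.ψ₁ τ μ) = μ :=
  ContinuousMultilinearMap.ext fun _ => congrArg μ (funext fun _ => b.ψφ₁₁ _ _)

theorem pbT_φψ₂₁ {σ : Type} [Fintype σ] [Nonempty σ] {τ : σ → ι} (μ : Tn n₁.M τ) :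
    pbT b.φ₂ τ (pbT b.ψ₁ τ μ) = 0 :=
  ContinuousMultilinearMap.ext fun _ => μ.map_coord_zero (Classical.arbitrary σ) (b.ψφ₁₂ _ _)

theorem exists_tens {a : ι → ℕ} (ha : a ≠ 0) (μ₁ : Tens n₁.M a) (μ₂ : Tens n₂.M a) :
    ∃ μ : Tens ch.M a, pbT b.φ₁ _ μ = μ₁ ∧ pbT b.φ₂ _ μ = μ₂ := by
  obtain ⟨i, hi⟩ := ne_iff.1 ha
  have : Nonempty (Σ i, Fin (a i)) := ⟨⟨i, 0, Nat.pos_of_ne_zero hi⟩⟩
  refine ⟨pbT b.ψ₁ _ μ₁ + pbT b.ψ₂ _ μ₂, ?_, ?_⟩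
  · exact (map_add _ _ _).trans
      ((congrArg₂ _ (b.pbT_φψ₁₁ μ₁) (b.symm.pbT_φψ₂₁ μ₂)).trans (add_zero _))
  · exact (map_add _ _ _).trans
      ((congrArg₂ _ (b.pbT_φψ₂₁ μ₁) (b.symm.pbT_φψ₁₁ μ₂)).trans (zero_add _))

theorem mem_left {c : V n₁.M} (hc : c ∈ C₁) : apV b.φ₁ c ∈ b.un C₁ C₂ := .inl ⟨c, hc, rfl⟩

theorem mem_right {c : V n₂.M} (hc : c ∈ C₂) : apV b.φ₂ c ∈ b.un C₁ C₂ := .inr ⟨c, hc, rfl⟩

theorem forall_un {P : V ch.M → Prop} :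
    (∀ c ∈ b.un C₁ C₂, P c) ↔ (∀ c ∈ C₁, P (apV b.φ₁ c)) ∧ ∀ c ∈ C₂, P (apV b.φ₂ c) :=
  ⟨fun h => ⟨fun _ a => h _ (b.mem_left a), fun _ a => h _ (b.mem_right a)⟩, by
    rintro ⟨h, h'⟩ _ (⟨c, a, rfl⟩ | ⟨c, a, rfl⟩)
    exacts [h c a, h' c a]⟩

/-- the Hilbert function is additive -/
theorem finrank_Hs {a : ι → ℕ} (ha : a ≠ 0) :
    finrank ℂ (Hs (b.un C₁ C₂) a) = finrank ℂ (Hs C₁ a) + finrank ℂ (Hs C₂ a) := by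
  let L : Tens ch.M a →ₗ[ℂ] Hs C₁ a × Hs C₂ a :=
    ((resL C₁ a).rangeRestrict ∘ₗ (pbT b.φ₁ _).toLinearMap).prod
      ((resL C₂ a).rangeRestrict ∘ₗ (pbT b.φ₂ _).toLinearMap)
  have hs : LinearMap.range L = ⊤ := LinearMap.range_eq_top.2 (by
    rintro ⟨⟨_, μ₁, rfl⟩, ⟨_, μ₂, rfl⟩⟩
    obtain ⟨μ, rfl, rfl⟩ := b.exists_tens ha μ₁ μ₂
    exact ⟨μ, rfl⟩)
  have hk : LinearMap.ker L = LinearMap.ker (resL (b.un C₁ C₂) a) := Submodule.ext fun μ =>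
    ⟨fun h => funext fun c => (b.forall_un (P := fun c => val μ c = 0)).2
      ⟨fun c hc => congrFun (congrArg (fun z => z.1.1) h) ⟨c, hc⟩,
        fun c hc => congrFun (congrArg (fun z => z.2.1) h) ⟨c, hc⟩⟩ c.1 c.2,
      fun h => Prod.ext (Subtype.ext (funext fun c => congrFun h ⟨_, b.mem_left c.2⟩))
        (Subtype.ext (funext fun c => congrFun h ⟨_, b.mem_right c.2⟩))⟩
  have e := LinearMap.finrank_range_add_finrank_ker L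
  rw [hs, hk, finrank_top, finrank_prod,
    ← LinearMap.finrank_range_add_finrank_ker (resL (b.un C₁ C₂) a)] at e
  exact (Nat.add_right_cancel e).symm

theorem inj₁ (i : ι) : Injective (b.φ₁ i) := LeftInverse.injective (b.ψφ₁₁ i)

theorem apV_inj₁ : Injective (apV b.φ₁) := LeftInverse.injective b.apV_ψφ₁₁

theorem apV_ne₁ {c : V n₁.M} {i : ι} : apV b.φ₁ c i ≠ 0 ↔ c i ≠ 0 :=
  not_congr (map_eq_zero_iff _ (b.inj₁ i))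

theorem closure_left {y : V ch.M} (h : y ∈ closure (apV b.φ₁ '' C₁)) :
    ∃ c ∈ closure C₁, apV b.φ₁ c = y :=
  (b.apV_ψφ₁₁ |> LeftInverse.isClosedEmbedding (f := apV b.ψ₁) <| PrCv.cont _)
    (PrCv.cont _) |>.closure_image_eq C₁ |>.le h

section one

variable (h₁ : ∀ c ∈ C₁, ∀ i, c i ≠ 0)
include h₁

theorem ev_left {c : V n₁.M} (hc : c ∈ C₁) (o : ι) :
    ∀ᶠ y in 𝓝 (apV b.φ₁ c), y ∈ b.un C₁ C₂ → y ∈ apV b.φ₁ '' C₁ := by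
  have : ∀ᶠ y in 𝓝 (apV b.φ₁ c), apV b.ψ₁ y o ≠ 0 :=
    ((continuous_apply o).comp (PrCv.cont b.ψ₁)).continuousAt.eventually_ne
      ((congrFun (b.apV_ψφ₁₁ c) o).trans_ne (h₁ c hc o))
  refine this.mono fun y a h => h.resolve_right ?_
  rintro ⟨c', -, rfl⟩
  exact a (b.ψφ₁₂ _ _)

theorem tendsto_left {c : V n₁.M} (hc : c ∈ C₁) (o : ι) :
    Tendsto (apV b.ψ₁) (𝓝[b.un C₁ C₂] apV b.φ₁ c) (𝓝[C₁] c) ∧
      ∀ᶠ y in 𝓝[b.un C₁ C₂] apV b.φ₁ c, apV b.φ₁ (apV b.ψ₁ y) = y := by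
  have := eventually_nhdsWithin_iff.2 (b.ev_left (C₂ := C₂) h₁ hc o)
  refine ⟨tendsto_nhdsWithin_iff.2 ⟨((PrCv.cont b.ψ₁).tendsto' _ _ (b.apV_ψφ₁₁ c)).mono_left
    nhdsWithin_le_nhds, this.mono ?_⟩, this.mono ?_⟩ <;> rintro _ ⟨c, a, rfl⟩ <;> rw [b.apV_ψφ₁₁]
  exact a

end one

theorem tendsto_incl (c : V n₁.M) :
    Tendsto (apV b.φ₁) (𝓝[C₁] c) (𝓝[b.un C₁ C₂] apV b.φ₁ c) :=
  (PrCv.cont b.φ₁).continuousWithinAt.tendsto_nhdsWithin fun _ => b.mem_left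

variable (h₁ : ∀ c ∈ C₁, ∀ i, c i ≠ 0) (h₂ : ∀ c ∈ C₂, ∀ i, c i ≠ 0)
include h₁ h₂

omit h₁ in
theorem mem_un' (o : ι) {c : V n₁.M} : apV b.φ₁ c ∈ b.un C₁ C₂ ↔ c ∈ C₁ := by
  refine ⟨?_, b.mem_left⟩
  rintro (⟨c', a, e⟩ | ⟨c', a, e⟩)
  · exact b.apV_inj₁ e ▸ a
  · exact absurd ((b.ψφ₂₂ o _).symm.trans ((congrArg _ (congrFun e o)).trans (b.ψφ₂₁ o _)))
      (h₂ c' a o)

set_option linter.unusedVariables false in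
theorem mem_un [Nonempty ι] {c : V n₁.M} (hc : ∀ i, c i ≠ 0) :
    apV b.φ₁ c ∈ b.un C₁ C₂ ↔ c ∈ C₁ := b.mem_un' h₂ (Classical.arbitrary ι)

theorem isBranch_iff {γ : ℂ → V n₁.M} :
    IsBranch o (b.un C₁ C₂) (fun t => apV b.φ₁ (γ t)) ↔ IsBranch o C₁ γ := by
  have k : AnalyticAt ℂ γ 0 → (LinearIndependent ℂ
      ![apV b.φ₁ (γ 0) o, deriv (fun t => apV b.φ₁ (γ t)) 0 o] ↔
      LinearIndependent ℂ ![γ 0 o, deriv γ 0 o]) := fun a => by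
    rw [PrCv.der _ a]
    exact PrCv.li (b.inj₁ o) (Fin.forall_fin_two.2 ⟨rfl, rfl⟩)
  refine ⟨fun h => ?_, fun h => ⟨PrCv.an _ h.holo, h.mem.mono fun _ => b.mem_left,
    (k h.holo).2 h.imm⟩⟩
  have a : AnalyticAt ℂ γ 0 := (PrCv.an b.ψ₁ h.holo).congr (.of_forall fun _ => b.apV_ψφ₁₁ _)
  exact ⟨a, h.mem.mono fun _ => (b.mem_un' h₂ o).1, (k a).1 h.imm⟩

theorem branch_left {γ : ℂ → V ch.M} (h : IsBranch o (b.un C₁ C₂) γ) (e : γ 0 ∈ apV b.φ₁ '' C₁) :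
    IsBranch o C₁ (fun t => apV b.ψ₁ (γ t)) ∧ ∀ᶠ t in 𝓝 0, γ t = apV b.φ₁ (apV b.ψ₁ (γ t)) := by
  obtain ⟨c, hc, e⟩ := e
  have k : ∀ᶠ t in 𝓝 0, γ t = apV b.φ₁ (apV b.ψ₁ (γ t)) :=
    ((h.holo.continuousAt.tendsto.eventually (e ▸ b.ev_left (C₂ := C₂) h₁ hc o)).and h.mem).mono
      fun t a => by obtain ⟨c, -, e⟩ := a.1 a.2; rw [← e, b.apV_ψφ₁₁]
  exact ⟨(b.isBranch_iff h₁ h₂).1 (PrCv.br_congr h k), k⟩

theorem isCross_iff {c : V n₁.M} {γ γ' : ℂ → V n₁.M} :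
    IsCross o (b.un C₁ C₂) (apV b.φ₁ c) (fun t => apV b.φ₁ (γ t)) (fun t => apV b.φ₁ (γ' t)) ↔
      IsCross o C₁ c γ γ' := by
  unfold IsCross
  rw [b.isBranch_iff h₁ h₂, b.isBranch_iff h₁ h₂, b.apV_inj₁.eq_iff, b.apV_inj₁.eq_iff]
  refine and_congr_right fun a => and_congr_right fun a' => and_congr_right fun _ =>
    and_congr_right fun _ => ?_
  rw [PrCv.der _ a.holo, PrCv.der _ a'.holo]
  exact PrCv.li (b.inj₁ o) (Fin.forall_fin_succ.2 ⟨rfl, Fin.forall_fin_two.2 ⟨rfl, rfl⟩⟩)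

theorem cross_left {c : V n₁.M} {γ γ' : ℂ → V ch.M}
    (h : IsCross o (b.un C₁ C₂) (apV b.φ₁ c) γ γ') :
    IsCross o C₁ c (fun t => apV b.ψ₁ (γ t)) fun t => apV b.ψ₁ (γ' t) := by
  have hc := (b.mem_un' h₂ o).1 (h.2.2.1 ▸ h.1.mem.self_of_nhds)
  exact (b.isCross_iff h₁ h₂).1 (PrCv.cr_congr h (b.branch_left h₁ h₂ h.1 ⟨c, hc, h.2.2.1.symm⟩).2
    (b.branch_left h₁ h₂ h.2.1 ⟨c, hc, h.2.2.2.1.symm⟩).2)

theorem isNode_iff {c : V n₁.M} : IsNode o (b.un C₁ C₂) (apV b.φ₁ c) ↔ IsNode o C₁ c :=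
  ⟨fun ⟨_, _, h⟩ => ⟨_, _, b.cross_left h₁ h₂ h⟩, fun ⟨_, _, h⟩ => ⟨_, _, (b.isCross_iff h₁ h₂).2 h⟩⟩

theorem nod_left (h : Nod o (b.un C₁ C₂)) : Nod o C₁ := by
  refine ⟨h₁, fun c hc a => (b.mem_un' h₂ o).1 (h.closed _
    (map_mem_closure (PrCv.cont _) hc fun _ => b.mem_left) fun i => b.apV_ne₁.2 (a i)),
    fun t ht c hc => (b.mem_un' h₂ o).1 (PrCv.smul _ t c ▸ h.cone t ht _ (b.mem_left hc)),
    fun c hc => ?_⟩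
  obtain ⟨γ₁, γ₂, a, a'⟩ := h.nodal _ (b.mem_left hc)
  refine ⟨fun t => apV b.ψ₁ (γ₁ t), fun t => apV b.ψ₁ (γ₂ t), a.imp ?_ (b.cross_left h₁ h₂),
    fun ε hε => ((b.tendsto_incl c).eventually (a' ε hε)).mono ?_⟩
  · rintro ⟨a1, a2, rfl⟩
    exact ⟨(b.branch_left h₁ h₂ a1 ⟨c, hc, a2.symm⟩).1, (congrArg _ a2).trans (b.apV_ψφ₁₁ c), rfl⟩
  · rintro y ⟨t, z, a1, a2⟩
    exact ⟨t, z, a1, a2.imp
      (fun e => (b.apV_ψφ₁₁ y).symm.trans ((congrArg _ e).trans (PrCv.smul _ _ _)))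
      fun e => (b.apV_ψφ₁₁ y).symm.trans ((congrArg _ e).trans (PrCv.smul _ _ _))⟩

omit h₁ in
theorem nodal_left (h : Nod o C₁) : ∀ c ∈ C₁, ∃ γ₁ γ₂,
    (IsBranch o (b.un C₁ C₂) γ₁ ∧ γ₁ 0 = apV b.φ₁ c ∧ γ₂ = γ₁ ∨
      IsCross o (b.un C₁ C₂) (apV b.φ₁ c) γ₁ γ₂) ∧ ∀ ε > 0, ∀ᶠ y in 𝓝[b.un C₁ C₂] apV b.φ₁ c,
      ∃ (t : ι → ℂ) (z : ℂ), ‖z‖ < ε ∧ (y = t • γ₁ z ∨ y = t • γ₂ z) := fun c hc => by
  obtain ⟨γ₁, γ₂, a, a'⟩ := h.nodal c hc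
  obtain ⟨k, k'⟩ := b.tendsto_left (C₂ := C₂) h.ne_zero hc o
  refine ⟨fun t => apV b.φ₁ (γ₁ t), fun t => apV b.φ₁ (γ₂ t),
    a.imp ?_ (b.isCross_iff h.ne_zero h₂).2, fun ε hε => ((k.eventually (a' ε hε)).and k').mono ?_⟩
  · rintro ⟨a1, a2, rfl⟩
    exact ⟨(b.isBranch_iff h.ne_zero h₂).2 a1, congrArg _ a2, rfl⟩
  · rintro y ⟨⟨t, z, a1, a2⟩, e'⟩
    exact ⟨t, z, a1, a2.imp (fun e => e'.symm.trans ((congrArg _ e).trans (PrCv.smul _ _ _)))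
      fun e => e'.symm.trans ((congrArg _ e).trans (PrCv.smul _ _ _))⟩

theorem nod_iff : Nod o (b.un C₁ C₂) ↔ Nod o C₁ ∧ Nod o C₂ := by
  refine ⟨fun h => ⟨b.nod_left h₁ h₂ h, b.symm.nod_left h₂ h₁ (b.un_symm ▸ h)⟩, fun ⟨a, a'⟩ =>
    ⟨b.forall_un.2 ⟨fun c hc i => b.apV_ne₁.2 (h₁ c hc i),
      fun c hc i => b.symm.apV_ne₁.2 (h₂ c hc i)⟩, fun y hy h0 => ?_,
      fun t ht => b.forall_un.2 ⟨fun c hc => PrCv.smul _ t c ▸ b.mem_left (a.cone t ht c hc),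
        fun c hc => PrCv.smul _ t c ▸ b.mem_right (a'.cone t ht c hc)⟩,
      b.forall_un.2 ⟨b.nodal_left h₂ a, ?_⟩⟩⟩
  · rcases closure_union.le hy with hy | hy
    · obtain ⟨c, hc, rfl⟩ := b.closure_left hy
      exact b.mem_left (a.closed c hc fun i => b.apV_ne₁.1 (h0 i))
    · obtain ⟨c, hc, rfl⟩ := b.symm.closure_left hy
      exact b.mem_right (a'.closed c hc fun i => b.symm.apV_ne₁.1 (h0 i))
  · rw [← b.un_symm]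
    exact b.symm.nodal_left h₁ a'

theorem sec_left {a : ι → ℕ} {f : V ch.M → ℂ} (h : IsSec o (b.un C₁ C₂) a f) :
    IsSec o C₁ a fun c => f (apV b.φ₁ c) :=
  ⟨h.cont.comp (PrCv.cont _).continuousOn fun _ => b.mem_left,
    fun t ht c hc => (congrArg f (PrCv.smul _ t c)).trans (h.hom t ht _ (b.mem_left hc)),
    fun _ hγ => h.holo _ ((b.isBranch_iff h₁ h₂).2 hγ)⟩

theorem sec_at {a : ι → ℕ} {f : V ch.M → ℂ} (h : IsSec o C₁ a fun c => f (apV b.φ₁ c))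
    {c : V n₁.M} (hc : c ∈ C₁) : ContinuousWithinAt f (b.un C₁ C₂) (apV b.φ₁ c) ∧
      (∀ t : ι → ℂ, (∀ i, t i ≠ 0) → f (t • apV b.φ₁ c) = (∏ i, t i ^ a i) * f (apV b.φ₁ c)) ∧
      ∀ γ, IsBranch o (b.un C₁ C₂) γ → γ 0 = apV b.φ₁ c → AnalyticAt ℂ (f ∘ γ) 0 := by
  obtain ⟨k, k'⟩ := b.tendsto_left (C₂ := C₂) h₁ hc o
  refine ⟨((h.cont c hc).tendsto.comp k).congr' (k'.mono fun _ e => congrArg f e),
    fun t ht => (congrArg f (PrCv.smul _ t c)).symm.trans (h.hom t ht c hc), fun γ hγ e => ?_⟩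
  obtain ⟨a1, a2⟩ := b.branch_left h₁ h₂ hγ ⟨c, hc, e.symm⟩
  exact (h.holo _ a1).congr (a2.mono fun _ e => congrArg f e.symm)

theorem isSec_iff {a : ι → ℕ} {f : V ch.M → ℂ} : IsSec o (b.un C₁ C₂) a f ↔
    IsSec o C₁ a (fun c => f (apV b.φ₁ c)) ∧ IsSec o C₂ a fun c => f (apV b.φ₂ c) := by
  refine ⟨fun h => ⟨b.sec_left h₁ h₂ h, b.symm.sec_left h₂ h₁ (b.un_symm ▸ h)⟩, fun ⟨h, h'⟩ => ?_⟩
  have k : ∀ y ∈ b.un C₁ C₂, ContinuousWithinAt f (b.un C₁ C₂) y ∧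
      (∀ t : ι → ℂ, (∀ i, t i ≠ 0) → f (t • y) = (∏ i, t i ^ a i) * f y) ∧
      ∀ γ, IsBranch o (b.un C₁ C₂) γ → γ 0 = y → AnalyticAt ℂ (f ∘ γ) 0 :=
    b.forall_un.2 ⟨fun _ => b.sec_at h₁ h₂ h, fun _ hc => by
      rw [← b.un_symm]; exact b.symm.sec_at h₂ h₁ h' hc⟩
  exact ⟨fun y hy => (k y hy).1, fun t ht y hy => (k y hy).2.1 t ht,
    fun γ hγ => (k _ hγ.mem.self_of_nhds).2.2 γ hγ rfl⟩

theorem normal_left {a : ι → ℕ}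
    (h : ∀ f, IsSec o (b.un C₁ C₂) a f → ∃ μ : Tens ch.M a, ∀ c ∈ b.un C₁ C₂, f c = val μ c)
    (f : V n₁.M → ℂ) (hf : IsSec o C₁ a f) : ∃ μ : Tens n₁.M a, ∀ c ∈ C₁, f c = val μ c := by
  classical
  have e : ∀ c, c o ≠ 0 →
      (if apV b.ψ₁ (apV b.φ₁ c) o = 0 then 0 else f (apV b.ψ₁ (apV b.φ₁ c))) = f c := fun c hc => by
    rw [b.apV_ψφ₁₁, if_neg hc]
  obtain ⟨μ, hμ⟩ := h (fun y => if apV b.ψ₁ y o = 0 then 0 else f (apV b.ψ₁ y))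
    ((b.isSec_iff h₁ h₂).2 ⟨PrCv.sec_congr hf h₁ e, PrCv.sec_congr (f := fun _ => 0)
      ⟨continuousOn_const, fun _ _ _ _ => (mul_zero _).symm, fun _ _ => analyticAt_const⟩ h₂
      fun _ _ => if_pos (b.ψφ₁₂ _ _)⟩)
  exact ⟨pbT b.φ₁ _ μ, fun c hc => (e c (h₁ c hc o)).symm.trans (hμ _ (b.mem_left hc))⟩

theorem normal_iff {a : ι → ℕ} (ha : a ≠ 0) :
    (∀ f, IsSec o (b.un C₁ C₂) a f → ∃ μ : Tens ch.M a, ∀ c ∈ b.un C₁ C₂, f c = val μ c) ↔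
      (∀ f, IsSec o C₁ a f → ∃ μ : Tens n₁.M a, ∀ c ∈ C₁, f c = val μ c) ∧
        ∀ f, IsSec o C₂ a f → ∃ μ : Tens n₂.M a, ∀ c ∈ C₂, f c = val μ c := by
  refine ⟨fun h => ⟨b.normal_left h₁ h₂ h, b.symm.normal_left h₂ h₁ (b.un_symm ▸ h)⟩,
    fun ⟨h, h'⟩ f hf => ?_⟩
  obtain ⟨μ₁, a1⟩ := h _ ((b.isSec_iff h₁ h₂).1 hf).1
  obtain ⟨μ₂, a2⟩ := h' _ ((b.isSec_iff h₁ h₂).1 hf).2
  obtain ⟨μ, rfl, rfl⟩ := b.exists_tens ha μ₁ μ₂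
  exact ⟨μ, b.forall_un.2 ⟨a1, a2⟩⟩

variable {g g₁ g₂ : ℤ} {m m₁ m₂ : ι → ℤ} (hg : g₁ + g₂ = g + 1) (hm : ∀ i, m₁ i + m₂ i = m i)
include hg hm

omit b h₁ h₂ hg in
theorem dg_un (a : ι → ℕ) : dg m a = dg m₁ a + dg m₂ a := by
  simp only [dg, ← hm, mul_add, Finset.sum_add_distrib]

omit h₁ h₂ in
/-- **the union of two curves** -/
theorem isCurve_un (c₁ : IsCurve o g₁ m₁ C₁) (c₂ : IsCurve o g₂ m₂ C₂) :
    IsCurve o g m (b.un C₁ C₂) := by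
  have k := (b.nod_iff c₁.ne_zero c₂.ne_zero).2 ⟨c₁.nod, c₂.nod⟩
  refine ⟨k.ne_zero, k.closed, k.cone, k.nodal, fun a ha =>
    (b.normal_iff c₁.ne_zero c₂.ne_zero ha).2 ⟨c₁.normal a ha, c₂.normal a ha⟩, fun a ha => ?_⟩
  have a1 : _ = dg m₁ a + 1 - g₁ := c₁.hilbert a ha
  have a2 : _ = dg m₂ a + 1 - g₂ := c₂.hilbert a ha
  rw [span_eq_Hs] at a1 a2 ⊢
  change _ = dg m a + 1 - g
  rw [b.finrank_Hs ha, Nat.cast_add, a1, a2, dg_un hm]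
  omega

/-- **the parts of a curve** -/
theorem isCurve_of_un (c : IsCurve o g m (b.un C₁ C₂))
    (b₁ : ∀ a ≠ 0, (finrank ℂ (Hs C₁ a) : ℤ) ≤ dg m₁ a + 1 - g₁)
    (b₂ : ∀ a ≠ 0, (finrank ℂ (Hs C₂ a) : ℤ) ≤ dg m₂ a + 1 - g₂) :
    IsCurve o g₁ m₁ C₁ ∧ IsCurve o g₂ m₂ C₂ := by
  obtain ⟨k₁, k₂⟩ := (b.nod_iff h₁ h₂).1 c.nod
  have k : ∀ a ≠ 0, (finrank ℂ (Hs C₁ a) : ℤ) = dg m₁ a + 1 - g₁ ∧
      (finrank ℂ (Hs C₂ a) : ℤ) = dg m₂ a + 1 - g₂ := fun a ha => by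
    have a1 : _ = dg m a + 1 - g := c.hilbert a ha
    rw [span_eq_Hs, b.finrank_Hs ha, Nat.cast_add, dg_un hm] at a1
    have a2 := b₁ a ha
    have a3 := b₂ a ha
    omega
  have k' := fun a ha => (b.normal_iff h₁ h₂ ha).1 (c.normal a ha)
  exact ⟨⟨h₁, k₁.closed, k₁.cone, k₁.nodal, fun a ha => (k' a ha).1,
      fun a ha => by rw [span_eq_Hs]; exact (k a ha).1⟩,
    h₂, k₂.closed, k₂.cone, k₂.nodal, fun a ha => (k' a ha).2,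
      fun a ha => by rw [span_eq_Hs]; exact (k a ha).2⟩

end Vale.Agent.P269.Ch.Bip
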