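import Vale.Agent.P269.Glu.PrInd
import Vale.Agent.P269.Glu.PrSum0

set_option linter.unusedSectionVars false
set_option linter.style.haveILetI false

/-!
# Decompositions: cotangent lines and index bundles
-/

namespace Vale.Agent.P269.Ch

open P291Z Set Function Topology Filter Module Base Holo Vir

variable {S Λ R J ι ν κ ν₁ κ₁ ν₂ κ₂ : Type} [Fintype S] [Fintype Λ] [Fintype R] [Fintype J]
  [Fintype ι] [DecidableEq ι] [Fintype ν] [Fintype κ] [Fintype ν₁] [Fintype κ₁] [Fintype ν₂]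
  [Fintype κ₂] {ch : Ch ι J} {n₁ n₂ : Nm ι J} {s : Sv ν κ ν₁ κ₁ ν₂ κ₂} {Wg : Wt S Λ R J}
  {T : Set (ch.WF ν κ Λ)} {T₁ : Set ((ch.re n₁).WF ν₁ κ₁ Λ)} {T₂ : Set ((ch.re n₂).WF ν₂ κ₂ Λ)}
  {Z : Set (ch.WQ n₁ n₂ ν κ ν₁ κ₁ ν₂ κ₂ Λ)}

theorem OZ.lc (h : OZ Wg T) : IsLocallyClosed T :=
  haveI := h.act
  haveI : LocallyCompactSpace T := h.orb.nice.lc
  FpP.isLocallyClosed

theorem OZ.prp (h : OZ Wg T) : Prp (actF Wg : ch.AF ν κ S → _) T :=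
  haveI := h.act
  haveI := h.orb.proper
  prp_of_properSMul

namespace Bip

variable (b : ch.Bip n₁ n₂)

variable (s T T₁ T₂) in
/-- Decompositions in standard position. -/
def YP : Set (b.WX univ ν₁ κ₁ ν₂ κ₂ Λ) := Prod.fst ⁻¹' fpS πF T₁ T₂ ∩ b.μ s ⁻¹' T

theorem hf₁ (c : ch.A2 n₁ n₂ ν₁ κ₁ ν₂ κ₂ S) : b.Hf (b.β s c) c.1 :=
  ⟨rfl, b.bV_φ₁ b _ _, b.ψ₁_bV b _ _, b.r₁_bE b _ _⟩

theorem hf₂ (c : ch.A2 n₁ n₂ ν₁ κ₁ ν₂ κ₂ S) : b.symm.Hf (b.β s c) (θ2 c) :=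
  ⟨rfl, b.bV_φ₂ b _ _, b.ψ₂_bV b _ _, b.r₂_bE b _ _⟩

theorem eqY : EqM (b.actX s Wg) (actF Wg) (b.YP s T T₁ T₂) T
    (b.β s : CL (ch.A2 n₁ n₂ ν₁ κ₁ ν₂ κ₂ S) _) (b.μ s) := b.eqM_μ fun _ h => h.2

theorem eqY₀ : EqM (b.actX s Wg : ch.A2 n₁ n₂ ν₁ κ₁ ν₂ κ₂ S → _) (act2 Wg) (b.YP s T T₁ T₂)
    (fpS πF T₁ T₂) id Prod.fst := .same (fun _ h => h.1) continuousOn_fst fun _ _ _ _ => rfl

theorem in_γ {z : ch.WQ n₁ n₂ ν κ ν₁ κ₁ ν₂ κ₂ Λ} (hz : z ∈ CQ s) :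
    IsUnit ((1, b.γ z.2.1 z.2.2) : ch.AF ν κ S) :=
  isUnitF_iff.2 ⟨fun _ => one_ne_zero, b.isUnit_γ hz⟩

theorem eqG (hZ : Z ⊆ CQ s) (h : OZ Wg T) (m : MapsTo Prod.fst Z T) (m₁ : MapsTo pt₁ Z T₁)
    (m₂ : MapsTo pt₂ Z T₂) : EqM (actQ s Wg) (b.actX s Wg) Z (b.YP s T T₁ T₂)
      (θQ s : CL (ch.AQ n₁ n₂ ν κ S) _) (b.g univ) :=
  ah_θQ.eqM (fun _ hz => ⟨⟨m₁ hz, m₂ hz⟩, mem_preimage.2 (mem_of_eq_of_mem (b.μ_g (Wg := Wg)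
    (b.CA_univ.ge (hZ hz))) (h.act.mem _ (b.in_γ (hZ hz)) _ (m hz)))⟩)
    (fun _ hz => (b.an_g (hZ hz)).continuousAt.continuousWithinAt) fun _ ha _ hz => b.g_act (hZ hz) ha

variable (h : OZ Wg T) (h₁ : OZ Wg T₁) (h₂ : OZ Wg T₂)
include h h₁ h₂

theorem actY : IsAct (b.actX s Wg : ch.A2 n₁ n₂ ν₁ κ₁ ν₂ κ₂ S → _) (b.YP s T T₁ T₂) :=
  IsAct.mono inferInstance (subset_univ _) fun c hc _ hy =>
    ⟨fp_act2.ivt h₁.act.mem h₂.act.mem c hc _ hy.1,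
      mem_preimage.2 (mem_of_eq_of_mem b.μ_act (h.act.mem _ (b.ah_β.isUnit hc) _ hy.2))⟩

theorem orbY [IsAct (b.actX s Wg : ch.A2 n₁ n₂ ν₁ κ₁ ν₂ κ₂ S → _) (b.YP s T T₁ T₂)] :
    Orb.Orb (ch.A2 n₁ n₂ ν₁ κ₁ ν₂ κ₂ S)ˣ (Holo.Sp (b.actX s Wg) (b.YP s T T₁ T₂)) := by
  haveI := FiniteDimensional.proper ℂ (b.WX univ ν₁ κ₁ ν₂ κ₂ Λ)
  haveI : LocallyCompactSpace (b.YP s T T₁ T₂) := (((isLocallyClosed_fpS h₁.lc h₂.lc).preimage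
    continuous_fst).inter (h.lc.preimage (continuous_iff_continuousAt.2 fun _ =>
      b.an_μ.continuousAt))).locallyCompactSpace
  refine Prp.orb fun y hy y' hy' => ?_
  exact (fp_act2.prp h₁.prp h₂.prp _ hy.1 _ hy'.1).imp fun _ hC =>
    (((continuous_fst.prodMap continuous_fst).tendsto (y, y')).eventually hC).mono
      fun p hp k g e => hp k.1 g (congrArg Prod.fst e)

end Bip

variable (hZ : Z ⊆ CQ s) (h : OZ Wg T) (h₁ : OZ Wg T₁) (h₂ : OZ Wg T₂) (m : MapsTo Prod.fst Z T)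
  (m₁ : MapsTo pt₁ Z T₁) (m₂ : MapsTo pt₂ Z T₂)
include h h₁ h₂

/-- **cotangent lines and index bundles of a decomposed curve** -/
theorem CQ.cls (hN : ch.QN n₁ n₂) :
    (∀ q, H.map (eqM_fstQ (s := s) (Wg := Wg) m).map (hcls (psiF (s.mk₁ q))) =
      H.map (eqM_pt₁ (Wg := Wg) hZ m₁).map (hcls (psiF q))) ∧
    (∀ q, H.map (eqM_fstQ (s := s) (Wg := Wg) m).map (hcls (psiF (s.mk₂ q))) =
      H.map (eqM_pt₂ (Wg := Wg) hZ m₂).map (hcls (psiF q))) ∧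
    ∀ j, PowerSeries.map (Hev.map (eqM_fstQ (s := s) (Wg := Wg) m).map).toRingHom (indC Wg T j) =
      PowerSeries.map (Hev.map (eqM_pt₁ (Wg := Wg) hZ m₁).map).toRingHom (indC Wg T₁ j) *
        PowerSeries.map (Hev.map (eqM_pt₂ (Wg := Wg) hZ m₂).map).toRingHom (indC Wg T₂ j) := by
  rcases Z.eq_empty_or_nonempty with rfl | ⟨z, hz⟩
  · haveI : IsEmpty (Quo (actQ s Wg : ch.AQ n₁ n₂ ν κ S → ch.WQ n₁ n₂ ν κ ν₁ κ₁ ν₂ κ₂ Λ → _) ∅) :=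
      ⟨Quot.ind fun x => x.2⟩
    exact ⟨fun _ => Subsingleton.elim _ _, fun _ => Subsingleton.elim _ _, fun _ =>
      PowerSeries.ext fun _ => Subtype.ext (Subsingleton.elim _ _)⟩
  obtain ⟨b, -⟩ := Bip.exists_lab (hZ hz)
  haveI := b.actY (s := s) h h₁ h₂
  have o := b.orbY (s := s) h h₁ h₂
  have e := b.eqY (s := s) (Wg := Wg) (T := T) (T₁ := T₁) (T₂ := T₂)
  have e₁ := fp_act2.eqM₁.comp (b.eqY₀ (s := s) (Wg := Wg) (T := T) (T₁ := T₁) (T₂ := T₂))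
  have e₂ := fp_act2.eqM₂.comp (b.eqY₀ (s := s) (Wg := Wg) (T := T) (T₁ := T₁) (T₂ := T₂))
  have g := b.eqG hZ h m m₁ m₂
  have a : (eqM_fstQ (s := s) (Wg := Wg) m).map = e.map.comp g.map :=
    ContinuousMap.ext (Quot.ind fun z => Quot.sound
      ⟨_, b.in_γ (hZ z.2), b.μ_g (b.CA_univ.ge (hZ z.2))⟩)
  have a₁ : (eqM_pt₁ (Wg := Wg) hZ m₁).map = e₁.map.comp g.map :=
    ContinuousMap.ext (Quot.ind fun z => rfl)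
  have a₂ : (eqM_pt₂ (Wg := Wg) hZ m₂).map = e₂.map.comp g.map :=
    ContinuousMap.ext (Quot.ind fun z => rfl)
  have G : ∀ y ∈ b.YP s T T₁ T₂, gr (b.μ s y).2 = b.i₁ '' gr y.1.1.2 ∪ b.symm.i₁ '' gr y.1.2 :=
    fun y hy => b.gr_sm _ h.cuts (h₁.base _ hy.1.1).1 (h₂.base _ hy.1.2).1
  rw [a, a₁, a₂]
  refine ⟨fun q => ?_, fun q => ?_, fun j => ?_⟩
  · rw [← H.map_map, ← H.map_map, psi_emb o h h₁ e e₁ b.φ₁_inj (fun c => (b.hf₁ c).φ)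
      (fun c => ?_) (fun y hy => ?_) fun y _ => b.sm_p₁ _ _ _ q]
    · exact congrArg (Sum.elim _ _) (PB.tS_mk₁ q)
    · rintro _ ⟨z, hz, rfl⟩
      exact ⟨_, (G y hy).ge (.inl ⟨z, hz, rfl⟩), rfl⟩
  · rw [← H.map_map, ← H.map_map, psi_emb o h h₂ e e₂ b.φ₂_inj (fun c => (b.hf₂ c).φ)
      (fun c => ?_) (fun y hy => ?_) fun y _ => b.sm_p₂ _ _ _ q]
    · exact congrArg (Sum.elim _ _) (PB.tS_mk₂ q)
    · rintro _ ⟨z, hz, rfl⟩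
      exact ⟨_, (G y hy).ge (.inr ⟨z, hz, rfl⟩), rfl⟩
  · have k := congrArg (PowerSeries.map (Hev.map g.map).toRingHom)
      (b.ind_mul o hN h h₁ h₂ e e₁ e₂ b.hf₁ b.hf₂ G j)
    have l : ∀ {X : Type} [TopologicalSpace X] (f : C(_, X)) (p : PowerSeries (Hev X)),
        PowerSeries.map (Hev.map g.map).toRingHom (PowerSeries.map (Hev.map f).toRingHom p) =
          PowerSeries.map (Hev.map (f.comp g.map)).toRingHom p :=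
      fun f p => PowerSeries.ext fun _ => Hev.map_map _ _ _
    rwa [map_mul, l, l, l] at k

end Vale.Agent.P269.Ch
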