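import Vale.Agent.P269.Glu.PrSum
import Vale.Agent.P269.Glu.VrA
import Vale.Agent.P269.Vir.Sd

set_option linter.unusedSectionVars false
set_option linter.style.haveILetI false

/-!
# Decompositions: the principal bundle, the orbit spaces
-/

namespace Vale.Agent.P269.Ch

open P291Z Set Function Topology Filter Module Base Cv Holo Vir KD

variable {S Λ R J K ι ν κ ν₁ κ₁ ν₂ κ₂ : Type} [Fintype S] [Fintype Λ] [Fintype R] [Fintype J]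
  [Fintype K] [Fintype ι] [DecidableEq ι] [Fintype ν] [Fintype κ]
  [Fintype ν₁] [Fintype κ₁] [Fintype ν₂] [Fintype κ₂] {ch : Ch ι J} {n₁ n₂ : Nm ι J}
  (s : Sv ν κ ν₁ κ₁ ν₂ κ₂) (F : Fam S Λ R J K) {e : K → ι → ℕ} {K₀ : Set K} {ℓ : R → ι → ℤ}

namespace PrBun

/-- the frames as elements of the group -/
noncomputable def fr (ch : Ch ι J) (n₁ n₂ : Nm ι J) (S : Type) (g : ch.A (ν ⊕ κ)) : ch.AQ n₁ n₂ ν κ S := ((1, g), 1)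

theorem fr_one : fr ch n₁ n₂ S (1 : ch.A (ν ⊕ κ)) = 1 := rfl

theorem fr_mul (g g' : ch.A (ν ⊕ κ)) : fr ch n₁ n₂ S (g * g') = fr ch n₁ n₂ S g * fr ch n₁ n₂ S g' :=
  Prod.ext (Prod.ext (mul_one _).symm rfl) (mul_one _).symm

theorem fr_unit {g : ch.A (ν ⊕ κ)} (h : IsUnit g) : IsUnit (fr ch n₁ n₂ S g) :=
  let ⟨u, e⟩ := h
  ⟨⟨fr ch n₁ n₂ S g, fr ch n₁ n₂ S u.inv, by rw [← fr_mul, ← e, u.val_inv, fr_one],
    by rw [← fr_mul, ← e, u.inv_val, fr_one]⟩, rfl⟩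

theorem cont_fr : Continuous (fr ch n₁ n₂ S : ch.A (ν ⊕ κ) → _) :=
  (continuous_const.prodMk continuous_id).prodMk continuous_const

end PrBun

open PrBun

/-- **the parts and the cross terms form a principal bundle** -/
theorem Bip.bun (b : ch.Bip n₁ n₂) (hN : ch.QN n₁ n₂) (Wg : Wt S Λ R J) (A : Set J) :
    Bun (actQ s Wg) (b.actX s Wg) (b.CA s A : Set (ch.WQ n₁ n₂ ν κ ν₁ κ₁ ν₂ κ₂ Λ)) (b.BA A)
      (θQ s : CL (ch.AQ n₁ n₂ ν κ S) _) (b.g A) := by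
  have a1 : ∀ z ∈ (b.CA s A : Set (ch.WQ n₁ n₂ ν κ ν₁ κ₁ ν₂ κ₂ Λ)), ∃ u : (ch.AQ n₁ n₂ ν κ S)ˣ,
      θQ s (u : ch.AQ n₁ n₂ ν κ S) = 1 ∧ θQ s (↑u⁻¹ : ch.AQ n₁ n₂ ν κ S) = 1 ∧
        b.st s (b.g A z) = actQ s Wg u z := fun z hz => by
    obtain ⟨u, hu⟩ := fr_unit (n₁ := n₁) (n₂ := n₂) (S := S) (b.isUnit_γ hz.1)
    have c : θQ s (u : ch.AQ n₁ n₂ ν κ S) = 1 := hu ▸ b.θQ_γ
    refine ⟨u, c, ?_, hu ▸ b.st_g hz⟩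
    rw [← one_mul (θQ s _), ← c, ← ah_θQ.mul, u.mul_inv, c]
    exact ah_θQ.one
  refine ⟨⟨ah_θQ.one, ah_θQ.mul, θQ_surj, ah_θQ.usurj θQ_surj, fun _ hz => b.g_mem hz.1,
    fun x hx => ⟨_, b.an_g hx.1, .of_forall fun _ => rfl⟩, fun a ha x hx => b.g_act hx.1 ha,
    fun x hx y hy h => ?_, fun x hx a ha h1 h2 => ?_⟩, fun x hx y a h h1 h2 => ?_, fun x hx => ?_⟩
  · obtain ⟨u, u1, -, u3⟩ := a1 x hx
    obtain ⟨v, -, v2, v3⟩ := a1 y hy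
    refine ⟨(v⁻¹ * u : (ch.AQ n₁ n₂ ν κ S)ˣ), Units.isUnit _, ?_, ?_⟩
    · rw [Units.val_mul, ah_θQ.mul, u1, v2, mul_one]
    · rw [TopB.act_mul (actQ s Wg), ← u3, h, v3, TopB.act_inv (actQ s Wg)]
  · have := b.eq_of_θQ (Wg := Wg) hx.1 ha h1
    rw [h2, Ring.inverse_mul_cancel _ (b.isUnit_γ hx.1)] at this
    exact this
  · have c := (b.an_γ hx.1).continuousAt.tendsto
    obtain ⟨u, hu⟩ := b.isUnit_γ hx.1
    have d := ((NormedRing.inverse_continuousAt u).tendsto.comp (hu ▸ c.comp h2)).mul (c.comp h1)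
    rw [hu, Ring.inverse_mul_cancel _ (b.isUnit_γ hx.1)] at d
    exact ((cont_fr.tendsto 1).comp d).congr fun n =>
      (b.eq_of_θQ (Wg := Wg) (h n).1.1 (h n).2.1 (h n).2.2).symm
  · obtain ⟨u, -, u2, u3⟩ := a1 x hx
    refine ⟨fun y => actQ s Wg (↑u⁻¹ : ch.AQ n₁ n₂ ν κ S) (b.st s y),
      an_actQ analyticAt_const b.an_st (Units.isUnit _), (congrArg _ u3).trans (Holo.act_inv u x),
      eventually_mem_nhdsWithin.mono fun y hy => ⟨b.ivt_CA _ (Units.isUnit _) _ (b.st_mem hN hy), ?_⟩⟩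
    rw [b.g_act (b.st_mem hN hy).1 (Units.isUnit _), u2, b.g_st]
    exact Holo.act_one y

theorem Bip.surjOn_g (b : ch.Bip n₁ n₂) (hN : ch.QN n₁ n₂) (A : Set J) :
    SurjOn (b.g A) (b.CA s A : Set (ch.WQ n₁ n₂ ν κ ν₁ κ₁ ν₂ κ₂ Λ)) (b.BA A) :=
  fun y hy => ⟨b.st s y, b.st_mem hN hy, b.g_st⟩

theorem ah_τF : AH (τF : CL (ch.AF ν κ S) _) := ⟨rfl, fun _ _ => rfl⟩

theorem eqM_par (T : Set (ch.WF ν κ Λ)) : EqM (actF F.toWt) F.actL (ch.solF ν κ F ∩ T) F.B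
    (τF : CL (ch.AF ν κ S) _) πF :=
  ah_τF.eqM (fun _ h => h.1.1.1) continuousOn_fst fun _ _ _ _ => rfl

/-- The parameter of a solution. -/
noncomputable abbrev parM (T : Set (ch.WF ν κ Λ)) : C(ModS F T, F.Bs F.B) := (eqM_par F T).map

variable (T₁ : Set ((ch.re n₁).WF ν₁ κ₁ Λ)) (T₂ : Set ((ch.re n₂).WF ν₂ κ₂ Λ))

theorem eqL₁ : EqM (actQ s F.toWt) (actF F.toWt) (LQ s F T₁ T₂) ((ch.re n₁).solF ν₁ κ₁ F ∩ T₁)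
    (θQ₁ s : CL (ch.AQ n₁ n₂ ν κ S) _) pt₁ :=
  eqM_pt₁ (fun _ h => h.1.1) fun _ h => ⟨((CQ.solF_iff h.1.1).1 h.2).2.1, h.1.2.2.1⟩

theorem eqL₂ : EqM (actQ s F.toWt) (actF F.toWt) (LQ s F T₁ T₂) ((ch.re n₂).solF ν₂ κ₂ F ∩ T₂)
    (θQ₂ s : CL (ch.AQ n₁ n₂ ν κ S) _) pt₂ :=
  eqM_pt₂ (fun _ h => h.1.1) fun _ h => ⟨((CQ.solF_iff h.1.1).1 h.2).2.2, h.1.2.2.2⟩

/-- The orbit space of the labelled solutions. -/
abbrev ModQ : Type := Quo (actQ s F.toWt : ch.AQ n₁ n₂ ν κ S → _) (LQ s F T₁ T₂)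

/-- The pair of parts. -/
noncomputable def ΦQ : C(ModQ s F T₁ T₂, ModS F T₁ × ModS F T₂) :=
  (eqL₁ s F T₁ T₂).map.prodMk (eqL₂ s F T₁ T₂).map

variable {s F}

/-- domains of the labelled space -/
theorem Std.gdQ (hs : ch.Std F e K₀ ℓ) {Z O : Set (ch.WQ n₁ n₂ ν κ ν₁ κ₁ ν₂ κ₂ Λ)}
    (m : MapsTo Prod.fst O (ch.dom ν κ F e))
    (hi : Ivt (actQ s F.toWt : ch.AQ n₁ n₂ ν κ S → _) O) (hl : IsLocallyClosed O)
    (hp : Prp (actQ s F.toWt : ch.AQ n₁ n₂ ν κ S → _) O)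
    (hZ : Z = O ∩ Prod.fst ⁻¹' ch.solF ν κ F) :
    ∃ n, (ch.kdPQ n₁ n₂ ν κ ν₁ κ₁ ν₂ κ₂ F e).Gd (actQ s F.toWt) Z O n (ch.rk F ℓ K₀).toNat := by
  haveI : IsAct (actQ s F.toWt : ch.AQ n₁ n₂ ν κ S → _) O := IsAct.mono inferInstance (subset_univ _) hi
  haveI := FiniteDimensional.proper ℂ (ch.WQ n₁ n₂ ν κ ν₁ κ₁ ν₂ κ₂ Λ)
  haveI : LocallyCompactSpace O := hl.locallyCompactSpace
  obtain ⟨n, hn⟩ := hs.ok (ν := ν) (κ := κ)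
  exact ⟨n, ⟨hZ.le.trans inter_subset_left, ⟨_, isOpen_univ, (inter_univ _).symm⟩, ‹_›, hp.orb,
    fun x hx => (hs.zero (m hx)).trans ((and_iff_right hx).symm.trans (Set.ext_iff.1 hZ x).symm)⟩,
    hn.pb' (eqM_fstQ m)⟩

theorem CQ_eq_empty (h : IsEmpty (ch.Bip n₁ n₂)) :
    (CQ s : Set (ch.WQ n₁ n₂ ν κ ν₁ κ₁ ν₂ κ₂ Λ)) = ∅ :=
  eq_empty_of_forall_notMem fun _ hz => let ⟨b, _⟩ := hz.1.exists_bip; h.false b

end Vale.Agent.P269.Ch
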