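import Vale.Agent.P269.Glu.Push
import Vale.Agent.P269.Glu.Std
import Vale.Agent.P269.Glu.Cls
import Vale.Agent.P269.Spl.NFQ

set_option linter.unusedSectionVars false
set_option linter.style.haveILetI false

/-!
# Gluing: the numerical statement
-/

namespace Vale.Agent.P269

open P291Z Set Function Topology Filter Module Holo

variable {S Λ R J K ι ν κ κ' : Type} [Fintype S] [Fintype Λ] [Fintype R] [Fintype J]
  [Fintype K] [Fintype ι] [DecidableEq ι] [Fintype ν] [Fintype κ] [Fintype κ']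

namespace Ch

variable {ch : Ch ι J} {n : Nm ι J} {F : Fam S Λ R J K} {e : K → ι → ℕ} {K₀ : Set K}
  {ℓ : R → ι → ℤ} {L V T M : Set ((ch.re n).WF ν (κ ⊕ κ') Λ)} {C U : Set (ch.WF ν κ Λ)}
  {N' N m : ℕ}

/-- the base cycle only matters near the solutions -/
theorem Vd.ev_open {O M : Set (ch.WF ν κ Λ)} (h : Vd F e (C ∩ U) O M N) (hs : ch.Std F e K₀ ℓ)
    (hC : Lev F C) (hU : IsOpen U) (hz : ch.solF ν κ F ∩ C ⊆ U)
    (c : ∀ Z, Coch (Quo (actF F.toWt) Z)) :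
    ev (virF F e (C ∩ U)) (c _) = ev (virF F e C) (c _) := by
  have k : ∀ Z (v : BM (Quo (actF F.toWt) Z)), Z = ch.solF ν κ F ∩ C →
      (ch.kd ν κ F e).Dom (actF F.toWt) Z (C ∩ U) O → (ch.kd ν κ F e).IsV _ Z (C ∩ U) v →
      ev v (c Z) = ev (virF F e C) (c _) := by
    rintro _ v rfl a ⟨O', b, t⟩
    have f : ∀ {O}, (ch.kd ν κ F e).Dom (actF F.toWt) (ch.solF ν κ F ∩ C) (C ∩ U) O → Dom F e C O :=
      fun a => ⟨a.sub, a.opn.elim fun V b => ⟨U ∩ V, hU.inter b.1, b.2.trans (inter_assoc _ _ _)⟩,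
        a.isAct, a.orb, a.zero⟩
    rw [(Vd.isV_iff ⟨hC.adm, hC.inv, f a, h.cyc⟩ hs).1 ⟨O', f b, t⟩]
  exact k _ _ ((inter_assoc _ _ _).symm.trans (inter_eq_left.2 hz)) h.dom ((h.isV_iff hs).2 rfl)

theorem lf_mk (z : ch.WG n ν κ κ' Λ) : lf F z =
    (z.1.1, W.mk' z.2.1.Q z.2.1.p z.2.1.Ξ (z.2.1.X + Fm.ex (lfX F.mov z.1.2 z.2))) :=
  congrArg μG (add_ι₂ _)

/-- the lifted fields have the same values at the old marked points -/
theorem ZL.vl_lift (hn : ch.GN n κ') (hT : Lev F T) {z : ch.WG n ν κ κ' Λ} (hz : z ∈ ZL F T)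
    (a : Mk ν κ) : vl z.1 a = vl (Ch.lf F z) (inc a) := by
  have k := mem_of_eq_of_mem (add_ι₂ _).symm (ZL.lf hn hT hz)
  have b := p_mem_crv k.1.1.mem' (inc a)
  rw [lf_mk]
  exact Prod.ext rfl (funext fun j => (congrArg (fld z.1.2 · j) (k.1.1.mark a)).trans
    (k.1.1.fld_eq (ZD.mt k j) b (((mem_solF.1 k.2.2.1).2 _ b).1 j)))

theorem GH.sameV (h : ch.GH n F e K₀ ℓ T M N) {Z : Set (ch.WF ν κ Λ)}
    (h₁ : EqM (actG F.toWt : ch.AG n ν κ κ' S → _) (actF F.toWt) (ZL F T) Z (fun a => a.1)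
      Prod.fst) : SameV h₁.map h.eqM_lf.map := fun y =>
  Quot.inductionOn y fun z => ⟨⟨_, h₁.maps z.2⟩, ⟨_, h.eqM_lf.maps z.2⟩, rfl, rfl,
    congrArg Prod.fst (lf_mk z.1).symm, ZL.vl_lift h.num h.lev z.2⟩

/-- **gluing on the level of integrals** -/
theorem GC.num [DecidableEq R] (h : ch.GC n F e K₀ ℓ L V C U N' N m) (hF : F.Good)
    (hc : IsCompact (dia F.toWt (ch.solF ν κ F ∩ clo F C))) {fs : List (Fac F.toWt ν κ)}
    (hf : F.Fs 0 fs) {es : List κ'} (hl : es.Nodup) (hl' : ∀ a, a ∈ es) :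
    m * ev (virF F e (clo F C)) (fs.map (F.coch _)).prod = ev (virF F e (clo F L))
      ((fs.map (Fac.re id Sum.inl) ++ es.map fun a => Fac.dg (Sum.inr a)).map (F.coch _)).prod := by
  obtain ⟨U₀, a⟩ := h.pr
  obtain ⟨U', a'⟩ := h.gh.pr'
  obtain ⟨v, g⟩ := h.gh.gd a
  haveI := h.gh.nice
  haveI := g.niceZ
  haveI := g.isActZ
  have z := (h.vd a).gz h.gh.std
  have z' := (h.gh.vd a').gz (h.gh.std.re n)
  obtain ⟨b, c, d⟩ := h.gh.isV a hF hl hl'
  obtain ⟨i, j⟩ := h.push d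
  refine .trans ?_ ((h.gh.vd a').ev_open (h.gh.std.re n) h.levL' h.opnV h.solV fun Z =>
    ((fs.map (Fac.re id Sum.inl) ++ es.map fun a => Fac.dg (Sum.inr a)).map (F.coch Z)).prod)
  rw [List.map_append, List.prod_append]
  refine (h.gh.sameV h.eqM).num z z' (Fam.isDiag_diag hF h.gh.std.reg) hc i (h.gh.emb a).1 b c j
    (fun f k => ⟨at_of_ok0 inter_subset_left (hf.1 f k).1, at_of_ok0 inter_subset_left ?_⟩)
    (fun q _ => psi_glue z z' g.orbZ (fun _ k => k.1.1.1) (fun y _ => by rw [lf_mk]; exact ⟨rfl, rfl⟩)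
      h.eqM h.gh.eqM_lf q) (fun _ k => (hf.1 _ k).2.elim) hf.2
  have l := (hf.1 f k).1
  cases f with
  | ev q A c => exact fun y s => l ⟨s.1, fun _ _ _ t => (t rfl).elim⟩
  | par A c => exact l
  | _ => trivial

theorem GC.intS [DecidableEq R] (h : ch.GC n F (F.tdeg ch) K₀ ℓ L V C U N' N m) (hF : F.Good)
    (a : ch.Lat F.toWt ℓ) (a' : (ch.re n).Lat F.toWt ℓ)
    (hc : IsCompact (dia F.toWt (ch.solF ν κ F ∩ clo F C))) {fs : List (Fac F.toWt ν κ)}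
    (hf : F.Fs 0 fs) {es : List κ'} (hl : es.Nodup) (hl' : ∀ a, a ∈ es) :
    m * F.intS ℓ (clo F C) (fun _ => True) fs = F.intS ℓ (clo F L) (fun _ => True)
      (fs.map (Fac.re id Sum.inl) ++ es.map fun a => Fac.dg (Sum.inr a)) := by
  rw [Fam.intS, Fam.intS, selQ_true a inter_subset_left, selQ_true a' inter_subset_left, ind_univ',
    ind_univ', one_mul, one_mul]
  exact h.num hF hc hf hl hl'

end Ch

/-- **gluing** -/
theorem St.gLn : St.GLn := fun F k g g' d Q n N fs es h hg hQ hC hN hf hl hl' => by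
  obtain ⟨K₀, r⟩ := h.reg
  filter_upwards [F.eventually_bigD k, hQ.2, hC.2] with D a b c
  obtain ⟨V, U, N', N₀, -, t⟩ := Fam.gc h.big a hg h.toGood r hQ.1 b c hN
  exact t.intS h.toGood (Fam.chart_lat a) (Fam.chart_lat (g := g') (d := d) a) (h.cptQ a hC.1) hf hl hl'

end Vale.Agent.P269
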