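import Vale.Agent.P269.Glu.NdF
import Vale.Agent.P269.Glu.NdT
import Vale.Agent.P269.Glu.Cas0
import Vale.Agent.P269.Spl.NFQ

/-!
# Persistent nodes as pairs of marked points: the numerical statement
-/

set_option linter.unusedSectionVars false

namespace Vale.Agent.P269

open P291Z Set Function Topology Filter Ch

variable {S Λ R J K I ι ν κ ε β : Type} [Fintype S] [Fintype Λ] [Fintype R] [Fintype J] [Fintype K]
  [Fintype I] [Fintype ι] [DecidableEq ι] [Fintype ν] [Fintype κ] [Fintype ε] [Fintype β]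
  {F : Fam S Λ R J K} [DecidableEq R] [DecidableEq I] [DecidableEq ε]

theorem Nd.ok_re {ν' : Type} [Fintype ν'] {a : ν → ν'} {f : Fac F.toWt ν κ} (h : f.Ok F 0) :
    (f.re a id).Ok F 0 := by
  cases f
  exacts [trivial, fun _ e => h ⟨e.1, fun _ _ _ a => (a rfl).elim⟩, h, trivial, trivial]

theorem Nd.ev_clP {ch ch' : Ch ι J} (hc : ch' = ch) {e : Ch ι J → K → ι → ℕ} {φ : I → J}
    {K₀ ℓ n ψ} (h : Nd.Cx F F.movᶜ φ ch (e ch) K₀ ℓ n ψ) {Q : AM Λ R J ν (κ ⊕ ε) → Prop}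
    {Q' : AM Λ R J (ν ⊕ ε × Bool) κ → Prop} (hQ : AM.IvtA F.toWt F.movᶜ Q')
    (hq : ∀ m, Q m ↔ Q' (m.re (unp ν κ ε).toEmbedding))
    (hz : ∀ m, Q' m → ∀ q, ∀ j ∈ F.movᶜ, m.y j (m.p (.inl (.inr q))) = 0) {O M O' M' d d'}
    (hv : Vd F (e ch') (ch'.clP F ℓ Q) O M d) (hv' : Vd F (e ch) (ch.clP F ℓ Q') O' M' d')
    (hd : F.IsDiag F.diag) (hK : IsCompact (dia F.toWt (ch.solF _ κ F ∩ ch.clP F ℓ Q')))
    {fs : List (Fac F.toWt ν κ)} (hf : F.Fs 0 fs) {es : List ε} (hl : es.Nodup) (hl' : ∀ q, q ∈ es)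
    {t} (ht : Nd.IsD3 (F.sub F.B F.movᶜ) t) {a a' : β → H (F.X (F.sub F.B F.movᶜ).cone)}
    (ha : hcls t = ∑ s, hpull (fun z => Quo.mk F.actT ⟨_, (Quo.out z).2.1⟩) (a s) *
      hpull (fun z => Quo.mk F.actT ⟨_, (Quo.out z).2.2⟩) (a' s)) :
    ev (virF F (e ch') (ch'.clP F ℓ Q))
        ((fs.map (Fac.re id Sum.inl) ++ es.map fun q => Fac.dg (Sum.inr q)).map (F.coch _)).prod =
      ∑ s : ε → β, ev (virF F (e ch) (ch.clP F ℓ Q')) ((fs.map (Fac.re Sum.inl id) ++ es.flatMap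
        fun q => [Fac.ev (Nd.mq q false) _ (a (s q)), Fac.ev (Nd.mq q true) _ (a' (s q))]).map
          (F.coch _)).prod := by
  subst hc
  simpa only [map_one, one_mul, List.map_map (g := Fac.un ε), comp_def, Nd.un_re] using
    Nd.ev_node h (Nd.ndT_clP h.std h.num h.lat hQ hq hz) hv hv' hd hK
      (fs := fs.map (Fac.re Sum.inl id)) (List.forall_mem_map.2 fun f e =>
        at_of_ok0 inter_subset_left (Nd.ok_re (hf.1 f e).1))
      (fun q => List.mem_map_of_mem (f := Fac.re Sum.inl id) (hf.2 q)) hl hl' cocycle_one ht ha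

/-- **Nodes.** -/
theorem St.nDn : St.NDn := by
  intro S Λ R J K ν κ ε β _ _ _ _ _ _ _ _ _ _ _ F k g d Z a a' Q Q' n fs es h hZ hN ha c c' hq hz
    hf hl hl'
  subst hZ
  obtain ⟨K₀, r⟩ := h.reg
  obtain ⟨b, s⟩ := h.sm
  obtain ⟨_, φ, m, ψ, w⟩ := hN.sh
  obtain ⟨t, ht⟩ := X3.exists_isD3 hN
  filter_upwards [F.eventually_bigD k, c.2, c'.2] with D hD e e'
  obtain ⟨_, o⟩ := h.toGood.ok' ν (κ ⊕ ε) r s h.big hD g d
  obtain ⟨_, o'⟩ := h.toGood.ok' (ν ⊕ ε × Bool) κ r s h.big hD g d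
  obtain ⟨_, _, _, v⟩ := Nd.vd_clP o c.1 e
  obtain ⟨_, _, _, v'⟩ := Nd.vd_clP o' c'.1 e'
  simp only [Fam.intQ_eq hD]
  exact Nd.ev_clP (congrArg (F.chart g · d k D) (Fintype.card_congr (unp ν κ ε)).symm)
    (e := F.tdeg) ⟨o'.toStd, o'.num, o'.lat, h.zer_base.subset_compl_right, hN, w⟩ c'.1 hq hz v v' h.dg.1 (h.cptQ hD c'.1)
    hf hl hl' ht (ht.hcls_eq hN h.cp ha)

end Vale.Agent.P269
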