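import Vale.Agent.P269.Glu.GH
import Vale.Agent.P269.Glu.PrDefs
import Vale.Agent.P269.Spl.GBd

set_option linter.unusedSectionVars false

/-!
# Gluing: the hypotheses for the comparison with the glued curves
-/

namespace Vale.Agent.P269

open P291Z Set Function Topology Filter Module Holo Base Cv

variable {S Λ R J K ι ν κ κ' : Type} [Fintype S] [Fintype Λ] [Fintype R] [Fintype J]
  [Fintype K] [Fintype ι] [DecidableEq ι] [Fintype ν] [Fintype κ] [Fintype κ']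

namespace Ch

variable {ch : Ch ι J} {n : Nm ι J}

variable (ch) in
/-- All curves near `y` can be glued. -/
def Glb (y : (ch.re n).W (Mk ν (κ ⊕ κ'))) : Prop :=
  ∀ᶠ y' in 𝓝 y, y' ∈ (ch.re n).bm ν (κ ⊕ κ') →
    ∃ (x : ch.W (Mk ν κ)) (w : ch.Lb n (Mk ν (κ ⊕ κ'))), Gl x w ∧ w.1 = y'

variable (n κ') in
/-- Every choice of oriented nodes of the curve of `x` is given by a label. -/
def Lab (x : ch.W (Mk ν κ)) : Prop :=
  ∀ γ : κ' → Bool → ℂ → V ch.M,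
    (∀ e, IsCross ch.o (crv x) (γ e false 0) (γ e false) (γ e true)) →
    (∀ e e', Base.Orb (γ e false 0) (γ e' false 0) → e = e') →
    ∃ w : ch.Lb n (Mk ν (κ ⊕ κ')), Gl x w ∧ Brs w γ ∧ ch.Glb w.1

/-- The branches of the label `w` are the points `v` of the normalisation. -/
def Lbl {m : AM Λ R J ν κ} (B : ι → LB m.R) (π : m.X → V ch.M) (w : ch.Lb n (Mk ν (κ ⊕ κ')))
    (v : κ' × Bool → m.X) : Prop := Brs w fun e b => br B π (v (e, b))

/-- Over `x` there are exactly `m` labels in `Z`, up to frames. -/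
def CntL (Wg : Wt S Λ R J) (Z : Set (ch.WG n ν κ κ' Λ)) (m : ℕ) (x : ch.WF ν κ Λ) : Prop :=
  ∃ z : Fin m → ch.WG n ν κ κ' Λ, (∀ i, z i ∈ Z ∧ (z i).1 = x) ∧
    (∀ i j (a : ch.AG n ν κ κ' S), IsUnit a → a.1 = 1 → actG Wg a (z i) = z j → i = j) ∧
    ∀ y ∈ Z, y.1 = x → ∃ i, ∃ a : ch.AG n ν κ κ' S, IsUnit a ∧ a.1 = 1 ∧ actG Wg a y = z i

variable (F : Fam S Λ R J K) (e : K → ι → ℕ) (K₀ : Set K) (ℓ : R → ι → ℤ)

variable (ch n) in
/-- The level `C` of glued curves is the image of the level `L` of normalised curves, with `m`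
labels over each point near the solutions. -/
structure GC (L V : Set ((ch.re n).WF ν (κ ⊕ κ') Λ)) (C U : Set (ch.WF ν κ Λ)) (N' N m : ℕ) :
    Prop where
  gh : ch.GH n F e K₀ ℓ (clo F L ∩ V) (L ∩ V) N'
  levL : Lev F L
  opnV : IsOpen V
  solV : (ch.re n).solF ν (κ ⊕ κ') F ∩ clo F L ⊆ V
  levC : Lev F C
  pr : ∃ U₀ : Set (ch.WF ν κ Λ), Pr F U₀
  opn : IsOpen U
  inv : Ivt (actF F.toWt) U
  sol : ch.solF ν κ F ∩ clo F C ⊆ U
  pcy : PCy (clo F C ∩ U) (C ∩ U) N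
  dim : (L ∩ V).Nonempty → (C ∩ U).Nonempty →
    N + finrank ℂ ((ch.re n).AF ν (κ ⊕ κ') S) + finrank ℂ ((ch.re n).Fm F.mov (ch.re n).hf) =
      N' + finrank ℂ (ch.AF ν κ S) + finrank ℂ (ch.Fm F.mov ch.hf)
  lab : ∀ x ∈ ch.baseF ν κ F.B ∩ U, Lab κ' n x.2
  maps : ∀ z ∈ (Zf F L : Set (ch.WG n ν κ κ' Λ)), z.1 ∈ C
  cnt : ∀ x ∈ C ∩ U, CntL F.toWt (Zf F L : Set (ch.WG n ν κ κ' Λ)) m x

end Ch

namespace Fam

variable (F : Fam S Λ R J K) [DecidableEq R] (ν κ) (k D : ℕ) (g : ℤ) (d : R → ℤ)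

/-- The numerical data of the standard chart. -/
@[reducible] noncomputable def nms : Nm (Option R) J :=
  ⟨(F.sch ν κ k D g d).M, (F.sch ν κ k D g d).h, g, (F.sch ν κ k D g d).m⟩

theorem sch_re (ν' κ' : Type) [Fintype ν'] [Fintype κ'] (g' : ℤ) (d' : R → ℤ) :
    (F.sch ν κ k D g d).re (F.nms ν' κ' k D g' d') = F.sch ν' κ' k D g' d' := rfl

/-- The points near which all curves are positive. -/
def posG : Set ((F.sch ν κ k D g d).WF ν κ Λ) :=
  interior {x | x.2 ∈ Ch.base _ _ → ∀ m : AM Λ R J ν κ, Ch.Rep ℓs ∅ x m → m.Pos F.θ k}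

end Fam

end Vale.Agent.P269
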