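import Vale.Agent.P269.Glu.PrNum
import Vale.Agent.P269.Glu.PrPt
import Vale.Agent.P269.Spl.NFQ

set_option linter.unusedSectionVars false

/-!
# The product formula
-/

namespace Vale.Agent.P269

open P291Z Set Function Topology Filter Module Base Cv Holo Vir Ch Ch.KD

theorem Ch.KD.ev_vr_eq {A W P : Type} [NormedRing A] [NormedAlgebra ℂ A] [NormedAddCommGroup W]
    [NormedSpace ℂ W] [AddCommGroup P] [Module ℂ P] [TopologicalSpace P] {act : A → W → W}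
    {Z Z' O : Set W} (D : KD A W P) (e : Z' = Z) (β : BM (Quo act O)) (a : Coch (Quo act Z)) :
    ev (D.vr act Z' O β) (pull (Quo.incl act e.le) a) = ev (D.vr act Z O β) a := by
  subst e
  rw [show Quo.incl act _ = id from funext fun y => Quot.inductionOn y fun _ => rfl, pull_id]

variable {S Λ R J K ι ν κ ν₁ κ₁ ν₂ κ₂ β : Type} [Fintype S] [Fintype Λ] [Fintype R] [Fintype J]
  [Fintype K] [Fintype ι] [DecidableEq ι] [Fintype ν] [Fintype κ] [Fintype β]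
  [Fintype ν₁] [Fintype κ₁] [Fintype ν₂] [Fintype κ₂] {s : Sv ν κ ν₁ κ₁ ν₂ κ₂}
  {F : Fam S Λ R J K} {K₀ : Set K} {A A₁ A₂ : Set J} {δ δ₁ δ₂ : J → ℕ} {b : ℕ} {m : AM Λ R J ν κ}

namespace Ch

variable {ch : Ch ι J} {e : K → ι → ℕ} {ℓ : R → ι → ℤ} {T O M U : Set (ch.WF ν κ Λ)} {d : ℕ}
  {x : ch.WF ν κ Λ} {fs : List (Fac F.toWt ν κ)}

theorem adm_sub_le (hz : F.zer ⊆ A) : ch.adm ν κ (F.sub F.B A) ⊆ ch.adm ν κ F :=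
  fun _ a => ⟨a.1, a.2.1, a.2.2.1, fun j hj => a.2.2.2.1 j (hz hj), a.2.2.2.2⟩

theorem solF_inter_sub (hz : F.zer ⊆ A) (hT : T ⊆ ch.adm ν κ (F.sub F.B A)) :
    ch.solF ν κ (F.sub F.B A) ∩ T = ch.solF ν κ F ∩ T :=
  Subset.antisymm (inter_subset_inter_left _ (solF_sub_le Subset.rfl hz)) fun _ a =>
    ⟨mem_solF.2 ⟨a.1.1, fun c hc => ⟨((mem_solF.1 a.1).2 c hc).1,
      (Fam.mem_cone_sub Subset.rfl hz).2 ⟨((mem_solF.1 a.1).2 c hc).2, a.1.1.1,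
        fun j hj => fld_of_zero hc ((hT a.2).2.2.2.1 j hj)⟩⟩⟩, a.2⟩

theorem prB_main (hE : ∀ l ∈ F.B, ∀ y, (∀ j ∈ A, y j = 0) → (l, y) ∈ F.E) (u : ν → J → ℕ) :
    PrB F.B (ch.main κ (F.sub F.B A) u) := fun _ a =>
  ⟨a.1.1.1, fun l b => ⟨⟨⟨b, a.1.1.2⟩, a.1.2.1,
    fun _ hc => hE l b _ fun j hj => fld_of_zero hc (a.1.2.2.2.1 j hj), a.1.2.2.2⟩, a.2⟩⟩

theorem Rep.main_sub (r : Rep ℓ F.movᶜ x m) (hF : F.Inv) (hF' : (F.sub F.B A).Inv)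
    (hw : ∀ j i, ch.wd j i = ∑ r, F.w j r * ℓ r i) (hx : x ∈ ch.adm ν κ F) {u : ν → J → ℕ} :
    x ∈ ch.main κ (F.sub F.B A) u ↔ (∀ j ∈ A, m.y j = 0) ∧ m.Main (F.sub F.B A) u :=
  have a := (r.mem_adm hx.1.2.1 hF hw Subset.rfl).1 hx
  have b := r.mem_adm (F := F.sub F.B A) hx.1.2.1 hF' hw Subset.rfl
  ⟨fun c => ⟨(b.1 c.1).2.2.1, (r.mem_main (F := F.sub F.B A) hw Subset.rfl c.1).1 c⟩, fun c =>
    (r.mem_main (F := F.sub F.B A) hw Subset.rfl (b.2 ⟨a.1, a.2.1, c.1, a.2.2.2⟩)).2 c.2⟩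

variable [DecidableEq R]

/-- **integrals over cycles in a subfamily** -/
theorem Vd.ev_sub (h : Vd F e T O M d) (hs : ch.Std F e K₀ ℓ) (hF : F.Good)
    (hF' : (F.sub F.B A).Good) (hz : F.zer ⊆ A) (hT : T ⊆ ch.adm ν κ (F.sub F.B A))
    (hA : ∀ f ∈ fs, f.At (ch.solF ν κ F ∩ T)) (hq : ∀ q, .dg q ∈ fs)
    (hc : IsCompact (dia F.toWt (ch.solF ν κ F ∩ T))) :
    ev (virF (F.sub F.B A) e T) (fs.map ((F.sub F.B A).coch _)).prod =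
      ev (virF F e T) (fs.map (F.coch _)).prod := by
  have E := solF_inter_sub hz hT
  have hs' : ch.Std (F.sub F.B A) e K₀ ℓ := ⟨hF'.toInv, hs.reg.sub Subset.rfl hz,
    ⟨hs.fits.wt, hs.fits.le, hs.fits.ne⟩, hs.cuts, hs.wt⟩
  have h' : Vd (F.sub F.B A) e T O M d := ⟨hT, h.inv,
    E.symm.subst (motive := fun Z => (ch.kd ν κ F e).Dom _ Z T O) h.dom, h.cyc⟩
  rw [← GZ.ev_subF hF hs.reg hF' Subset.rfl hz (h.gz hs) (h'.gz hs') E.le hA hq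
    (E.symm.subst (motive := fun Z => IsCompact (dia F.toWt Z)) hc), h'.virF_vr hs', h.virF_vr hs]
  exact (ch.kd ν κ F e).ev_vr_eq E _ _

theorem Ok.stra (h : ch.Ok F e K₀ ℓ b U) (hz : F.zer ⊆ A) (hN : (F.sub F.B A).Nice δ) (u : ν → ℕ) :
    ∃ N, Stra F (ch.main κ (F.sub F.B A) fun a => u a • δ) N :=
  let ⟨_, _, _, _, a⟩ := hN.sh
  have l := lev_main (ch := ch) (κ := κ) hN.toInv fun a => u a • δ
  ⟨_, ⟨l.adm.trans (adm_sub_le hz), l.inv, l.mov⟩, fun _ c => (h.num.mfd_main (F := F.sub F.B A)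
    h.sm (Lat.gr (F := F.sub F.B A) h.lat hN.toInv a u) c).2,
    locAn_main (F := F.sub F.B A) h.cuts h.wt hN.pol _⟩

end Ch

namespace Fam

variable [DecidableEq R] {k D : ℕ} {g g₁ g₂ : ℤ} {d d₁ d₂ : R → ℤ} (h : F.Sg k) (hD : F.BigD k D)
include h hD

theorem Sg.cpt_clo {Z : Set ((F.sch ν κ k D g d).WF ν κ Λ)} (hZ : Lev F Z) :
    IsCompact (dia F.toWt (Ch.solF _ ν κ F ∩ clo F Z)) :=
  mem_of_eq_of_mem (s := {s | IsCompact s})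
    (inter_eq_left.2 fun z _ => (Quo.out z).2.1.1.1).symm
    (h.toGood.isCompact_lev h.big hD (hZ.clo h.toInv (chart_cuts hD))
      (fun _ a => ⟨closure_minimal inter_subset_left isClosed_closure a.1, a.2⟩) Subset.rfl h.invB
      h.cp)

/-- the integrals of a subfamily -/
theorem Sg.intM_sub (hz : F.zer ⊆ A) (hN : (F.sub F.B A).Nice δ) {u : ν → ℕ}
    {fs : List (Fac F.toWt ν κ)} (hf : (F.sub F.B A).Fs (fun a => u a • δ) fs) {O M n}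
    {Z : Set ((F.sch ν κ k D g d).WF ν κ Λ)} (e : Z = Ch.main _ κ (F.sub F.B A) fun a => u a • δ)
    (hZ : Lev F Z) (hs : (F.sch ν κ k D g d).Std F (F.tdeg (F.sch ν κ k D g d)) K₀ ℓs)
    (hV : Vd F (F.tdeg (F.sch ν κ k D g d)) (clo F Z) O M n) :
    (∀ f ∈ fs, f.At (Ch.solF _ ν κ F ∩ clo F Z) ∧ f.NoTw) ∧ ∀ c : H (F.Bs F.B),
      (F.sub F.B A).intM k D g d (fun a => u a • δ) (.par F.B c :: fs) =
        ev (virF F (F.tdeg (F.sch ν κ k D g d)) (clo F Z))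
          ((.par F.B c :: fs).map (F.coch _)).prod := by
  subst e
  have a := hs.cuts.cyc_subset_adm (κ := κ) hN.toInv fun a => u a • δ
  have b : ∀ f ∈ fs, f.At (Ch.solF _ ν κ F ∩ Ch.cyc _ κ (F.sub F.B A) fun a => u a • δ) :=
    fun f c => (hs.cuts.at_of_ok hN.toInv hN.mv (hf.1 f c).1).mono (solF_inter_sub hz a).ge
  exact ⟨fun f c => ⟨b f c, (hf.1 f c).2⟩, fun c => (intM_eq (F := F.sub F.B A) hD _).trans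
    (hV.ev_sub hs h.toGood hN.toGood hz a (List.forall_mem_cons.2 ⟨fun _ x => x.1.1.1, b⟩)
      (fun q => List.mem_cons_of_mem _ (hf.2 q)) (h.cpt_clo hD hZ))⟩

variable {u₁ : ν₁ → J → ℕ} {u₂ : ν₂ → J → ℕ} (i₁ : (F.sub F.B A₁).Inv) (i₂ : (F.sub F.B A₂).Inv)
include i₁ i₂

/-- labels give decompositions of the abstract map -/
theorem Sg.pr2 {z : (F.sch ν κ k D g d).WQ (F.nms ν₁ κ₁ k D g₁ d₁) (F.nms ν₂ κ₂ k D g₂ d₂)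
      ν κ ν₁ κ₁ ν₂ κ₂ Λ}
    (hz : z ∈ ZQ s F (Ch.main _ κ₁ (F.sub F.B A₁) u₁) (Ch.main _ κ₂ (F.sub F.B A₂) u₂)) {B π u t}
    (r : RepD ℓs F.movᶜ z.1 m B π u t) :
    m.Pr2 (F.sub F.B A₁) (F.sub F.B A₂) s.φ s.ψ u₁ u₂ g₂ d₂ (π ⁻¹' part z) := by
  obtain ⟨m₁, m₂, j₁, j₂, a, b⟩ := CQ.exists_split hz.1 r
  obtain ⟨r₁, r₂⟩ := CQ.rep (chart_lat hD) hz.1 r a b
  obtain ⟨-, c₁, c₂⟩ := (CQ.adm_iff hz.1 h.toInv).1 hz.2.1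
  have e₁ := (r₁.main_sub h.toInv i₁ chart_wd' c₁).1 hz.2.2.1
  have e₂ := (r₂.main_sub h.toInv i₂ chart_wd' c₂).1 hz.2.2.2
  exact ⟨m₁, m₂, j₁, j₂, a, b, rep_typ (F := F) r₂ (CQ.mem₂ hz.1), e₁.1, e₁.2, e₂⟩

variable (hg : g₁ + g₂ = g + 1) (hd : d₁ + d₂ = d) {Q : AM Λ R J ν κ → Prop}
  (hQ : ∀ m : AM Λ R J ν κ, (∀ j ∉ F.mov, m.y j ∈ H0 m.N (bz m.L (F.w j))) →
    (Q m ↔ ∃ U, m.Pr2 (F.sub F.B A₁) (F.sub F.B A₂) s.φ s.ψ u₁ u₂ g₂ d₂ U))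
include hg hd hQ

theorem Sg.img : Prod.fst '' (ZQ s F (Ch.main _ κ₁ (F.sub F.B A₁) u₁)
      (Ch.main _ κ₂ (F.sub F.B A₂) u₂) : Set ((F.sch ν κ k D g d).WQ (F.nms ν₁ κ₁ k D g₁ d₁)
        (F.nms ν₂ κ₂ k D g₂ d₂) ν κ ν₁ κ₁ ν₂ κ₂ Λ)) = (F.sch ν κ k D g d).locP F ℓs Q := by
  refine Subset.antisymm (image_subset_iff.2 fun z a => ?_) fun x ⟨a, m, r, q⟩ => ?_
  · obtain ⟨m, r⟩ := (chart_lat hD).exists_rep_adm a.2.1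
    obtain ⟨B, π, u, t, c⟩ := r.exists_data a.1.1.mem
    exact ⟨a.2.1, m, r, (hQ m fun j hj => c.sec chart_wd' hj).2 ⟨_, h.pr2 hD i₁ i₂ a c⟩⟩
  obtain ⟨_, m₁, m₂, j₁, j₂, b, -, t₂, c⟩ := (hQ m fun j hj => r.sec a.1.2.1 chart_wd' hj).1 q
  have t := rep_typ (F := F) r a.1.2.1
  obtain ⟨z, z1, rfl, r₁, r₂⟩ := exists_dec' (s := s) h.big hD hg hd a.1.2.1 r b
    ⟨by have := b.gen_add; have := t.1; have := t₂.1; omega, fun i => by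
      have := b.deg_L i
      have := t.2 i
      have := t₂.2 i
      have : d₁ i + d₂ i = d i := congrFun hd i
      omega⟩
  obtain ⟨-, c₁, c₂⟩ := (CQ.adm_iff z1 h.toInv).1 a
  exact ⟨z, ⟨z1, a, (r₁.main_sub h.toInv i₁ chart_wd' c₁).2 ⟨c.1, c.2.1⟩,
    (r₂.main_sub h.toInv i₂ chart_wd' c₂).2 c.2.2⟩, rfl⟩

end Fam

/-- **the product formula** -/
theorem St.pRn : St.PRn := by
  intro S Λ R J K ν κ ν₁ κ₁ ν₂ κ₂ β _ _ _ _ _ _ _ _ _ _ _ _ _ F k g₁ g₂ d₁ d₂ A₁ A₂ δ₁ δ₂ u₁ u₂ φ ψ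
    e f Q n fs₁ fs₂ h z₁ z₂ n₁ n₂ hE hc hC hQ hU f₁ f₂
  obtain ⟨K₀, hR⟩ := h.reg
  obtain ⟨b, hB⟩ := h.sm
  obtain ⟨b', bs⟩ := h.toGood.bsOk hB
  filter_upwards [hC.2, F.eventually_bigD k] with D ⟨U, N, o, i, _, a, p, _⟩ hD
  obtain ⟨U₁, o₁⟩ := h.toGood.ok' ν₁ κ₁ hR hB h.big hD g₁ d₁
  obtain ⟨U₂, o₂⟩ := h.toGood.ok' ν₂ κ₂ hR hB h.big hD g₂ d₂
  obtain ⟨N₁, s₁⟩ := o₁.stra z₁ n₁ u₁
  obtain ⟨N₂, s₂⟩ := o₂.stra z₂ n₂ u₂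
  have hg : g₁ + g₂ = g₁ + g₂ - 1 + 1 := (sub_add_cancel _ _).symm
  have c : PC (ch := F.sch ν κ k D (g₁ + g₂ - 1) (d₁ + d₂)) (n₁ := F.nms ν₁ κ₁ k D g₁ d₁)
      (n₂ := F.nms ν₂ κ₂ k D g₂ d₂) ⟨φ, ψ⟩ F _ K₀ ℓs b b' U₁ _ U₂ _ N₁ N₂ _ U N :=
    ⟨⟨Fam.qn (s := ⟨φ, ψ⟩) h.big hD hg rfl, Fam.chart_std h.toGood hR hD, o₁, o₂, s₁, s₂,
      prB_main (fun l x y w => hE l x y (.inr w)) _, bs⟩, lev_locP h.toInv hC.1,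
      h.toGood.exists_pr h.big hD _ _, o, i, a, p,
      h.img (s := ⟨φ, ψ⟩) hD n₁.toInv n₂.toInv hg rfl hQ, fun z x z' x' y => by
        obtain ⟨m, r⟩ := (Fam.chart_lat hD).exists_rep_adm x.2.1
        obtain ⟨B, π, u, t, c⟩ := r.exists_data x.1.1.mem
        exact CQ.part_eq x.1 x'.1 y c (hU m _ _ (h.pr2 hD n₁.toInv n₂.toInv x c)
          (h.pr2 hD n₁.toInv n₂.toInv x' (y ▸ c)))⟩
  obtain ⟨a₁, e₁⟩ := h.intM_sub hD z₁ n₁ f₁ rfl s₁.lev o₁.toStd c.qh.vd₁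
  obtain ⟨a₂, e₂⟩ := h.intM_sub hD z₂ n₂ f₂ rfl s₂.lev o₂.toStd c.qh.vd₂
  have := h.cp
  exact (Fam.intQ_eq hD).trans ((c.num h.dg.1 a₁ a₂ f₁.2 f₂.2 hc (h.cptQ hD hC.1)
    (h.cpt_clo hD s₁.lev) (h.cpt_clo hD s₂.lev)).trans
      (Finset.sum_congr rfl fun q _ => congrArg₂ (· * ·) (e₁ _).symm (e₂ _).symm))

end Vale.Agent.P269
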