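import Vale.Agent.P269.Map.Gy
import Vale.Agent.P269.Map.SQD

set_option linter.unusedSectionVars false
set_option linter.style.haveILetI false

/-!
# The degree of a finite map of cycles
-/

namespace Vale.Agent.P269

open Set Function Topology Filter Module Vale.Agent.P291Z Vale.Agent.P269.Orb Holo Ch

variable {A A' W W' : Type} [NormedRing A] [NormedAlgebra ℂ A] [NormedAddCommGroup W]
  [NormedSpace ℂ W] [NormedRing A'] [NormedAlgebra ℂ A'] [NormedAddCommGroup W'] [NormedSpace ℂ W']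
  [FiniteDimensional ℂ A] [FiniteDimensional ℂ W] [FiniteDimensional ℂ A'] [FiniteDimensional ℂ W']
  {act : A → W → W} {act' : A' → W' → W'} {O M : Set W} {O' M' : Set W'} {d : ℕ}
  [IsAct act O] [IsAct act' O']

/-- a slice at a smooth point, with values in the smooth part -/
theorem Tpc.exists_slice (h : Tpc act O M d) (ho : Orb Aˣ (Holo.Sp act O)) {x : W} (hx : x ∈ M) :
    ∃ φ : (Fin d → ℂ) → Holo.Sp act O, IsSlice Aˣ Holo.Sp.val φ ∧ (φ 0).val = x ∧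
      PCh (Holo.Sp.mk ∘ φ) ∧ ∀ z, (φ z).val ∈ M := by
  haveI := h.isAct
  have hM := h.holOrb ho
  obtain ⟨φ, h1, h2⟩ := hM.slice (.of act x hx)
  have hj := Quo.isEmbedding_incl (act := act) h.sub
  exact ⟨fun z => Holo.Sp.incl act h.sub (φ z), h1.push_lh (Holo.Sp.incl_smul h.sub)
    ((Holo.Sp.isOpenEmbedding_incl h.sub h.opn).lh _), congrArg Holo.Sp.val h2,
    (hM.gch isQuo_sp h1).pch.comp hj.continuous hj.injective, fun z => (φ z).val_mem⟩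

/-- **uniqueness**: values on a dense set -/
theorem Tpc.eq_of_dense (h : Tpc act O M d) (ho : Orb Aˣ (Holo.Sp act O)) {γ γ' : BM (Quo act O)}
    (hγ : BM.IsDeg (2 * d) γ) (hγ' : BM.IsDeg (2 * d) γ') {G : Set W} (hG : M ⊆ closure (M ∩ G))
    (e : ∀ x : Holo.Sp act O, x.val ∈ M ∩ G → ∃ m, PtVal γ d x m ∧ PtVal γ' d x m) : γ = γ' := by
  haveI := nice_of_orb ho
  haveI := h.isAct
  haveI := h.isAct_diff
  have hM := h.holOrb ho
  haveI := hM.niceX isQuo_sp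
  refine eq_of_res_of_top (Quo.isClosedEmbedding_incl sdiff_subset h.clo)
    (Quo.isOpenEmbedding_incl h.sub h.opn) h.range_incl ((h.top ho).mono (by omega)) hγ hγ' ?_
  rw [← sub_eq_zero, (hM.ori isQuo_sp).eq_smul (isDeg_sub (hγ.res _) (hγ'.res _)) (l := 0)
    (isQuo_sp.meets (dense_sp (act := act) hG)) ?_, zero_smul]
  rintro _ ⟨x, hx, rfl⟩
  obtain ⟨φ, h1, rfl⟩ := hM.slice x
  obtain ⟨a, h2, h3⟩ := (hM.gch isQuo_sp h1).gen
  obtain ⟨m, h4, h5⟩ := e (Holo.Sp.incl act h.sub (φ 0)) ⟨(φ 0).val_mem, hx⟩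
  refine ⟨a, h2.cyc, h2.pt, right_ne_zero_of_mul_eq_one
    (hM.val isQuo_sp h1 a 1 h2.cyc h2.pt h3), ?_⟩
  rw [sub_ev, (PtVal.res_iff ho h.sub h.opn).2 h4 φ h1 rfl a 1 h2.cyc h2.pt h3,
    (PtVal.res_iff ho h.sub h.opn).2 h5 φ h1 rfl a 1 h2.cyc h2.pt h3, sub_self, zero_mul]

/-- an analytic lift of a slice is a chart -/
theorem rep_of_lift {θ : A' → A} {f : W' → W} (hf : EqM act' act O' O θ f)
    {φ : (Fin d → ℂ) → Holo.Sp act O} {φ' u : (Fin d → ℂ) → Holo.Sp act' O'}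
    (h : IsSlice Aˣ Holo.Sp.val φ) (h' : IsSlice A'ˣ Holo.Sp.val φ') (h0 : u 0 = φ' 0)
    (hh : HolOn O' f (φ' 0).val) (hu : AnalyticAt ℂ (fun z => (u z).val) 0)
    (e : ∀ᶠ z in 𝓝 0, f (u z).val = (φ z).val) : Rep (Holo.Sp.mk ∘ u) (Holo.Sp.mk ∘ φ') := by
  obtain ⟨ρ, c, eρ⟩ := hf.hom
  obtain ⟨w, -, a1, a2, -⟩ := h.exists_coord
  obtain ⟨w', κ, b1, b2, b3, b4⟩ := h'.exists_coord
  obtain ⟨Φ, c1, c2⟩ := hh
  have t1 : Tendsto u (𝓝 0) (𝓝 (φ' 0)) :=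
    h0 ▸ Holo.Sp.isEmbedding_val.isInducing.continuousAt_iff.2 hu.continuousAt
  have z0 : w' (u 0).val = 0 := by
    have := b2.self_of_nhds
    rwa [one_smul, ← h0] at this
  have an : AnalyticAt ℂ (fun z => w' (u z).val) 0 :=
    AnalyticAt.comp_of_eq (g := w') b1 hu (congrArg Holo.Sp.val h0)
  have t2 : Tendsto (fun z => (φ' (w' (u z).val)).val) (𝓝 0) (𝓝 (φ' 0).val) :=
    h'.2.1.continuousAt.tendsto.comp (an.continuousAt.tendsto.mono_right (congrArg 𝓝 z0).le)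
  have t3 : Tendsto (fun z => ((ρ (κ (u z)))⁻¹, z)) (𝓝 0) (𝓝 (1, 0)) := by
    have := ((c.tendsto 1).comp (b3.comp t1)).inv
    rw [map_one, inv_one] at this
    exact this.prodMk_nhds tendsto_id
  have f0 : Φ (φ' 0).val = (φ 0).val :=
    (c2.self_of_nhds (φ' 0).val_mem).symm.trans (h0 ▸ e.self_of_nhds)
  refine ⟨_, posGerm_of_left_inverse (θ' := fun z => w (Φ (φ' z).val)) z0 an
    (AnalyticAt.comp_of_eq (g := w) a1 (AnalyticAt.comp_of_eq (g := Φ) c1 h'.2.1 rfl)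
      f0).differentiableAt ?_, (t1.eventually b4).mono fun z hz =>
      (Holo.Sp.mk_eq_iff.2 ⟨_, hz⟩).symm⟩
  filter_upwards [t1.eventually b4, t2.eventually c2, t3.eventually a2, e] with z k1 k2 k3 k4
  have k5 : ρ (κ (u z)) • (Holo.Sp.of act _ (hf.maps (φ' (w' (u z).val)).val_mem)) = φ z :=
    Holo.Sp.ext ((congrArg (act · _) (eρ _)).trans
      ((hf.eqv _ (κ (u z)).isUnit _ (Holo.Sp.val_mem _)).symm.trans
        ((congrArg (fun t => f t.val) k1).trans k4)))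
  rw [← k5, inv_smul_smul] at k3
  exact (congrArg w (k2 (Holo.Sp.val_mem _)).symm).trans k3

/-- **degree of a finite map of cycles**: over a dense set `G` of free points the map of orbit spaces
is an analytic covering with `m` sheets -/
theorem Cyc.push_fnd {θ : A' →L[ℂ] A} {f : W' → W} (hf : EqM act' act O' O θ f)
    (hh : ∀ x ∈ O', HolOn O' f x) (ho : Orb Aˣ (Holo.Sp act O))
    (ho' : Orb A'ˣ (Holo.Sp act' O')) (c : Cyc act O M d) (c' : Cyc act' O' M' d) (hp : IsPr hf.map)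
    {m : ℕ} {G : Set W} (hG : M ⊆ closure (M ∩ G))
    (hm : ∀ x ∈ M ∩ G, Fre act x ∧ ∃ σ : Fin m → W → W', (∀ i, AnalyticAt ℂ (σ i) x ∧
      Fre act' (σ i x) ∧ ∀ᶠ y in 𝓝[M] x, σ i y ∈ M' ∧ f (σ i y) = y) ∧
      (∀ i j a, IsUnit a → act' a (σ i x) = σ j x → i = j) ∧
      ∀ z ∈ O', ∀ b, IsUnit b → act b (f z) = x → ∃ i a, IsUnit a ∧ act' a z = σ i x) :
    push hf.map (fnd act' O' d) = (m : ℂ) • fnd act O d := by
  classical
  haveI := nice_of_orb ho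
  haveI := nice_of_orb ho'
  refine c.eq_of_dense ho ((c'.deg ho').push _) (isDeg_smul (c.deg ho) _) hG fun x hx => ?_
  obtain ⟨h1, σ, h2, h3, h4⟩ := hm _ hx
  refine ⟨_, ?_, (c.ptVal ho h1).smul m⟩
  obtain ⟨φ, a1, a2, a3, a4⟩ := c.exists_slice ho hx.1
  obtain rfl := Holo.Sp.ext a2
  have m1 : ∀ i, σ i (φ 0).val ∈ M' := fun i => ((h2 i).2.2.self_of_nhdsWithin hx.1).1
  let y : Fin m → Holo.Sp act' O' := fun i => .of act' _ (c'.sub (m1 i))
  have inj : Injective fun i => (y i).mk := fun i j e =>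
    let ⟨g, hg⟩ := Holo.Sp.mk_eq_iff.1 e
    h3 i j g g.isUnit (congrArg Holo.Sp.val hg)
  refine PtVal.of_slice ho a1 fun a l k1 k2 k3 => ?_
  rw [ev_push_finite hp _ a3 (Finset.univ.image fun i => (y i).mk) (fun z hz => ?_) (fun _ => 1)
    (fun z hz => ?_) k1 k2 k3]
  · rw [Finset.sum_const, Finset.card_image_of_injective _ inj, Finset.card_fin, nsmul_eq_mul,
      mul_comm]
  · obtain ⟨z, rfl⟩ := Holo.Sp.surjective_mk z
    obtain ⟨g, hg⟩ := Holo.Sp.mk_eq_iff.1 (show (Holo.Sp.of act _ (hf.maps z.val_mem)).mk = _ from hz)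
    obtain ⟨i, _, ⟨g', rfl⟩, e⟩ := h4 _ z.val_mem g g.isUnit (congrArg Holo.Sp.val hg)
    exact Finset.mem_image.2 ⟨i, Finset.mem_univ _,
      ((Holo.Sp.mk_eq_iff (x := z) (y := y i)).2 ⟨g', Holo.Sp.ext e⟩).symm⟩
  obtain ⟨i, -, rfl⟩ := Finset.mem_image.1 hz
  obtain ⟨φ', b1, b2, b3, -⟩ := c'.exists_slice ho' (m1 i)
  have t1 := (tendsto_nhdsWithin_iff.2 ⟨a1.2.1.continuousAt.tendsto, .of_forall a4⟩).eventually
    (h2 i).2.2
  let u : (Fin d → ℂ) → Holo.Sp act' O' := fun z =>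
    if h : σ i (φ z).val ∈ O' then .of act' _ h else y i
  have t2 : ∀ᶠ z in 𝓝 0, σ i (φ z).val = (u z).val := t1.mono fun z hz =>
    (congrArg Holo.Sp.val (dif_pos (c'.sub hz.1) : u z = _)).symm
  have t3 : ∀ᶠ z in 𝓝 0, f (u z).val = (φ z).val := (t1.and t2).mono fun z hz => hz.2 ▸ hz.1.2
  have u0 : u 0 = φ' 0 := Holo.Sp.ext (t2.self_of_nhds.symm.trans b2.symm)
  have r := rep_of_lift hf a1 b1 u0 (hh _ (φ' 0).val_mem)
    ((AnalyticAt.comp_of_eq (h2 i).1 a1.2.1 rfl).congr t2) t3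
  have v := r.val b3 (c'.val ho' b1)
  rw [stab_eq_one (Holo.Sp.free_iff.1 (b2.symm ▸ (h2 i).2.1)), Nat.cast_one] at v
  exact ⟨_, id, 1, 1, congrArg Holo.Sp.mk (Holo.Sp.ext t2.self_of_nhds.symm), (r.pch b3).cont, v,
    one_ne_zero, posGerm_id.germ, posGerm_id.co,
    t3.mono fun z hz => congrArg Holo.Sp.mk (Holo.Sp.ext hz), (mul_one _).symm⟩

end Vale.Agent.P269
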