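import Vale.Agent.P269.Glu.VrA
import Vale.Agent.P269.Glu.Fnd
import Vale.Agent.P269.Glu.Pcy

set_option linter.unusedSectionVars false
set_option linter.style.haveILetI false

/-!
# More on virtual pull-backs: total spaces over cycles
-/

namespace Vale.Agent.P269.Ch

open Set Function Topology Filter Module Vale.Agent.P291Z Vale.Agent.P269.Orb Holo

/-- the Gysin map of the zero section commutes with open embeddings -/
theorem Iso.res_gys_zero {Y' Y : Sp} {m : Mor Y' Y} {E' : VB Y'} {E : VB Y}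
    {L : Y'.T → E'.W →ₗ[ℂ] E.W} (h : Iso m E' E L) (hm : IsOpenEmbedding m.map)
    (hJ : IsOpenEmbedding h.mor.map) (β : BM E.tot.X) :
    res m.map (gys E.zero.map E.th β) = gys E'.zero.map E'.th (res h.mor.map β) := by
  have h1 := h.isThom E.isThom
  have h0 : IsClosedEmbedding E.zero.map := E.isSec_zero.isClosedEmbedding
  have h2 : IsClosedEmbedding E'.zero.map := E'.isSec_zero.isClosedEmbedding
  rw [res_gys h0 h2 hJ hm (fun y => DFunLike.congr_fun h.zero_map y)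
    (fun x hx => ?_) E.th_cocycle (E.th_supp.trans E.range_zero.ge), gys_congr h2 h1.1
      (h1.2.1.trans E'.range_zero.ge) E'.th_cocycle (E'.th_supp.trans E'.range_zero.ge)
      (E'.range_zero ▸ E'.isOVB.thom_unique h1 E'.isThom)]
  obtain ⟨y, rfl⟩ := E'.tot.surj x
  have h3 := E.range_zero.le hx
  rw [Mor.map_π] at h3
  exact E'.range_zero.ge (VB.mk_mem_Z.2 (h.inj _ _ y.2 (VB.mk_mem_Z.1 h3)))

namespace KD

variable {A W V P P' : Type} [NormedRing A] [NormedAlgebra ℂ A] [NormedAddCommGroup W]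
  [NormedSpace ℂ W] [NormedAddCommGroup V] [NormedSpace ℂ V] [AddCommGroup P] [Module ℂ P]
  [TopologicalSpace P] [IsTopologicalAddGroup P] [ContinuousSMul ℂ P] [T2Space P]
  [AddCommGroup P'] [Module ℂ P'] [TopologicalSpace P'] [IsTopologicalAddGroup P']
  [ContinuousSMul ℂ P'] [T2Space P'] [FiniteDimensional ℂ A] [FiniteDimensional ℂ W]
  [FiniteDimensional ℂ V] {act : A → W → W} {Z₁ Z₀ O₁ O₀ M : Set W} {D₁ : KD A W P}
  {D₀ : KD A W P'} {n₁ r₁ n₀ r₀ d : ℕ}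

namespace Spt

variable [IsAct act univ] {ρ : A → V → V} {p : W →L[ℂ] W} {q : W →L[ℂ] V} {ι : V →L[ℂ] W}
  (s : Spt act ρ p q ι)
include s

theorem closure_pre (h0 : ∀ x ∈ M, q x = 0) : p ⁻¹' closure M ⊆ closure (p ⁻¹' M) := fun x hx =>
  s.add x ▸ map_mem_closure (f := fun y => y + ι (q x)) (by fun_prop) hx fun y hy =>
    (mem_of_eq_of_mem (s.p_add (h0 y hy) _) hy :)

theorem ivt_pre (h : Ivt act M) : Ivt act (p ⁻¹' M) := fun a ha x hx =>
  (mem_of_eq_of_mem (s.p_act a ha x) (h a ha _ hx) :)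

/-- the total space over a cycle is a cycle -/
theorem cyc_pre (h0 : ∀ x ∈ O₀, q x = 0) (c : Cyc act O₀ M d) :
    Cyc act (p ⁻¹' O₀) (p ⁻¹' M) (d + finrank ℂ V) := by
  have h1 : ∀ x ∈ M, q x = 0 := fun x hx => h0 x (c.sub hx)
  refine ⟨⟨⟨s.ivt_pre c.inv, fun x => (s.mf h1 (fun y hy => ⟨hy, c.mfd ⟨y, hy⟩⟩)
      ⟨_, isOpen_univ, (inter_univ _).symm⟩ _ x.2).2, fun x hx => closure_mono (fun y hy => ?_)
        (s.closure_pre (fun y hy => h1 y hy.1) (c.free hx))⟩, c.lc.preimage p.continuous,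
      preimage_mono c.sub, c.opn.elim fun U h => ⟨p ⁻¹' U, h.1.preimage p.continuous, h.2 ▸ rfl⟩,
      ?_⟩, fun x hx => s.closure_pre h1 (c.dense hx)⟩
  · exact ⟨hy.1, fun a ha e => hy.2 a ha ((s.p_act a ha y).symm.trans (congrArg p e))⟩
  · rw [← add_assoc]
    exact (c.small.prod.image_an (f := fun y : W × V => y.1 + ι y.2) fun _ _ =>
      analyticAt_fst.add ((ι.analyticAt _).comp analyticAt_snd)).mono fun x hx =>
        ⟨(p x, q x), ⟨hx, trivial⟩, s.add x⟩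

variable [IsAct act O₀] (ho : Orb Aˣ (Holo.Sp act O₀)) (h0 : ∀ x ∈ O₀, q x = 0)
include h0

theorem open_map [IsAct act O₁] (ho₁ : Orb Aˣ (Holo.Sp act O₁)) {U : Set W} (hU : IsOpen U)
    (e : O₁ = p ⁻¹' O₀ ∩ U) : IsOpenEmbedding (s.mor ho ho₁ (e.le.trans inter_subset_left)).map :=
  letI : MulAction (s.vb ho).tot.G (spA ho₁).T := (spA ho₁).act
  IsQuo.isOpenEmbedding (G := (s.vb ho).tot.G) (spA ho₁).isQuo (Sp.isQuo _)
    (s.open_mor ho h0 ho₁ hU e) (s.mor ho ho₁ (e.le.trans inter_subset_left)).eqv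
    (s.mor ho ho₁ (e.le.trans inter_subset_left)).map_π

theorem homeo [IsAct act (p ⁻¹' O₀)] (ho₁ : Orb Aˣ (Holo.Sp act (p ⁻¹' O₀))) :
    IsHomeomorph (s.mor ho ho₁ subset_rfl).map := by
  have h := s.open_map ho h0 ho₁ isOpen_univ (inter_univ _).symm
  refine ⟨h.continuous, h.isOpenMap, h.injective, fun z => ?_⟩
  obtain ⟨x, rfl⟩ := (s.vb ho).tot.surj z
  exact ⟨_, ((s.mor ho ho₁ subset_rfl).map_π (Holo.Sp.of act _ (s.crd_mem ho h0 x))).trans
    (congrArg _ ((s.emb_crd ho h0).injective (s.add _)))⟩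

/-- the fundamental class of the total space -/
theorem exists_tot (c : Cyc act O₀ M d) [IsAct act O₁] (ho₁ : Orb Aˣ (Holo.Sp act O₁)) {U : Set W}
    (hU : IsOpen U) (e : O₁ = p ⁻¹' O₀ ∩ U) : ∃ β : BM (s.vb ho).tot.X,
      res (s.mor ho ho₁ (e.le.trans inter_subset_left)).map β = fnd act O₁ (d + finrank ℂ V) ∧
      gys (s.vb ho).zero.map (s.vb ho).th β = fnd act O₀ d := by
  have c' := s.cyc_pre h0 c
  haveI : IsAct act (p ⁻¹' O₀) := IsAct.mono ‹IsAct act univ› (subset_univ _) (s.ivt_pre IsAct.mem)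
  haveI := c.isAct
  haveI := c.isAct_diff
  haveI := c'.isAct
  have hT := s.orb ho subset_rfl c'.lc
  have hM := orb_mono ho c.sub c.lcM
  have hM' := orb_mono hT c'.sub c'.lcM
  haveI := nice_of_orb ho
  haveI := nice_of_orb hT
  haveI := nice_of_orb hM
  haveI := nice_of_orb hM'
  haveI := nice_of_orb ho₁
  have h1 : ∀ x ∈ M, q x = 0 := fun x hx => h0 x (c.sub hx)
  have hm : Mf A M d := fun y hy => ⟨hy, c.mfd ⟨y, hy⟩⟩
  have a1 := s.homeo ho h0 hT
  have a2 := s.homeo hM h1 hM'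
  have key : ∀ {S : Set W} [IsAct act S] [Nice (Quo act S)] (e : S ⊆ p ⁻¹' O₀),
      (∃ U, IsOpen U ∧ S = p ⁻¹' O₀ ∩ U) → ∀ J : Quo act S → (s.vb ho).tot.X,
      (∀ x : Holo.Sp act S, J x.mk = (s.vb ho).tot.π (s.pt ho (.of act (p x.val) (e x.val_mem))
        (q x.val))) → res J (push (s.mor ho hT subset_rfl).map
          (fnd act (p ⁻¹' O₀) (d + finrank ℂ V))) = fnd act S (d + finrank ℂ V) := by
    intro S _ _ e hS J hJ
    have b : J = (s.mor ho hT subset_rfl).map ∘ Quo.incl act e := funext fun z =>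
      Quot.inductionOn z fun x =>
        (hJ x).trans ((s.mor ho hT subset_rfl).map_π (Holo.Sp.incl act e x)).symm
    rw [b]
    exact (res_res (Quo.isOpenEmbedding_incl e hS) a1.isOpenEmbedding _).symm.trans
      ((congrArg _ (res_push_homeo a1 _)).trans (c'.res_fnd hT e hS))
  refine ⟨_, key (e.le.trans inter_subset_left) ⟨U, hU, e⟩ _
    (s.mor ho ho₁ (e.le.trans inter_subset_left)).map_π, ?_⟩
  let m : Mor (spA hM) (spA ho) := ⟨MonoidHom.id _, Holo.Sp.incl act c.sub, continuous_id,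
    (Holo.Sp.isEmbedding_incl c.sub).continuous, fun _ _ => rfl⟩
  have b1 : Quo.incl act c.sub = m.map := m.map_eq fun _ => rfl
  have b2 : Iso m (s.vb hM) (s.vb ho) fun _ => LinearMap.id :=
    ⟨Hom.of_continuous (fun _ _ h => h) continuous_snd fun _ _ _ _ => rfl, fun _ _ _ h => h,
      fun _ w h => ⟨w, h, rfl⟩⟩
  have b3 : ∀ x : Holo.Sp act (p ⁻¹' M), (b2.mor.map ∘ (s.mor hM hM' subset_rfl).map) x.mk =
      (s.vb ho).tot.π (s.pt ho (.of act (p x.val) (c'.sub x.val_mem)) (q x.val)) := fun x =>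
    (congrArg _ ((s.mor hM hM' subset_rfl).map_π x)).trans (b2.mor.map_π _)
  have b4 : b2.mor.map ∘ (s.mor hM hM' subset_rfl).map =
      (s.mor ho hM' c'.sub).map := (s.mor ho hM' c'.sub).map_eq b3
  obtain ⟨U', hU', e'⟩ := c'.opn
  have b5 : IsOpenEmbedding b2.mor.map := by
    have b6 := (s.open_map ho h0 hM' hU' e').comp a2.homeomorph.symm.isOpenEmbedding
    rwa [← b4, comp_assoc, show (s.mor hM hM' subset_rfl).map ∘ a2.homeomorph.symm = id from
      funext a2.homeomorph.apply_symm_apply, comp_id] at b6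
  have b6 := Quo.isOpenEmbedding_incl (act := act) c.sub c.opn
  refine eq_of_res_of_top (Quo.isClosedEmbedding_incl sdiff_subset c.clo) b6 c.range_incl
    ((c.top ho).mono (by omega)) (k := 2 * d) ?_ (c.deg ho) ?_
  · have b7 := ((c'.deg hT).push (s.mor ho hT subset_rfl).map).gys (s.vb ho).zero.map
      (s.vb ho).th_deg
    rwa [show 2 * ((d + finrank ℂ V : ℕ) : ℤ) - 2 * ((s.vb ho).r : ℤ) = 2 * d from by
      rw [show (s.vb ho).r = finrank ℂ V from rfl]; push_cast; ring] at b7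
  · rw [c.res_fnd ho c.sub c.opn, ← s.gys_zero hM h1 hm]
    refine (congrArg (res · _) b1).trans ((b2.res_gys_zero (b1 ▸ b6) b5 _).trans (congrArg _ ?_))
    letI : MulAction (s.vb hM).tot.G (spA hM').T := (spA hM').act
    have a3 := (s.holOrb hM h1 hm).res_open (spA hM').isQuo (Sp.isQuo _)
      (s.open_mor hM h1 hM' isOpen_univ (inter_univ _).symm) (s.mor hM hM' subset_rfl).eqv
      (s.mor hM hM' subset_rfl).map_π
    rw [show (fun x => s.crd hM ((s.mor hM hM' _).f x)) = Holo.Sp.val from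
      funext fun x => s.add (Holo.Sp.val x)] at a3
    exact (push_res_homeo a2 _).symm.trans ((congrArg _ ((res_res a2.isOpenEmbedding b5 _).trans
      ((key c'.sub ⟨U', hU', e'⟩ _ b3).trans a3.symm))).trans (push_res_homeo a2 _))

end Spt

/-- **total spaces over cycles** -/
theorem Gd.vr_tot' [IsAct act univ] {ρ : A → V → V} {p : W →L[ℂ] W} {q : W →L[ℂ] V} {ι : V →L[ℂ] W}
    (s : Spt act ρ p q ι) (h₁ : D₁.Gd act Z₁ O₁ n₁ r₁) (h₀ : D₀.Gd act Z₀ O₀ n₀ r₀)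
    [Nice (Quo act Z₀)] (h0 : ∀ x ∈ O₀, q x = 0) (hc : Cyc act O₀ M d)
    (ho : ∃ U, IsOpen U ∧ O₁ = p ⁻¹' O₀ ∩ U) {B : P →ₗ[ℂ] P'} {E : W → V →ₗ[ℂ] P} {ζ : W → V}
    (t : Tt D₁ D₀ act ρ p q Z₁ Z₀ O₁ B E ζ) (hr : Z₁.Nonempty → r₁ = finrank ℂ V + r₀)
    {Φ : Quo act Z₁ → Quo act Z₀}
    (e : ∀ x : Z₁, Φ (Quo.mk act x) = Quo.mk act ⟨p x, ((t.graph x).1 x.2).1⟩) :
    IsHomeomorph Φ ∧
      res Φ (D₀.vr act Z₀ O₀ (h₀.fu d)) = D₁.vr act Z₁ O₁ (h₁.fu (d + finrank ℂ V)) := by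
  obtain ⟨k', i', hk', -, r'⟩ := h₁.dom.exists_isKP h₁.ok subset_rfl
  obtain ⟨k, i, hk, -, r⟩ := h₀.dom.exists_isKP h₀.ok subset_rfl
  have := h₁.dom.isAct
  have := h₀.dom.isAct
  have := h₁.dom.isActZ hk'
  have := h₀.dom.isActZ hk
  have hq : ∀ x ∈ Z₀, q x = 0 := fun x hx => h0 x (h₀.dom.sub hx)
  have hΦ := t.isHomeomorph s hq e
  refine ⟨hΦ, ?_⟩
  rcases Z₁.eq_empty_or_nonempty with rfl | hZ
  · have : IsEmpty (Quo act ∅) := ⟨fun z => z.out.2⟩
    exact BM_eq_of_isEmpty _ _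
  obtain ⟨U, hU, hO⟩ := ho
  have a1 := s.open_mor h₀.dom.orb h0 h₁.dom.orb hU hO
  set φ := s.mor h₀.dom.orb h₁.dom.orb (hO.le.trans inter_subset_left) with hφ
  let _ : MulAction (s.vb h₀.dom.orb).tot.G (spA h₁.dom.orb).T := (spA h₁.dom.orb).act
  have a2 := IsQuo.isOpenEmbedding (G := (s.vb h₀.dom.orb).tot.G) (spA h₁.dom.orb).isQuo
    (Sp.isQuo _) a1 φ.eqv φ.map_π
  obtain ⟨β, a3, a3'⟩ := s.exists_tot h₀.dom.orb h0 hc h₁.dom.orb hU hO
  obtain ⟨L, hL, eL⟩ := hk.exists_hom hk' ((s.vb h₀.dom.orb).proj.comp φ) (fun _ => B)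
    (fun _ => t.lin.mem) (fun _ _ => continuous_const)
    (fun (g : Aˣ) _ => t.lin.eqv g g.isUnit) (fun x w _ => t.lin.van _ x.2 w)
    (fun x => t.lin.sec _ x.2) fun x hx w _ => t.lin.obs _ x.2 (hk'.mem_Zs.1 hx) w
  obtain ⟨j, hj⟩ := i'.exists_leftInverse_of_injective (LinearMap.ker_eq_bot.2 hk'.emb.injective)
  have b1 : ∀ (x : Holo.Sp act O₁) v, i' (j (E x.val v)) = E x.val v := fun x v => by
    obtain ⟨u, hu⟩ := hk'.lift (t.E_mem _ x.2 v)
    rw [show E x.val v = i' u from hu.symm, show j (i' u) = u from LinearMap.congr_fun hj u]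
  have b2 : Continuous fun x : Holo.Sp act O₁ => LinearMap.toContinuousLinearMap (j ∘ₗ E x.val) :=
    continuous_clm_apply.2 fun v => hk'.emb.continuous_iff.2
      ((t.E_cont v).domRestrict.congr fun x => (b1 x v).symm)
  have b3 : ∀ (x : Holo.Sp act O₁) v w, w - j (E x.val v) ∈ k'.van x ↔
      i' w - E x.val v ∈ D₁.van x.val := fun x v w => (hk'.van _ _).trans (by
    rw [map_sub, b1]
    rfl)
  have z1 := fun x => (h₁.dom.mem_Zs hk' (t := x)).1
  have z0 := fun x => (h₀.dom.mem_Zs hk (t := x)).1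
  let Y : VB h₀.dom.sp := s.vb h₀.dom.orb
  let ζ' : h₀.dom.sp.T → Y.W := fun x => ζ x.1
  let F : h₁.dom.sp.T → Y.W →ₗ[ℂ] k'.P.W := fun x => (j ∘ₗ E x.1 :)
  rw [h₁.dom.vr_eq hk', h₀.dom.vr_eq hk]
  refine ((h₀.dom.isZ hk).res_homeo hΦ _).trans ((congrArg _ a3').symm.trans
    (Eq.trans (Eq.symm ?_) (congrArg _ a3)))
  refine hL.vir_tot (V := Y) (φ := φ) (ζ := ζ') (D := F) a2
    (t.cont.comp continuous_subtype_val.continuousOn z0) (fun (g : Aˣ) x hx => ?_)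
    (fun _ _ => trivial) (fun x hx v w hw => ?_) (Hom.of_continuous (fun _ _ _ => hk'.memF _ _)
      ((b2.comp continuous_fst).clm_apply continuous_snd) fun (g : Aˣ) x v _ => hk'.emb.injective
        ((b1 _ _).trans ((t.E_eqv _ x.2 g g.isUnit v).trans
          ((congrArg _ (b1 x v).symm).trans (hk'.eqv g _).symm))))
    (fun x hx => ((t.graph _).1 (z1 x hx)).2)
    (fun x hx v _ a => t.inj _ (z1 x hx) v (b1 x v ▸ (hk'.van _ _).1 a))
    (fun x hx w hw a => (t.ker _ (z1 x hx) _ ((hk'.obs x hx w).1 hw)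
      (eL x w ▸ (hk.van _ _).1 a)).imp fun v b => ⟨trivial, (b3 x v w).2 b⟩)
    (r'.trans ((hr hZ).trans (congrArg _ r.symm)))
    ((h₀.dom.isZ hk).comp hΦ.isClosedEmbedding (hΦ.surjective.range_eq ▸ isOpen_univ))
    (h₁.dom.isZ hk') (fun z => Quot.inductionOn z fun x => ?_) _
  · have a := IsAct.mem (act := act) _ g.isUnit _ (t.mem s hq (z0 x hx))
    have b := ((t.graph _).1 a).2
    rw [s.p_act _ g.isUnit, s.q_act _ g.isUnit, s.p_add (hq _ (z0 x hx)),
      s.q_add (hq _ (z0 x hx))] at b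
    exact b.symm
  · obtain ⟨y, a, b⟩ := mem_closure_iff_seq_limit.1 hw
    choose a c a4 a5 using a
    refine (b3 x v w).2 (t.cone _ (z1 x hx) v _ (fun n => (y n).1.1) c
      (fun n => i' ((y n).2.2 - c n • k'.s (y n).1))
      (fun n => ⟨(y n).1.2, z0 _ (a n), (hk'.van _ _).1 (a5 n)⟩)
      ((continuous_subtype_val.comp continuous_fst).tendsto _ |>.comp b)
      (((continuous_fst.comp continuous_snd).tendsto _ |>.comp b).congr a4)
      (((hk'.emb.continuous.comp (continuous_snd.comp continuous_snd)).tendsto _ |>.comp b).congr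
        fun n => ?_))
    rw [map_sub, map_smul]
    exact ((congrArg (fun a => c n • a + (i' (y n).2.2 - c n • i' (k'.s (y n).1)))
      (hk'.sec (y n).1).symm).trans (add_sub_cancel _ _)).symm
  · exact (congrArg _ (φ.map_π (Holo.Sp.incl act h₁.dom.sub x))).trans ((Mor.map_π _ _).trans
      (congrArg (Quo.incl act h₀.dom.sub) (e x)).symm)

end KD

end Vale.Agent.P269.Ch
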