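import Vale.Agent.P269.Glu.DiagC
import Vale.Agent.P269.Glu.Vr
import Vale.Agent.P269.Map.SQD
import Vale.Agent.P269.Map.Gy

set_option linter.unusedSectionVars false
set_option linter.style.haveILetI false

/-!
# The class of the diagonal
-/

namespace Vale.Agent.P269

open Set Function Topology Filter Module P291Z Orb Holo Ch Ch.KD Mono Tub

variable {S Λ R J K κ' : Type} [Fintype S] [Fintype Λ] [Fintype R] [Fintype J] [Fintype K]
  [Fintype κ'] {F : Fam S Λ R J K} {K₀ : Set K}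

theorem DgB.lcoh_prod [FP F.actT F.cone] [FP F.act2 F.cone2] (hF : F.Inv) (hR : F.Reg K₀)
    {Y : Ch.Sp} {th : Y.G → κ' → (S → ℂ) × (R → ℂ)} {μ : Y.T → κ' → (Λ → ℂ) × (J → ℂ) × (J → ℂ)}
    {k : KP Y} {i : k.P.W →ₗ[ℂ] κ' → J → ℂ} (hk : (F.kdg κ').IsKP Y th μ k i)
    (n : κ' → Mor Y (Tq.sp F.act2 F.cone2)) (hρ : ∀ a g, ((n a).ρ g).1 = th g a)
    (hf : ∀ a t, Sp.val (act := F.act2) ((n a).f t) = μ t a) {t : Coch F.X2} (ht : F.IsDiag t)
    {l : List κ'} (hl : l.Nodup) (hl' : ∀ a, a ∈ l) :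
    (∀ a, k.Z ⊆ (n a).map ⁻¹' range (dg F).map) ∧ (⋂ a, (n a).map ⁻¹' range (dg F).map) ⊆ k.Z ∧
      LCoh k.Z k.eul (l.map fun a => pull (n a).map t).prod := by
  classical
  have a0 : ∀ x, x ∈ k.Z ↔ ∀ a, x ∈ (n a).map ⁻¹' range (dg F).map := fun x => by
    obtain ⟨u, rfl⟩ := Y.surj x
    rw [KP.mem_Z, hk.mem_Zs, Fam.kdg_zero]
    exact forall_congr' fun a => by rw [mem_preimage, Mor.map_π, mk_mem_dg, hf]
  refine ⟨fun a x hx => (a0 x).1 hx a, fun x hx => (a0 x).2 (mem_iInter.1 hx), ?_⟩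
  rcases k.Zs.eq_empty_or_nonempty with h0 | ⟨u₀, h0⟩
  · exact LCoh.of_van fun x ⟨u, hu, _⟩ => absurd hu (h0 ▸ notMem_empty u)
  let M : ∀ a, Y.T → k.P.W →ₗ[ℂ] (((vb hF hR).pb (pr F)).pb (n a)).W := fun a u =>
    (pv hF hR ((pr F).f ((n a).f u))).toLinearMap ∘ₗ LinearMap.proj a ∘ₗ i
  have hM : ∀ a, Ch.Hom (Mor.id Y) k.P _ (M a) := fun a => Ch.Hom.of_continuous
    (fun u w _ => pv_mem hF hR _ _)
    (((continuous_pv hF hR).comp ((pr F).cf.comp ((n a).cf.comp continuous_fst))).clm_apply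
      ((continuous_apply a).comp (hk.emb.continuous.comp continuous_snd))) fun g u w _ => by
    refine Eq.trans ?_ ((vb hF hR).P_smul ((n a).ρ g) ((pr F).f ((n a).f u)) (i w a))
    change pv hF hR ((pr F).f ((n a).f (g • u))) (i (g • w) a) = _
    rw [(n a).eqv, hk.eqv]
    refine congrArg (pv hF hR _) (funext fun j => ?_)
    change _ = chT _ _ ((n a).ρ g).1 * _
    rw [hρ]
    rfl
  have a1 : ∀ a u, M a u (k.s u) = pv hF hR ((pr F).f ((n a).f u))
      ((Sp.val (act := F.act2) ((n a).f u)).2.1 - (Sp.val (act := F.act2) ((n a).f u)).2.2) :=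
    fun a u => by
      rw [hf]
      exact congrArg (pv hF hR _) (congrFun (hk.sec u) a)
  have a2 : ∀ a, Isol ((n a).map ⁻¹' range (dg F).map) (Y.π '' {u | M a u (k.s u) = 0}) := fun a =>
    ((tube hF hR).isol.preimage (n a).map.continuous).mono (by
      rintro _ ⟨u, hu, rfl⟩
      exact ⟨(n a).f u, (a1 a u).symm.trans hu, ((n a).map_π u).symm⟩)
  obtain ⟨E', M', h, b1, b2, -, b3, -⟩ := exists_sum (d := F.dv K₀) k.sec hM (fun _ => rfl) a2
    (fun a => (LCo.of_supp ht.1 (range_dg (F := F) ▸ ht.2.1)).pull (n a).map.continuous)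
    (fun a => (LCoh.of_cohom (a2 a) ((iso_pb _ (n a)).cohom_eul ((hM a).isSec k.sec)
      (isSec hF hR) (a1 a))).trans ((lcoh_of hF hR ht).symm.pull (n a).map.continuous)) l
  rw [show {x | ∀ a ∈ l, x ∈ (n a).map ⁻¹' range (dg F).map} = k.Z from
    Set.ext fun x => (forall_congr' fun a => imp_iff_right (hl' a)).trans (a0 x).symm] at b3
  refine (KP.Model.lcoh' (E := E') (M := M') ⟨⟨⟨h.mem, h.cont, h.eqv⟩, fun u w hw => ?_,
    fun u hu w hw e => (hk.van _ w).2 (funext fun a => ?_)⟩, ?_⟩).trans b3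
  · rw [hk.emb.injective (((hk.van _ w).1 hw).trans (map_zero i).symm), map_zero]
  · refine (pv_eq hF hR (b := (pr F).f ((n a).f u)) ?_).symm.trans (b2 u w e a (hl' a))
    have : i w a ∈ F.vert ((μ u a).1, (μ u a).2.1) := (hk.obs u hu w).1 hw a trivial
    rwa [← hf] at this
  · have c1 := hk.finrank_van u₀
    have c2 := hk.finrank_obs h0
    rw [show (F.kdg κ').van (μ u₀) = ⊥ from rfl, bot_inf_eq, finrank_bot] at c1
    rw [inf_eq_left.2 (show (F.kdg κ').obs (μ u₀) ≤ (F.kdg κ').P₀ from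
      fun f hf e _ => (Fam.mem_vert.1 (hf e trivial)).1), ← c1, zero_add] at c2
    rw [b1, ← c2, ← List.toFinset_card_of_nodup hl,
      Finset.eq_univ_of_forall fun a => List.mem_toFinset.2 (hl' a)]
    exact (Fam.finrank_pi_univ fun a => Fam.finrank_vert' hF hR
      (hf a u₀ ▸ (Sp.val_mem (act := F.act2) ((n a).f u₀)).1.1)).symm

namespace Fam

variable [DecidableEq R]

variable {A W : Type} [NormedRing A] [NormedAlgebra ℂ A] [NormedAddCommGroup W] [NormedSpace ℂ W]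
  [FiniteDimensional ℂ A] [FiniteDimensional ℂ W] {act : A → W → W} {Z O : Set W} {n r : ℕ}
  {θ : A → κ' → (S → ℂ) × (R → ℂ)} {μ : W → κ' → (Λ → ℂ) × (J → ℂ) × (J → ℂ)}

/-- **the virtual pull-back of the matching conditions is the Gysin map of the diagonals** -/
theorem vr_diag (hF : F.Good) (hR : F.Reg K₀) (hμ : EqM act (F.actD κ') O (F.cD κ') θ μ)
    (h : ((F.kdg κ').pb θ μ).Gd act Z O n r) [P291Z.Nice (Quo act O)] {ev : κ' → Quo act O → F.X2}
    (he : ∀ a (x : O), ev a (Quo.mk act x) = Quo.mk F.act2 ⟨μ x a, hμ.maps x.2 a trivial⟩)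
    {l : List κ'} (hl : l.Nodup) (hl' : ∀ a, a ∈ l) :
    supp (δ (l.map fun a => pull (ev a) F.diag).prod) = ∅ ∧
      supp (l.map fun a => pull (ev a) F.diag).prod ⊆ range (Quo.incl act h.dom.sub) ∧
      ((F.kdg κ').pb θ μ).vr act Z O =
        gys (Quo.incl act h.dom.sub) (l.map fun a => pull (ev a) F.diag).prod := by
  haveI := hF.fp
  haveI := DgB.fp2 hF
  haveI := h.dom.isAct
  obtain ⟨k, i, h1, -, -, h2⟩ := h.exists_isKP
  obtain ⟨θ', h3, h4⟩ := hμ.hom
  let m : κ' → Mor h.dom.sp (Tq.sp F.act2 F.cone2) := fun a =>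
    ⟨(Units.map (Pi.evalMonoidHom (fun _ : κ' => (S → ℂ) × (R → ℂ)) a)).comp θ',
      fun t : Sp act O => Sp.of F.act2 (μ t.val a) (hμ.maps t.val_mem a trivial),
      (Units.continuous_map (continuous_apply a)).comp h3,
      (((continuous_apply a).comp hμ.cont.domRestrict).subtype_mk _ :), fun g t => Subtype.ext
        ((congrFun (hμ.eqv _ g.isUnit _ (Sp.val_mem (act := act) t)) a).trans
          (congrArg (F.act2 · (μ (Sp.val (act := act) t) a)) (congrFun (h4 g) a).symm))⟩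
  obtain rfl : ev = fun a => ⇑(m a).map := funext fun a => (m a).map_eq (he a)
  have h5 := isDiag_diag hF hR
  obtain ⟨a1, a2, a3⟩ := DgB.lcoh_prod hF.toInv hR (isKP_pb.1 h1) m
    (fun a g => congrFun (h4 g) a) (fun _ _ => rfl) h5 hl hl'
  have a4 : ∀ l : List κ', supp (δ (l.map fun a => pull (m a).map F.diag).prod) = ∅ ∧
      ∀ a ∈ l, supp (l.map fun a => pull (m a).map F.diag).prod ⊆
        (m a).map ⁻¹' range (DgB.dg F).map := fun l => by
    induction l with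
    | nil => exact ⟨cocycle_one, fun _ h => absurd h List.not_mem_nil⟩
    | cons a l ih =>
      rw [List.map_cons, List.prod_cons]
      exact ⟨cocycle_mul (cocycle_pull (m a).map.continuous h5.1) ih.1, List.forall_mem_cons.2
        ⟨fun x hx => (DgB.range_dg (F := F)).ge (h5.2.1 (supp_pull (m a).map.continuous _
          (supp_mul _ _ hx).1)), fun b hb x hx => ih.2 b hb (supp_mul _ _ hx).2⟩⟩
  have a5 : supp (l.map fun a => pull (m a).map F.diag).prod ⊆ range (Quo.incl act h.dom.sub) :=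
    fun x hx => (h.dom.range_incl h1).ge (a2 (mem_iInter.2 fun a => (a4 l).2 a (hl' a) hx))
  exact ⟨(a4 l).1, a5, h2.trans (((h.dom.isZ h1).vir_eq a3).trans
    (lgys_eq_gys (h.dom.isZ h1).emb (a4 l).1 a5))⟩

end Fam

end Vale.Agent.P269
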