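import Vale.Agent.P269.Glu.PrSum
import Vale.Agent.P269.Glu.Pcy
import Vale.Agent.P269.Spl.GBg
import Vale.Agent.P269.Spl.GBl
import Vale.Agent.P269.Prop.Sep

set_option linter.unusedSectionVars false

/-!
# Decompositions: uniqueness of labels and local sections
-/

namespace Vale.Agent.P269.Ch

open P291Z Set Function Topology Filter Module Base Cv Holo Vir

variable {S Λ R J K ι ν κ ν₁ κ₁ ν₂ κ₂ : Type} [Fintype S] [Fintype Λ] [Fintype R] [Fintype J]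
  [Fintype K] [Fintype ι] [DecidableEq ι] [Fintype ν] [Fintype κ]
  [Fintype ν₁] [Fintype κ₁] [Fintype ν₂] [Fintype κ₂] {ch : Ch ι J} {n₁ n₂ : Nm ι J}
  {s : Sv ν κ ν₁ κ₁ ν₂ κ₂} {Wg : Wt S Λ R J} {z z' : ch.WQ n₁ n₂ ν κ ν₁ κ₁ ν₂ κ₂ Λ}

/-- The points whose curve is in the smooth space. -/
def bsF (ch : Ch ι J) (ν κ Λ : Type) [Fintype ν] [Fintype κ] : Set (ch.WF ν κ Λ) :=
  {x | x.2 ∈ ch.base (Mk ν κ)}

theorem part_actA {c : ch.AL n₁ n₂} (hc : IsUnit c) : part (actA s Wg c z) = part z :=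
  (part_act (a := ((1, c) : ch.AQ n₁ n₂ ν κ S)) (AP.isUnit_iff.2 ⟨isUnit_one, hc⟩)).trans
    (image_id _)

theorem CQ.part_swQ (hz : z ∈ CQ s) : part (swQ z) = crv z.1.2 \ part z := by
  have h := hz.1
  refine Subset.antisymm ?_ fun c hc => (h.crv.le hc.1).resolve_left hc.2
  rintro _ ⟨c, hc, rfl⟩
  refine ⟨h.crv.ge (.inr ⟨c, hc, rfl⟩), fun ⟨d, _, e⟩ => crv_ne hc ch.o ?_⟩
  exact h.two.inj ch.o (((Submodule.disjoint_def.1 (h.compl ch.o).disjoint) _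
    ⟨_, congrFun e ch.o⟩ ⟨_, rfl⟩).trans (map_zero _).symm)

/-- membership in the first part is read off from the projection -/
theorem CQ.mem_part (hz : z ∈ CQ s) {c : V ch.M} (hc : c ∈ crv z.1.2) (i : ι) :
    c ∈ part z ↔ lpr z.2.2.2.1 z.2.1.2.1 i (c i) = 0 := by
  have h := hz.1
  refine ⟨?_, fun e => (h.crv.le hc).resolve_right ?_⟩
  · rintro ⟨d, -, rfl⟩
    exact lpr_right h.two.inj h.one.inj (fun i => (h.compl i).symm) i _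
  · rintro ⟨d, hd, rfl⟩
    exact crv_ne hd i ((lpr_left h.two.inj h.one.inj (fun i => (h.compl i).symm) i _).symm.trans e)

namespace PrU

/-- the extension by zero -/
noncomputable def ex (z : ch.WQ n₁ n₂ ν κ ν₁ κ₁ ν₂ κ₂ Λ) (l : Option J) :
    (ch.re n₁).E l →L[ℂ] ch.E l := ((z.2.1.2.2 l).prod (z.2.2.2.2 l)).inverse ∘L .inl ℂ _ _

theorem ex_eq (hz : z ∈ CQ s) (l) (v) : z.2.1.2.2 l (ex z l v) = v ∧ z.2.2.2.2 l (ex z l v) = 0 :=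
  Prod.ext_iff.1 ((isInvertible_of_bijective (hz.1.bij l)).self_apply_inverse (v, 0))

/-- the change of frames of the first label -/
noncomputable def c₁ (z z' : ch.WQ n₁ n₂ ν κ ν₁ κ₁ ν₂ κ₂ Λ) : (ch.re n₁).A Empty :=
  (fun i => lpr z'.2.1.2.1 z'.2.2.2.1 i ∘L z.2.1.2.1 i, fun l => z'.2.1.2.2 l ∘L ex z l, 1)

/-- the change of frames -/
noncomputable def cc (z z' : ch.WQ n₁ n₂ ν κ ν₁ κ₁ ν₂ κ₂ Λ) : ch.AL n₁ n₂ :=
  (c₁ z z', c₁ (swQ z) (swQ z'))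

theorem range_le (hN : ch.QN n₁ n₂) (hz : z ∈ CQ s) (hp : part z ⊆ part z') (i : ι) (v) :
    z.2.1.2.1 i v ∈ (z'.2.1.2.1 i).range := by
  have h := hz.1.one.mem
  refine Submodule.span_induction (p := fun v _ => z.2.1.2.1 i v ∈ (z'.2.1.2.1 i).range) ?_
    (by rw [map_zero]; exact zero_mem _) (fun _ _ _ _ a b => by rw [map_add]; exact add_mem a b)
    (fun t _ _ a => by rw [map_smul]; exact Submodule.smul_mem _ t a)
    ((h.2.2.1.span_top (hN.tight₁.1.eq h i) (p := fun _ => True) fun c hc =>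
      (h.2.2.1.nod.frequently_not_node z.2.1.1.p hc).mono fun _ _ => trivial).ge
        (Submodule.mem_top (x := v)))
  rintro _ ⟨c, hc, rfl⟩
  obtain ⟨d, -, e⟩ := hp ⟨c, hc.1, rfl⟩
  exact ⟨_, congrFun e i⟩

theorem ker_le (hz : z ∈ CQ s) (hz' : z' ∈ CQ s) (e : z.1 = z'.1) (hp : part z' ⊆ part z) (l) (v)
    (h : z.2.1.2.2 l v = 0) : z'.2.1.2.2 l v = 0 := by
  obtain ⟨μ, rfl⟩ := hz.1.mem.1 l v
  rw [e, hz'.1.one.Q]
  refine hz'.1.one.mem.2.1 l _ fun c hc => ?_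
  obtain ⟨_, ⟨d, hd, rfl⟩, a⟩ := hp ⟨c, hc, rfl⟩
  rw [hz.1.one.Q] at h
  rw [val_pbT, ← a, ← val_pbT, ← hd.2, h, map_zero]

theorem key (hN : ch.QN n₁ n₂) (hz : z ∈ CQ s) (hz' : z' ∈ CQ s) (e : z.1 = z'.1)
    (hp : part z = part z') : IsUnit (c₁ z z') ∧
      actL1 Wg s.t₁ ((1 : ch.AF ν κ S), c₁ z z') z.2.1 = z'.2.1 := by
  have h := hz.1
  have h' := hz'.1
  have a : ∀ i v, z'.2.1.2.1 i ((c₁ z z').1 i v) = z.2.1.2.1 i v := fun i v => by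
    obtain ⟨w, k⟩ := range_le hN hz hp.le i v
    exact (congrArg (fun t => z'.2.1.2.1 i (lpr _ _ i t)) k.symm).trans
      ((congrArg _ (lpr_left h'.one.inj h'.two.inj h'.compl i w)).trans k)
  have b : ∀ l v, (c₁ z z').2.1 l (z.2.1.2.2 l v) = z'.2.1.2.2 l v := fun l v =>
    sub_eq_zero.1 ((map_sub (z'.2.1.2.2 l) _ _).symm.trans (ker_le hz hz' e hp.ge l _
      ((map_sub _ _ _).trans (sub_eq_zero.2 (ex_eq hz l _).1))))
  have u : IsUnit (c₁ z z') := Cv.isUnit_iff.2 ⟨fun i => isUnit_of_inj fun v k => h.one.inj i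
    ((a i v).symm.trans ((congrArg _ k).trans ((map_zero _).trans (map_zero _).symm))),
    fun l => isUnit_of_inj fun v k => (ex_eq hz l v).1.symm.trans (ker_le hz' hz e.symm hp.le l _ k),
    fun q => q.elim⟩
  have p : ∀ {σ : Type} [Fintype σ] (τ : σ → ι) (μ : Tn n₁.M τ), ∃ μ' : Tn ch.M τ,
      P269.pbT z'.2.1.2.1 τ μ' = μ := fun τ μ => ⟨P269.pbT (lpr z'.2.1.2.1 z'.2.2.2.1) τ μ,
        ContinuousMultilinearMap.ext fun v => congrArg μ (funext fun _ =>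
          lpr_left h'.one.inj h'.two.inj h'.compl _ _)⟩
  refine ⟨u, Prod.ext (W.ext (fun l => ContinuousLinearMap.ext fun μ => ?_) (fun q => funext fun i => ?_)
    (ContinuousLinearMap.ext fun μ => ?_) fun j => (PrA.X_actLb (hz.2.1 j)).trans (hz'.2.1 j).symm)
    (Prod.ext (funext fun i => ContinuousLinearMap.ext fun v => ?_)
      (funext fun l => ContinuousLinearMap.ext fun v => ?_))⟩
  · obtain ⟨μ, rfl⟩ := p _ μ
    rw [← h'.one.Q, ← e, ← b, h.one.Q]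
    exact congrArg (fun t => (c₁ z z').2.1 l (z.2.1.1.Q l t))
      (ContinuousMultilinearMap.ext fun v => congrArg μ (funext fun _ => a _ _))
  · refine h'.one.inj i (Eq.trans ?_ (congrFun (h'.one.mark q) i))
    rw [← e, h.one.mark]
    refine Eq.trans (congrArg _ ?_) (a i _)
    rcases q with q | ⟨q, _⟩ <;> exact one_smul _ _
  · obtain ⟨μ, rfl⟩ := p ch.slot μ
    refine Eq.trans ?_ (h'.one.Ξ μ)
    rw [← e, ← b, h.one.Ξ]
    exact congrArg (fun t => (c₁ z z').2.1 none (z.2.1.1.Ξ t))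
      (ContinuousMultilinearMap.ext fun v => congrArg μ (funext fun _ => a _ _))
  · exact (a i _).symm.trans (congrArg _ (ap_inv (isUnit_fst u i) v))
  · exact (congrArg (fun t => (c₁ z z').2.1 l (z.2.1.2.2 l t))
      (inv_ap (T := (1 : ch.E l →L[ℂ] ch.E l)) isUnit_one v)).trans (b l v)

theorem part_sw (hz : z ∈ CQ s) (hz' : z' ∈ CQ s) (e : z.1 = z'.1) (hp : part z = part z') :
    part (swQ z) = part (swQ z') := by rw [CQ.part_swQ hz, CQ.part_swQ hz', e, hp]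

theorem act_cc (hN : ch.QN n₁ n₂) (hz : z ∈ CQ s) (hz' : z' ∈ CQ s) (e : z.1 = z'.1)
    (hp : part z = part z') : IsUnit (cc z z') ∧ actA s Wg (cc z z') z = z' :=
  have a := key (Wg := Wg) hN hz hz' e hp
  have b := key (Wg := Wg) hN.symm (swQ_mem.2 hz) (swQ_mem.2 hz') e (part_sw hz hz' e hp)
  ⟨AP.isUnit_iff.2 ⟨a.1, b.1⟩, Prod.ext ((actA_fst _).trans e) (Prod.ext a.2 b.2)⟩

theorem unit {c : ch.AL n₁ n₂} (hc : IsUnit c) : IsUnit (M := ch.AQ n₁ n₂ ν κ S) (1, c) :=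
  AP.isUnit_iff.2 ⟨isUnit_one, hc⟩

theorem mem {c : ch.AL n₁ n₂} (hz : z ∈ CQ s) (hc : IsUnit c) : actA s Wg c z ∈ CQ s :=
  ivt_CQ _ (unit hc) _ hz

theorem c₁_act {c : ch.AL n₁ n₂} (hz : z ∈ CQ s) (hc : IsUnit c) : c₁ z (actA s Wg c z) = c.1 := by
  have h := (mem (Wg := Wg) hz hc).1
  refine Prod.ext (funext fun i => ContinuousLinearMap.ext fun v => ?_)
    (Prod.ext (funext fun l => ContinuousLinearMap.ext fun v => ?_) (funext fun q => q.elim))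
  · refine Eq.trans ?_ (lpr_left h.one.inj h.two.inj h.compl i _)
    exact congrArg (fun t => lpr (actA s Wg c z).2.1.2.1 (actA s Wg c z).2.2.2.1 i (z.2.1.2.1 i t))
      (inv_ap (isUnit_fst (AP.isUnit_iff.1 hc).1 i) v).symm
  · exact congrArg (c.1.2.1 l) ((congrArg (z.2.1.2.2 l)
      (inv_ap (T := (1 : ch.E l →L[ℂ] ch.E l)) isUnit_one _)).trans (ex_eq hz l v).1)

theorem cc_act {c : ch.AL n₁ n₂} (hz : z ∈ CQ s) (hc : IsUnit c) : cc z (actA s Wg c z) = c :=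
  Prod.ext (c₁_act hz hc) ((congrArg (c₁ (swQ z)) swQ_act).trans
    (c₁_act (s := s.symm) (Wg := Wg) (c := (c.2, c.1)) (swQ_mem.2 hz)
      (AP.isUnit_iff.2 (AP.isUnit_iff.1 hc).symm)))

theorem cc_self (hz : z ∈ CQ s) : cc z z = 1 := by
  let Wg : Wt Empty Λ Empty J := ⟨fun _ => Empty.elim, fun _ => Empty.elim, fun _ => Empty.elim⟩
  have := cc_act (Wg := Wg) hz isUnit_one
  rwa [Holo.act_one (act := actA s Wg)] at this

theorem an_c₁ {P : Type} [NormedAddCommGroup P] [NormedSpace ℂ P] {q : P}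
    {y y' : P → ch.WQ n₁ n₂ ν κ ν₁ κ₁ ν₂ κ₂ Λ} (h : AnalyticAt ℂ y q) (h' : AnalyticAt ℂ y' q)
    (m : y q ∈ CQ s) (m' : y' q ∈ CQ s) : AnalyticAt ℂ (fun t => c₁ (y t) (y' t)) q := by
  obtain ⟨-, a1, a2⟩ := Lb.an_iff.1 ((PrA.an_lb _).1.comp h)
  obtain ⟨-, -, a3⟩ := Lb.an_iff.1 ((PrA.an_lb _).2.comp h)
  obtain ⟨-, b1, b2⟩ := Lb.an_iff.1 ((PrA.an_lb _).1.comp h')
  obtain ⟨-, b3, -⟩ := Lb.an_iff.1 ((PrA.an_lb _).2.comp h')
  refine A.an_iff.2 ⟨analyticAt_pi_iff.2 fun i => an_comp (analyticAt_pi_iff.1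
    (an_lpr' (analyticAt_pi_iff.2 b1) (analyticAt_pi_iff.2 b3) m'.1.one.inj m'.1.two.inj
      m'.1.compl) i) (a1 i), analyticAt_pi_iff.2 fun l => an_comp (b2 l) (an_comp
        ((analyticAt_clm_inverse (m.1.bij l)).comp (f := fun t => ((y t).2.1.2.2 l).prod
          ((y t).2.2.2.2 l)) ?_) analyticAt_const), analyticAt_const⟩
  exact analyticAt_of_apply fun v => (((ContinuousLinearMap.apply ℂ _ v).analyticAt _).comp
    (a2 l)).prod (((ContinuousLinearMap.apply ℂ _ v).analyticAt _).comp (a3 l))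

theorem an_sw (z : ch.WQ n₁ n₂ ν κ ν₁ κ₁ ν₂ κ₂ Λ) : AnalyticAt ℂ swQ z :=
  analyticAt_fst.prod ((PrA.an_lb z).2.prod (PrA.an_lb z).1)

theorem an_cc {P : Type} [NormedAddCommGroup P] [NormedSpace ℂ P] {q : P}
    {y y' : P → ch.WQ n₁ n₂ ν κ ν₁ κ₁ ν₂ κ₂ Λ} (h : AnalyticAt ℂ y q) (h' : AnalyticAt ℂ y' q)
    (m : y q ∈ CQ s) (m' : y' q ∈ CQ s) : AnalyticAt ℂ (fun t => cc (y t) (y' t)) q :=
  AP.an_iff.2 ⟨an_c₁ h h' m m', an_c₁ (s := s.symm) ((an_sw _).comp h) ((an_sw _).comp h')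
    (swQ_mem.2 m) (swQ_mem.2 m')⟩

end PrU

open PrU

/-- **(U)** -/
theorem CQ.uniq (hN : ch.QN n₁ n₂) (hz : z ∈ CQ s) (hz' : z' ∈ CQ s) (e : z.1 = z'.1)
    (hp : part z = part z') : ∃ c, IsUnit c ∧ actA s Wg c z = z' := ⟨_, act_cc hN hz hz' e hp⟩

/-- **(Fr)** -/
theorem CQ.fre (hz : z ∈ CQ s) : Fre (actA s Wg) z := fun _ hc e =>
  (cc_act (Wg := Wg) hz hc).symm.trans (e.symm ▸ cc_self hz)

/-- the parts are locally constant -/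
theorem CQ.ev_part (hz : z ∈ CQ s) :
    ∀ᶠ p : ch.WQ n₁ n₂ ν κ ν₁ κ₁ ν₂ κ₂ Λ × ch.WQ n₁ n₂ ν κ ν₁ κ₁ ν₂ κ₂ Λ in 𝓝 (z, z),
      p.1 ∈ CQ s → p.2 ∈ CQ s → p.1.1 = p.2.1 → part p.1 = part p.2 := by
  have h := hz.1
  have a := (Lb.an_iff.1 (PrA.an_lb z).1).2.1
  have b := (Lb.an_iff.1 (PrA.an_lb z).2).2.1
  have k : ∀ {f g : _ × _ → ch.WQ n₁ n₂ ν κ ν₁ κ₁ ν₂ κ₂ Λ}, Tendsto f (𝓝 (z, z)) (𝓝 z) →
      Tendsto g (𝓝 (z, z)) (𝓝 z) → ∀ᶠ p in 𝓝 (z, z), f p ∈ CQ s → g p ∈ CQ s → (f p).1 = (g p).1 →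
        part (f p) ⊆ part (g p) := fun {f g} hf hg => by
    filter_upwards [(((AnalyticAt.pi a).continuousAt.tendsto.comp hf).prodMk_nhds
      ((AnalyticAt.pi b).continuousAt.tendsto.comp hg)).eventually
        (eventually_isCompl h.one.inj h.two.inj h.compl)] with p c m m' e
    rintro _ ⟨d, hd, rfl⟩
    refine (m'.1.crv.le (e ▸ m.1.crv.ge (.inl ⟨d, hd, rfl⟩))).resolve_right fun ⟨d', _, r⟩ =>
      crv_ne hd ch.o (m.1.one.inj ch.o (((Submodule.disjoint_def.1 (c.2.2 ch.o).disjoint) _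
        ⟨_, rfl⟩ ⟨_, congrFun r ch.o⟩).trans (map_zero _).symm))
  filter_upwards [k continuousAt_fst continuousAt_snd, k continuousAt_snd continuousAt_fst]
    with p c d m m' e using (c m m' e).antisymm (d m' m e.symm)

theorem CQ.fib (hN : ch.QN n₁ n₂) (hz : z ∈ CQ s) : GB.Fib (actA s Wg) (CQ s) Prod.fst z :=
  fun O hO => by
    filter_upwards [CQ.ev_part hz, (an_cc (q := (z, z)) analyticAt_fst analyticAt_snd hz
      hz).continuousAt.eventually ((cc_self hz).symm ▸ hO :)] with p a b m m' e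
    exact ⟨_, b, act_cc hN m m' e (a m m' e)⟩

theorem PrU.mfd_bsF (h : ch.Num₀) {x : ch.WF ν κ Λ} (hx : x.2 ∈ ch.base (Mk ν κ)) :
    ∃ N : ℕ, (N : ℤ) = Fintype.card Λ + ch.dimB (Mk ν κ) ∧ MfdAt (ch.bsF ν κ Λ) N x := by
  obtain ⟨N, a, b⟩ := h.mfdAt hx
  refine ⟨_, ?_, ((MfdAt.univ x.1).prod b).congr (.of_forall fun y => and_iff_right trivial)⟩
  rw [finrank_fintype_fun_eq_card, Nat.cast_add, a]

theorem CQ.mfdAt (hN : ch.QN n₁ n₂) (hz : z ∈ CQ s) : ∃ N, MfdAt (ch.bsF ν κ Λ) N z.1 ∧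
    MfdAt (CQ s) (finrank ℂ (ch.AL n₁ n₂) + N) z := by
  let Wg : Wt Empty Λ Empty J := ⟨fun _ => Empty.elim, fun _ => Empty.elim, fun _ => Empty.elim⟩
  obtain ⟨b, -, -, -, -, e, -⟩ := CQ.exists_st hz
  obtain ⟨N, a, m⟩ := mfd_bsF hN.num hz.1.mem
  obtain ⟨N₁, a₁, m₁⟩ := mfd_bsF (x := pt₁ z) hN.num₁ (CQ.mem₁ hz)
  obtain ⟨N₂, a₂, m₂⟩ := hN.num₂.mfdAt (CQ.mem₂ hz)
  let j : ch.A Empty → ch.A (ν ⊕ κ) := fun c => (c.1, c.2.1, 1)
  let u : ch.A Empty → ch.AQ n₁ n₂ ν κ Empty := fun c => ((1, Ring.inverse (j c)), 1)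
  let G : ch.WQ n₁ n₂ ν κ ν₁ κ₁ ν₂ κ₂ Λ → ch.A Empty := fun y =>
    ((b.γ y.2.1 y.2.2 : ch.A (ν ⊕ κ)).1, (b.γ y.2.1 y.2.2 : ch.A (ν ⊕ κ)).2.1, 1)
  have j1 : j 1 = 1 := rfl
  have ja : AnalyticAt ℂ j 1 :=
    A.an_iff.2 ⟨(A.an_iff.1 analyticAt_id).1, (A.an_iff.1 analyticAt_id).2.1, analyticAt_const⟩
  have ua : AnalyticAt ℂ u 1 := AP.an_iff.2 ⟨AF.an_iff.2 ⟨analyticAt_const,
    (analyticAt_inverse (1 : (ch.A (ν ⊕ κ))ˣ)).comp_of_eq ja rfl⟩, analyticAt_const⟩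
  have uu : ∀ c, IsUnit (j c) → IsUnit (u c) := fun c hc => AP.isUnit_iff.2
    ⟨Prod.isUnit_iff.2 ⟨isUnit_one, hc.ringInverse⟩, isUnit_one⟩
  have u1 : u 1 = 1 := by simp only [u, j1, Ring.inverse_one]; rfl
  have e1 : actQ s Wg (u 1) (b.st s (b.g univ z)) = z := by
    rw [u1, e, Holo.act_one (act := actQ s Wg)]
  have M := (((m₁.prod m₂).prod (MfdAt.univ (b.g univ z).2)).prod (MfdAt.univ (1 : ch.A Empty))).iso'
    (S' := CQ s) (F := fun q => actQ s Wg (u q.2) (b.st s q.1)) (G := fun y => (b.g univ y, G y))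
    (.of_an (an_actQ (ua.comp_of_eq analyticAt_snd rfl) (b.an_st.comp analyticAt_fst)
      (u1.symm ▸ isUnit_one))) ?_ ?_ ?_
  · refine ⟨N, m, ?_⟩
    refine Eq.subst (motive := fun k => MfdAt (CQ s) k z) ?_
      (Eq.subst (motive := MfdAt (CQ s) _) e1 M)
    have f := b.finrank_cr (A := univ)
    simp only [finrank_Fm, mem_univ, Finset.filter_true] at f
    have g := hN.g
    rw [AP.finrank]
    simp only [dimB, finrank_A, s.card_mk, Fintype.card_empty, zero_mul, add_zero] at a a₁ a₂ ⊢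
    zify at f ⊢
    push_cast at a a₁ a₂
    linear_combination a₁ + a₂ + f - a + (Fintype.card ι + 2) * g
  · refine .of_an (Eq.subst (motive := fun y => AnalyticAt ℂ _ y) e1.symm ((b.an_g hz).prod ?_))
    exact A.an_iff.2 ⟨(A.an_iff.1 (b.an_γ hz)).1, (A.an_iff.1 (b.an_γ hz)).2.1, analyticAt_const⟩
  · filter_upwards [(ja.continuousAt.comp_of_eq continuousAt_snd rfl).eventually
      (Units.isOpen.mem_nhds isUnit_one)] with q hq hm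
    have k := (b.st_mem (s := s) (A := univ) hN (y := q.1) ⟨hm.1.1.1, hm.1.1.2⟩).1
    have t : θQ s (u q.2) = 1 := θQ_eq_one.2 ⟨rfl, (mul_one _).symm.trans
      (congrArg (fun c : ch.A (ν ⊕ κ) => c.2.2) (Ring.inverse_mul_cancel _ hq)), rfl⟩
    refine ⟨ivt_CQ _ (uu _ hq) _ k, Prod.ext ?_ ?_⟩
    · rw [b.g_act k (uu _ hq), t, b.g_st, Holo.act_one (act := b.actX s Wg)]
    · have c := congrArg Prod.snd (b.γ_act (Wg := Wg) k (uu _ hq))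
      rw [t, b.ah_β.one, b.γ_st, one_mul] at c
      have d := ((Ring.eq_mul_inverse_iff_mul_eq _ _ _ hq).1 (Eq.symm c)).symm
      exact Prod.ext (congrArg (·.1) (d.trans (one_mul _)))
        (Prod.ext (congrArg (·.2.1) (d.trans (one_mul _))) (funext fun q => q.elim))
  · refine .of_forall fun y hy => ⟨⟨⟨⟨CQ.mem₁ hy, CQ.mem₂ hy⟩, trivial⟩, trivial⟩, ?_⟩
    have c := b.isUnit_γ hy
    have d : IsUnit (M := ch.AQ n₁ n₂ ν κ Empty) ((1, b.γ y.2.1 y.2.2), 1) :=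
      AP.isUnit_iff.2 ⟨Prod.isUnit_iff.2 ⟨isUnit_one, c⟩, isUnit_one⟩
    refine (congrArg _ (b.st_g (S := Empty) (Wg := Wg) (b.CA_univ.ge hy))).trans
      ((isAct_actQ.mul _ _ (uu (G y) c) d y trivial).symm.trans ?_)
    refine Eq.trans (congrArg (actQ s Wg · y) ?_) (isAct_actQ.one y trivial)
    exact Prod.ext (Prod.ext (one_mul _) (Ring.inverse_mul_cancel _ c)) (one_mul _)

/-- **(Sec)** -/
theorem CQ.sec (hN : ch.QN n₁ n₂) (hz : z ∈ CQ s) :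
    ∃ σ : ch.WF ν κ Λ → ch.WQ n₁ n₂ ν κ ν₁ κ₁ ν₂ κ₂ Λ, AnalyticAt ℂ σ z.1 ∧ σ z.1 = z ∧
      ∀ᶠ x in 𝓝 z.1, x.2 ∈ ch.base (Mk ν κ) → σ x ∈ CQ s ∧ (σ x).1 = x :=
  let Wg : Wt Empty Λ Empty J := ⟨fun _ => Empty.elim, fun _ => Empty.elim, fun _ => Empty.elim⟩
  let ⟨_, a, b⟩ := CQ.mfdAt hN hz
  have : IsAct (actA s Wg : ch.AL n₁ n₂ → ch.WQ n₁ n₂ ν κ ν₁ κ₁ ν₂ κ₂ Λ → _) (CQ s) :=
    IsAct.mono inferInstance (subset_univ _) fun _ hc _ hy => mem hy hc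
  GB.exists_sec (act := actA s Wg) b a analyticAt_fst (.of_forall fun _ c => c.1.mem) (CQ.fre hz)
    (CQ.fib hN hz)

/-- local triviality -/
theorem CQ.smoAt (hN : ch.QN n₁ n₂) (hz : z ∈ CQ s) :
    ∃ (Ψ : ch.WF ν κ Λ × ch.AL n₁ n₂ → ch.WQ n₁ n₂ ν κ ν₁ κ₁ ν₂ κ₂ Λ) (Θ : _ → ch.AL n₁ n₂),
      SmoAt (CQ s) (ch.bsF ν κ Λ) Prod.fst Ψ Θ z := by
  let Wg : Wt Empty Λ Empty J := ⟨fun _ => Empty.elim, fun _ => Empty.elim, fun _ => Empty.elim⟩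
  obtain ⟨σ, a, b, c⟩ := CQ.sec hN hz
  have e : cc (σ z.1) z = 1 := b.symm ▸ cc_self hz
  have a' : AnalyticAt ℂ (fun y : ch.WQ n₁ n₂ ν κ ν₁ κ₁ ν₂ κ₂ Λ => σ y.1) z := a.comp analyticAt_fst
  refine ⟨fun q => actA s Wg q.2 (σ q.1), fun y => cc (σ y.1) y, .of_an analyticAt_fst,
    .of_an (an_cc a' analyticAt_id (b.symm ▸ hz) hz), an_actQ
      (AP.an_iff.2 ⟨analyticAt_const, analyticAt_snd⟩) (a.comp_of_eq analyticAt_fst rfl)
      (unit (e.symm ▸ isUnit_one)), ?_, ?_⟩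
  · filter_upwards [continuousAt_fst.eventually c, ((a'.continuousAt.tendsto.mono_right
      (congrArg 𝓝 b).le).prodMk_nhds tendsto_id).eventually (CQ.ev_part hz)] with y d f hy
    obtain ⟨k1, k2⟩ := d hy.1.mem
    exact (act_cc hN k1 hy k2 (f k1 hy k2)).2
  · filter_upwards [continuousAt_fst.eventually c, continuousAt_snd.eventually
      (Units.isOpen.mem_nhds (e.symm ▸ isUnit_one))] with q d f hq
    obtain ⟨k1, k2⟩ := d hq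
    have k3 := (actA_fst (s := s) (Wg := Wg) (z := σ q.1) q.2).trans k2
    exact ⟨mem k1 f, k3, (congrArg (fun t => cc (σ t) (actA s Wg q.2 (σ q.1))) k3).trans
      (cc_act k1 f)⟩

theorem CQ.mfdAt_pre (hN : ch.QN n₁ n₂) (hz : z ∈ CQ s) {T : Set (ch.WF ν κ Λ)} {N : ℕ}
    (hT : T ⊆ ch.bsF ν κ Λ) (h : MfdAt T N z.1) :
    MfdAt (CQ s ∩ Prod.fst ⁻¹' T) (N + finrank ℂ (ch.AL n₁ n₂)) z :=
  let ⟨_, _, k⟩ := CQ.smoAt hN hz
  k.mfdAt hT hz h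

theorem pcy_CQ (hN : ch.QN n₁ n₂) {T M : Set (ch.WF ν κ Λ)} {N : ℕ} (hT : T ⊆ ch.bsF ν κ Λ)
    (h : PCy T M N) : PCy (CQ s ∩ Prod.fst ⁻¹' T : Set (ch.WQ n₁ n₂ ν κ ν₁ κ₁ ν₂ κ₂ Λ))
      (CQ s ∩ Prod.fst ⁻¹' M) (N + finrank ℂ (ch.AL n₁ n₂)) :=
  smo_pcy (fun _ hz => CQ.smoAt hN hz) hT h

end Vale.Agent.P269.Ch
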