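import Vale.Agent.P269.Glu.Act0
import Vale.Agent.P269.Map.Hol

set_option linter.unusedSectionVars false

/-!
# The action on labelled points
-/

namespace Vale.Agent.P269.Ch

open P291Z Set Function Topology Filter Base Cv Holo Vir KD

variable {S Λ R J K ι ν κ ν' κ' κ₁ ε : Type} [Fintype S] [Fintype Λ] [Fintype R] [Fintype J]
  [Fintype K] [Fintype ι] [DecidableEq ι] [Fintype ν] [Fintype κ] [Fintype ν'] [Fintype κ']
  [Fintype κ₁] [Fintype ε] {ch : Ch ι J} {n : Nm ι J} {Wg : Wt S Λ R J} {F : Fam S Λ R J K}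
  {e : K → ι → ℕ} {ℓ : R → ι → ℤ}

theorem holOn_ptz {x : ch.W ν} (hx : x ∈ ch.base ν) (q : ν) :
    HolOn (ch.base ν) (fun x => ptz x q) x :=
  let ⟨U, h1, h2⟩ := exists_evU hx.1
  ⟨fun y => (y.p q, U (y, y.p q)), (W.an_p analyticAt_id q).prod ((h1 _).comp_of_eq
    (analyticAt_id.prod (W.an_p analyticAt_id q)) rfl), h2.mono fun _ a b => Prod.ext rfl
      (funext fun l => gr_unique (ptz_mem b q) (a _ (b.2.2.2.1 q).1) (b.1 l))⟩

theorem _root_.Vale.Agent.P269.Cv.Par.rescale {X : Type} [TopologicalSpace X] [T2Space X]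
    [CompactSpace X] {R : RS X} {N : Finset (X × X)} {A : ι → LB R} {M : ι → ℕ} {o : ι}
    {C : Set (V M)} {π : X → V M} (h : Par o C N A π) {c : X → ι → ℂ} (h0 : ∀ y i, c y i ≠ 0)
    (hc : ∀ q ∈ N, c q.1 = c q.2) :
    Par o C N (fun i => A i * LB.cst R (fun y => c y i) fun y => h0 y i) fun y => c y • π y :=
  h.of_iso (fun i => by
    rw [mul_div_cancel_left]; exact cst_mem0 _ fun q hq => congrFun (hc q hq) i) h0

/-- the evaluation at a marked point is continuous on the solutions -/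
theorem GlA.continuousOn_fld (q : Mk ν κ) (j : J) :
    ContinuousOn (fun y : ch.WF ν κ Λ => fld y.2 (y.2.p q) j) (ch.solF ν κ F) := fun x hx => by
  have h1 := fun y (a : y ∈ ch.solF ν κ F) => (a.1.2.1.2.2.2.1 q).1
  obtain ⟨Φ, h2, h3⟩ := exists_fldU hx.1.2.1.1 (crv_ne (h1 x hx)) j
  have h4 : AnalyticAt ℂ (fun y : ch.WF ν κ Λ => (y.2, y.2.p q)) x :=
    analyticAt_snd.prod (W.an_p analyticAt_snd q)
  exact HolOn.tendsto ⟨fun y => Φ (y.2, y.2.p q), h2.comp_of_eq h4 rfl,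
    (h4.continuousAt.tendsto.eventually h3).mono fun y a b =>
      a (h1 y b) (((mem_solF.1 b).2 _ (h1 y b)).1 j)⟩ hx

section glue

variable {a : ch.AG n ν κ κ' S} {z : ch.WG n ν κ κ' Λ} {T : Set ((ch.re n).WF ν (κ ⊕ κ') Λ)}

theorem Gl.actLb {c : J → ℂ} {s : ch.A (Mk ν κ)} {s' : (ch.re n).A (Mk ν (κ ⊕ κ'))}
    {x : ch.W (Mk ν κ)} {w : ch.Lb n (Mk ν (κ ⊕ κ'))} (hs : IsUnit s) (hs' : IsUnit s')
    (e₁ : ∀ q, s'.2.2 (inc q) = s.2.2 q) (e₂ : ∀ q, s'.2.2 (nq q false) = s'.2.2 (nq q true))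
    (h : Gl x w) : Gl (act s (scl c x)) (actLb c s s' w) := by
  classical
  obtain ⟨a1, a2, -⟩ := Cv.isUnit_iff.1 hs
  obtain ⟨b1, b2, b3⟩ := Cv.isUnit_iff.1 hs'
  have h1 : ∀ (t : ι → ℂ) (v : V n.M), apV (Ch.actLb c s s' w).2.1 (t • fun i => s'.1 i (v i)) =
      t • fun i => s.1 i (apV w.2.1 v i) := fun t v => funext fun i =>
    (map_smul _ _ _).trans (congrArg (t i • ·) (actLb_V hs' i _))
  refine ⟨h.toLk.actLb hs hs', Cv.act_mem_base h.mem hs, Cv.act_mem_base h.mem' hs', fun i =>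
    (RightInverse.surjective (ap_inv (a1 i))).comp ((h.surj i).comp
      (RightInverse.surjective (inv_ap (b1 i)))), fun l => (LeftInverse.injective
        (inv_ap (b2 l))).comp ((h.inj l).comp (LeftInverse.injective (ap_inv (a2 l)))),
    fun q => Eq.trans ?_ (h1 _ _).symm, fun q => (h1 _ _).trans (Eq.trans ?_ (h1 _ _).symm), ?_⟩
  · rw [act_p, scl_p, h.mark, e₁]
    rfl
  · rw [scl_p, h.node, e₂]
  obtain ⟨X, _, _, _, R, N, A, π, p, k1, k2, k3⟩ := h.par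
  have k4 : Injective p := fun q q' e =>
    h.mem'.2.2.2.2.1 q q' 1 (by rw [← k2, ← k2, e, one_smul])
  have k5 : ∀ q, Sm N (p q) := fun q => not_not.1 fun e => (h.mem'.2.2.2.1 q).2 (by
    rw [← k2, ← one_smul (ι → ℂ) (π _)]
    exact (k1.isNode_iff fun _ => one_ne_zero).2 e)
  let t : X → ι → ℂ := extend p s'.2.2 1
  have k8 : ∀ y, (¬∃ q, p q = y) → t y = 1 := fun y e => extend_apply' _ _ y e
  have k6 : ∀ y i, t y i ≠ 0 := fun y i => by
    by_cases e : ∃ q, p q = y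
    · obtain ⟨q, rfl⟩ := e
      simpa only [t, k4.extend_apply] using b3 q i
    · exact k8 y e ▸ one_ne_zero
  have k7 : ∀ q ∈ N, t q.1 = t q.2 := fun q e =>
    (k8 _ fun ⟨m, f⟩ => (k5 m q e).1 f.symm).trans (k8 _ fun ⟨m, f⟩ => (k5 m q e).2 f.symm).symm
  refine ⟨X, _, ‹_›, ‹_›, R, N, _, _, p, Cv.crv_act hs' ▸ (k1.lin fun i =>
    LeftInverse.injective (inv_ap (b1 i))).rescale k6 k7, fun q => ?_, ?_⟩
  · simp only [t, k4.extend_apply, k2]
    rfl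
  · simp only [h1]
    refine Cv.crv_act hs ▸ (k3.lin fun i => LeftInverse.injective (inv_ap (a1 i))).rescale k6
      fun q f => (Finset.mem_union.1 f).elim (k7 q) fun f => ?_
    obtain ⟨m, -, rfl⟩ := Finset.mem_image.1 f
    simp only [t, k4.extend_apply, e₂]

theorem Gl.act (ha : IsUnit a) (h : Gl z.1.2 z.2) : Gl (actG Wg a z).1.2 (actG Wg a z).2 :=
  h.actLb (isUnit_dupF (AP.isUnit_iff.1 ha).1) (isUnit_dupF (isUnit_θG ha))
    (by rintro (q | q) <;> rfl) fun _ => rfl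

theorem ivt_Zb (hT : Ivt (actF F.toWt) T) :
    Ivt (actG F.toWt) (Zb F T : Set (ch.WG n ν κ κ' Λ)) := fun _ ha _ h =>
  ⟨h.1.act ha, hT _ (isUnit_θG ha) _ h.2.1, fun j e => (h.2.2 j e).act ha⟩

theorem ivt_Zn (hT : Ivt (actF F.toWt) T) :
    Ivt (actG F.toWt) (Zn F T : Set (ch.WG n ν κ κ' Λ)) := fun a ha z h =>
  ⟨ivt_Zb hT a ha z h.1, q₁_eq_zero.1 ((spt₁.q_act a ha z).trans
    ((congrArg _ (q₁_eq_zero.2 h.2)).trans (ρM_zero _ _ _)))⟩

theorem ivt_Zf (hT : Ivt (actF F.toWt) T) :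
    Ivt (actG F.toWt) (Zf F T : Set (ch.WG n ν κ κ' Λ)) := fun a ha z h =>
  ⟨ivt_Zb hT a ha z h.1, q₂_eq_zero.1 ((spt₂.q_act a ha z).trans
    ((congrArg _ (q₂_eq_zero.2 h.2)).trans (ρM_zero _ _ _)))⟩

theorem eqM_D (hF : F.Inv) (hc : (ch.re n).Cuts) (hw : (ch.re n).HasWt F ℓ) :
    EqM (actG F.toWt : ch.AG n ν κ κ' S → _) (F.actD κ') (ch.OJ ν κ κ' n F) (F.cD κ') (θD ℓ) μD := by
  have _ := hF
  have _ := hc
  refine EqM.of_hom ⟨⟨(θD ℓ : ch.AG n ν κ κ' S → _), funext fun q => Prod.ext rfl (funext fun r =>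
    Finset.prod_eq_one fun i _ => one_zpow _)⟩, fun a b => funext fun q => Prod.ext rfl
      (funext fun r => prod_zpow_mul _ _ _)⟩ (continuous_iff_continuousAt.2 fun g => ?_)
    (fun z h q _ => ?_) (continuousOn_pi.2 fun q => ?_) fun a ha z h => funext fun q => ?_
  · obtain ⟨h1, -, -, h2⟩ := GlA.an_G g.1
    exact (AnalyticAt.pi fun q => h1.prod (AnalyticAt.pi fun r => an_prod_zpow
      (analyticAt_pi_iff.1 h2 q) ((Cv.isUnit_iff.1 (AP.isUnit_iff.1 g.isUnit).2).2.2 q)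
        (ℓ r))).continuousAt.comp Units.continuous_val.continuousAt
  · have h1 := fun m => ((mem_solF.1 h.2).2 _ (h.2.1.2.1.2.2.2.1 m).1).2
    exact ⟨⟨h1 _, h1 _⟩, fun j e => h.1.1.2.1.2.2.2.2 j e (.inr q)⟩
  · have h1 : ContinuousOn (μG : ch.WG n ν κ κ' Λ → _) (ch.OJ ν κ κ' n F) := fun z _ =>
      (analyticAt_μG z).continuousAt.continuousWithinAt
    have h2 := fun m => continuousOn_pi.2 fun j =>
      (GlA.continuousOn_fld m j).comp h1 fun _ a => a.2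
    exact (continuous_fst.comp_continuousOn h1).prodMk ((h2 _).prodMk (h2 _))
  · have h1 := fun m => congrArg Prod.snd (vl_actF hw (isUnit_θG ha) h.2 m)
    exact Prod.ext rfl (Prod.ext (h1 _) (h1 _))

end glue

end Vale.Agent.P269.Ch
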