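import Vale.Agent.P269.Glu.CptB
import Vale.Agent.P269.Glu.CptZ
import Vale.Agent.P269.Glu.Prp

set_option linter.unusedSectionVars false

/-!
# Compactness of the space of labels
-/

namespace Vale.Agent.P269.Ch

open P291Z Set Function Topology Filter Module Holo Base Cv KD

variable {S Λ R J K ι ν κ κ' : Type} [Fintype S] [Fintype Λ] [Fintype R] [Fintype J]
  [Fintype K] [Fintype ι] [DecidableEq ι] [Fintype ν] [Fintype κ] [Fintype κ']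
  {ch : Ch ι J} {n : Nm ι J} {F : Fam S Λ R J K} {e : K → ι → ℕ} {K₀ : Set K} {ℓ : R → ι → ℤ}
  {T : Set ((ch.re n).WF ν (κ ⊕ κ') Λ)} {O : Set (ch.WF ν κ Λ)}

theorem Gl.glC (hn : ch.GN n κ') {Wg : Wt S Λ R J} : GlC ν κ κ' ch n Wg := fun _ _ => Gl.cpt hn

variable (hn : ch.GN n κ') (hF : F.Inv) (hT : Lev F T) (hc : clo F T ⊆ T)
include hn hF hT hc

theorem Zf.cpt {y : ℕ → ch.WG n ν κ κ' Λ} (hy : ∀ k, y k ∈ Zf F T) {x : ch.WF ν κ Λ}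
    (h1 : Tendsto (fun k => (y k).1) atTop (𝓝 x)) (hx : x ∈ ch.baseF ν κ F.B) (hl : Lab κ' n x.2) :
    ∃ (φ : ℕ → ℕ) (a : ℕ → ch.AG n ν κ κ' S) (z : ch.WG n ν κ κ' Λ), StrictMono φ ∧
      (∀ k, IsUnit (a k) ∧ (a k).1 = 1) ∧ z ∈ Zf F T ∧ z.1 = x ∧
      Tendsto (fun k => actG F.toWt (a k) (y (φ k))) atTop (𝓝 z) :=
  Zf.cpt_of (Gl.glC hn) hn hF hT hc hy h1 hx hl

theorem Zf.closed {x : ch.WF ν κ Λ} (hx : x ∈ clo F (Prod.fst '' (Zf F T : Set (ch.WG n ν κ κ' Λ))))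
    (hl : Lab κ' n x.2) : x ∈ Prod.fst '' (Zf F T : Set (ch.WG n ν κ κ' Λ)) :=
  Zf.closed_of (Gl.glC hn) hn hF hT hc hx hl

/-- **forgetting the label is proper** -/
theorem Zf.isPr (hO : Ivt (actF F.toWt) O) (hb : O ⊆ ch.baseF ν κ F.B) (hl : ∀ x ∈ O, Lab κ' n x.2)
    {O' : Set (ch.WG n ν κ κ' Λ)} (e : O' = Zf F T ∩ Prod.fst ⁻¹' O)
    [Nice (Quo (actF F.toWt) O)] [Nice (Quo (actG F.toWt : ch.AG n ν κ κ' S → _) O')]
    (hf : EqM (actG F.toWt : ch.AG n ν κ κ' S → _) (actF F.toWt) O' O (fun a => a.1) Prod.fst) :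
    IsPr hf.map :=
  Zf.isPr_of (Gl.glC hn) hn hF hT hc hO hb hl e hf

end Vale.Agent.P269.Ch
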