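import Vale.Agent.P269.Glu.CptA
import Vale.Agent.P269.Glu.GC

set_option linter.unusedSectionVars false

/-!
# Compactness of the space of labels over the base
-/

namespace Vale.Agent.P269.Ch

open Set Function Topology Filter Module Holo Base Cv

namespace CptA

/-- the nodes of the nearby fibres lie on the charts at the nodes of the central fibre -/
theorem exists_charts {ι T P : Type} [Fintype ι] {M : ι → ℕ} {o : ι} [TopologicalSpace T]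
    [NormedAddCommGroup P] [NormedSpace ℂ P] [FiniteDimensional ℂ P] {C : T → Set (V M)}
    {p : T → P} {t₀ : T} (h : LocFam o C p t₀) : ∃ (N : ℕ) (σ : Fin N → P × (ℂ × ℂ) → V M) (τ : Fin N → P → ℂ),
      (∀ j, Chart o C p t₀ (σ j) fun y => {z | z.1 * z.2 = τ j y}) ∧
      (∀ j, AnalyticAt ℂ (τ j) (p t₀) ∧ τ j (p t₀) = 0) ∧
      (∀ j j', Base.Orb (σ j (p t₀, 0)) (σ j' (p t₀, 0)) → j = j') ∧
      ∀ᶠ t in 𝓝 t₀, ∀ c ∈ C t, IsNode o (C t) c →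
        ∃ j, τ j (p t) = 0 ∧ Base.Orb (σ j (p t, 0)) c := by
  obtain ⟨N, z, hz⟩ := h.nod.exists_nodes
  choose τ σ a1 a2 a3 a4 using fun j =>
    (h.chart _ (hz.mem j)).resolve_left fun b => b.not_isNode h (hz.prop j)
  refine ⟨N, σ, τ, a4, fun j => ⟨a2 j, a3 j⟩, fun j j' e => hz.inj _ _ (by rwa [a1, a1] at e),
    h.compact (p := fun q => IsNode o (C q.1) q.2 →
      ∃ j, τ j (p q.1) = 0 ∧ Base.Orb (σ j (p q.1, 0)) q.2)
      (fun c hc => ?_) (h.eventually.mono fun t b s hs c _ d e => (d (b.nod.isNode_orb e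
        ⟨s, hs, rfl⟩)).imp fun j f => ⟨f.1, f.2.trans (Orb.symm ⟨s, hs, rfl⟩)⟩)⟩
  have k := (continuousAt_fst (p := (t₀, c))).eventually h.eventually
  rcases h.chart c hc with b | ⟨_, b⟩
  · filter_upwards [k, b.eventually h] with q d e f r using ((e f).not_isNode d r).elim
  · obtain ⟨j, s, hs, rfl⟩ := hz.ex c hc (b.isNode h)
    rw [← a1 j] at k ⊢
    filter_upwards [k, NdAt.eventually ((a4 j).smul h.cone hs) (a2 j) (a3 j) h] with q d e f r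
    obtain ⟨g, ⟨s', e⟩, -⟩ := (e f).resolve_left fun e => e.not_isNode d r
    exact ⟨j, g, Orb.trans ⟨s, hs, rfl⟩ (Orb.of_smul (d.nod.ne_zero _ f) e)⟩

theorem fac_or {ι : Type} [Fintype ι] {M : ι → ℕ} {o : ι} {C : Set (V M)} (hC : IsNodal o C)
    {c c' : V M} {γ δ γ' δ' : ℂ → V M} (a : IsCross o C c γ δ) (a' : IsCross o C c' γ' δ')
    (e : Base.Orb c' c) : (Nrm.Fac γ γ' ∧ Nrm.Fac δ δ') ∨ (Nrm.Fac γ δ' ∧ Nrm.Fac δ γ') := by
  classical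
  obtain ⟨s, hs, rfl⟩ := e
  have n := Nrm.ne_of_isCross a
  rcases GBx.J_or hC a' a.1 (by rw [a.2.2.1, Nrm.P_smul hs]) with h | h <;>
    rcases GBx.J_or hC a' a.2.1 (by rw [a.2.2.2.1, Nrm.P_smul hs]) with h' | h'
  exacts [(n (h.trans h'.symm)).elim,
    .inl ⟨Nrm.fac_of_J hC a.1 a'.1 h, Nrm.fac_of_J hC a.2.1 a'.2.1 h'⟩,
    .inr ⟨Nrm.fac_of_J hC a.1 a'.2.1 h, Nrm.fac_of_J hC a.2.1 a'.1 h'⟩,
    (n (h.trans h'.symm)).elim]

end CptA

open CptA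

variable {S Λ R J K ι ν κ κ' : Type} [Fintype S] [Fintype Λ] [Fintype R] [Fintype J]
  [Fintype K] [Fintype ι] [DecidableEq ι] [Fintype ν] [Fintype κ] [Fintype κ']
  {ch : Ch ι J} {n : Nm ι J} {x : ch.W (Mk ν κ)} {w : ch.Lb n (Mk ν (κ ⊕ κ'))}

theorem Brs.fac {γ γ' : κ' → Bool → ℂ → V ch.M} (b : Brs w γ)
    (h : ∀ e q, Nrm.Fac (γ e q) (γ' e q)) : Brs w γ' := fun e q =>
  (b e q).imp fun _ a => ⟨a.1, a.2.1, a.2.2.trans (h e q)⟩

theorem Gl.exists_cross (h : Gl x w) : ∃ γ : κ' → Bool → ℂ → V ch.M, Brs w γ ∧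
    ∀ e, IsCross ch.o (crv x) (γ e false 0) (γ e false) (γ e true) := by
  classical
  obtain ⟨X, _, _, _, Q, N, A, π, p, P', f, P⟩ := h.par
  refine ⟨fun e q => br A (fun y => apV w.2.1 (π y)) (p (nq e q)), fun e q =>
    ⟨_, P'.isBranch (p (nq e q)), (br_zero _).trans (f _), ?_⟩, fun e => ?_⟩
  · beta_reduce
    rw [GlP.br_apV]
    simpa only [one_smul] using Nrm.fac_smul (s := 1) fun _ => one_ne_zero
  · beta_reduce
    rw [br_zero]
    exact P.isCross (n := (p (nq e false), p (nq e true)))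
      (Finset.mem_union_right _ (Finset.mem_image_of_mem _ (Finset.mem_univ e)))

/-- Finitely many systems of charts describe the branches of all labels near `x`. -/
theorem exists_axsC (hc : ch.Cuts) (hx : x ∈ ch.bm ν κ) : ∃ (N : ℕ)
    (σ : Fin N × Bool → ch.W (Mk ν κ) × (ℂ × ℂ) → V ch.M) (τ : Fin N → ch.W (Mk ν κ) → ℂ),
    (∀ j, Chart ch.o (fun y : ch.bm ν κ => crv y.1) Subtype.val ⟨x, hx⟩ (σ j)
      fun y => {z | z.1 * z.2 = τ j.1 y}) ∧ (∀ j, AnalyticAt ℂ (τ j) x ∧ τ j x = 0) ∧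
    (∀ j j', Base.Orb (σ j (x, 0)) (σ j' (x, 0)) → j.1 = j'.1) ∧
    ∀ᶠ y in 𝓝 x, y ∈ ch.bm ν κ → ∀ v : ch.Lb n (Mk ν (κ ⊕ κ')), Gl y v →
      ∃ c : κ' → Fin N × Bool, Injective (fun e => (c e).1) ∧ (∀ e, τ (c e).1 y = 0) ∧
        Brs v (axs fun e z => σ (c e) (y, z)) := by
  have hf := locFam_bm hc ⟨x, hx⟩
  obtain ⟨N, σ, τ, a1, a2, a3, a4⟩ := exists_charts hf
  refine ⟨N, fun j q => σ j.1 (q.1, cond j.2 q.2.swap q.2), τ, ?_, a2, ?_, ?_⟩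
  · rintro ⟨j, _ | _⟩
    exacts [a1 j, (a1 j).swap_node hf.cont.self_of_nhds]
  · rintro ⟨j, _ | _⟩ ⟨j', _ | _⟩ <;> exact a3 j j'
  filter_upwards [ev_sub' (a4.and (eventually_all.2 fun j =>
    (a1 j).eventually_node (a2 j).2 hf))] with y a m v g
  obtain ⟨b1, b2⟩ := a m
  obtain ⟨γ, c1, c2⟩ := g.exists_cross
  have key : ∀ e, ∃ c : Fin N × Bool, τ c.1 y = 0 ∧ ∀ q, Nrm.Fac (γ e q)
      fun t => σ c.1 (y, cond c.2 (cond q (0, t) (t, 0)).swap (cond q (0, t) (t, 0))) := fun e => by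
    obtain ⟨j, d1, d2⟩ := b1 _ (c2 e).1.mem.self_of_nhds ⟨_, _, c2 e⟩
    rcases fac_or g.mem.2.2.1.isNodal (c2 e)
      (GBx.cross (b2 j) (locFam_bm hc ⟨y, m⟩) d1 false) d2 with d | d
    · exact ⟨(j, false), d1, fun q => by cases q; exacts [d.1, d.2]⟩
    · exact ⟨(j, true), d1, fun q => by cases q; exacts [d.1, d.2]⟩
  choose c k1 k2 using key
  have z : ∀ b : Bool, cond b ((0 : ℂ), (0 : ℂ)).swap (0, 0) = (0, 0) := fun b => by cases b <;> rfl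
  refine ⟨c, fun e e' k => brs_inj g c1 ?_, k1, c1.fac k2⟩
  have o1 := orb_zero (k2 e false)
  have o2 := orb_zero (k2 e' false)
  rw [cond_false, z] at o1 o2
  exact o1.trans ((show (c e).1 = (c e').1 from k) ▸ o2.symm)

/-- **the labels over a convergent sequence converge up to frames** -/
theorem Gl.cpt (hn : ch.GN n κ') {Wg : Wt S Λ R J} {y : ℕ → ch.WG n ν κ κ' Λ} {x : ch.WF ν κ Λ}
    (hy : ∀ k, Gl (y k).1.2 (y k).2 ∧ (y k).1.2 ∈ ch.bm ν κ)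
    (h1 : Tendsto (fun k => (y k).1) atTop (𝓝 x)) (hx : x.2 ∈ ch.bm ν κ) (hl : Lab κ' n x.2) :
    ∃ (φ : ℕ → ℕ) (a : ℕ → ch.AG n ν κ κ' S) (w : ch.Lb n (Mk ν (κ ⊕ κ'))), StrictMono φ ∧
      (∀ k, IsUnit (a k) ∧ (a k).1 = 1) ∧ Gl x.2 w ∧
      Tendsto (fun k => (actG Wg (a k) (y (φ k))).2.nf) atTop (𝓝 w.nf) := by
  obtain ⟨N, σ, τ, a1, a2, a3, a4⟩ := exists_axsC (n := n) (κ' := κ') hn.cuts hx
  have h2 : Tendsto (fun k => (y k).1.2) atTop (𝓝 x.2) := (continuous_snd.tendsto x).comp h1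
  obtain ⟨c, hc⟩ : ∃ c : κ' → Fin N × Bool, ∃ᶠ k in atTop, Injective (fun e => (c e).1) ∧
      (∀ e, τ (c e).1 (y k).1.2 = 0) ∧ Brs (y k).2 (axs fun e z => σ (c e) ((y k).1.2, z)) := by
    classical
    by_contra! h
    obtain ⟨k, b1, b2⟩ := ((eventually_all.2 fun c => h c).and (h2.eventually a4)).exists
    obtain ⟨c, b3⟩ := b2 (hy k).2 _ (hy k).1
    exact b1 c b3.1 b3.2.1 b3.2.2
  obtain ⟨_, hi, -⟩ := hc.exists
  obtain ⟨w, g, b, l⟩ := hl (axs fun e z => σ (c e) (x.2, z))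
    (fun e => GBx.cross (a1 (c e)) (locFam_bm hn.cuts ⟨_, hx⟩) (a2 _).2 false)
    fun e e' o => hi (a3 _ _ o)
  obtain ⟨s, s1, s2, s3⟩ := g.exists_sec hn hx l (fun e => a1 (c e)) (fun e => a2 _) b
  have h3 : Tendsto (fun k => s (y k).1.2) atTop (𝓝 w) := s2 ▸ s1.continuousAt.tendsto.comp h2
  obtain ⟨φ, p1, p2⟩ := extraction_of_frequently_atTop ((hc.and_eventually ((h2.eventually s3).and
    ((h2.prodMk_nhds h3).eventually (g.ev_brs hn.cuts hx (fun e => a1 (c e)) (fun e => a2 _)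
      b)))).mono fun k d => (hy k).1.exists_unit (gok hn) (d.2.1 (hy k).2 d.1.2.1) d.1.2.2
        (d.2.2 (d.2.1 (hy k).2 d.1.2.1) (hy k).2).2)
  choose a u1 u2 _ using p2
  refine ⟨φ, fun k => GBa.inr S (a k), w, p1, fun k => ⟨GBa.unit (u1 k), rfl⟩, g,
    ((continuous_nf.tendsto w).comp (h3.comp p1.tendsto_atTop)).congr fun k => ?_⟩
  exact (congrArg Lb.nf (u2 k).symm).trans
    (congrArg (fun z : ch.WG n ν κ κ' Λ => z.2.nf) (actG_one Wg (a k) (y (φ k))).symm :)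

end Vale.Agent.P269.Ch
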