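import Vale.Agent.P269.Glu.Kd
import Vale.Agent.P269.Base.Mfd

set_option linter.unusedSectionVars false

/-!
# Gluing: hypotheses and comparison maps
-/

namespace Vale.Agent.P269

open P291Z Set Function Topology Filter Base Cv Holo Vir

variable {S Λ R J K ι ν κ ν' κ' : Type} [Fintype S] [Fintype Λ] [Fintype R] [Fintype J]
  [Fintype K] [Fintype ι] [DecidableEq ι] [Fintype ν] [Fintype κ] [Fintype ν'] [Fintype κ']

/-- The action on families of pairs. -/
noncomputable def Wt.actD (F : Wt S Λ R J) (κ' : Type) (t : κ' → (S → ℂ) × (R → ℂ))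
    (y : κ' → (Λ → ℂ) × (J → ℂ) × (J → ℂ)) (a : κ') : (Λ → ℂ) × (J → ℂ) × (J → ℂ) :=
  F.act2 (t a) (y a)

/-- Families of pairs of points of the cone. -/
def Fam.cD (F : Fam S Λ R J K) (κ' : Type) : Set (κ' → (Λ → ℂ) × (J → ℂ) × (J → ℂ)) :=
  univ.pi fun _ => F.cone2

/-- The dimension of the vertical tangent spaces of the cone. -/
noncomputable def Fam.dv (F : Fam S Λ R J K) (K₀ : Set K) : ℕ := Nat.card F.mov - Nat.card K₀

namespace Ch

variable {ch : Ch ι J} {n : Nm ι J}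

/-- The numerical hypotheses for gluing the pairs `κ'`. -/
structure GN (ch : Ch ι J) (n : Nm ι J) (κ' : Type) [Fintype κ'] : Prop where
  num : ch.Num₀
  num' : (ch.re n).Num₀
  tight : ch.Tight'
  tight' : (ch.re n).Tight'
  g : n.g + Fintype.card κ' = ch.g
  m : n.m = ch.m

variable {F : Fam S Λ R J K} {e : K → ι → ℕ} {K₀ : Set K} {ℓ : R → ι → ℤ}

theorem Std.re (h : ch.Std F e K₀ ℓ) (n : Nm ι J) : (ch.re n).Std F e K₀ ℓ :=
  ⟨h.inv, h.reg, ⟨h.fits.wt, h.fits.le, h.fits.ne⟩, ⟨h.cuts.ne, h.cuts.cut⟩, h.wt⟩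

theorem GN.cuts (h : ch.GN n κ') : ch.Cuts := ⟨h.num.a_ne, h.num.cut⟩

theorem GN.cuts' (h : ch.GN n κ') : (ch.re n).Cuts := ⟨h.num.a_ne, h.num.cut⟩

/-- The fields of the label, descended to the glued curve. -/
noncomputable def dsX (A : Set J) (w : ch.Lb n ν') : ch.Fm A ch.hf :=
  fun j => Classical.epsilon fun X : ch.Th j →L[ℂ] ch.E (some j) =>
    w.2.2 (some j) ∘L X = w.1.X j ∘L pbT w.2.1 _

variable (F e)

/-- The differential of the section of `kdD` along the fields on the glued curve. -/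
noncomputable def E₁ (z : ch.WG n ν κ κ' Λ) :
    ch.Fm F.mov ch.hf →ₗ[ℂ] ch.P K × (ch.re n).P K × ch.Fm F.mov (ch.re n).hf :=
  (dSc F e z.1).prod ((0 : _ →ₗ[ℂ] _).prod (Fm.cmp (fun j => z.2.2.2 (some j)) fun _ => .id ℂ _))

/-- The differential of the section of `kdD` along the fields on the normalised curve. -/
noncomputable def E₂ (z : ch.WG n ν κ κ' Λ) : (ch.re n).Fm F.mov (ch.re n).hf →ₗ[ℂ]
    ch.P K × (ch.re n).P K × ch.Fm F.mov (ch.re n).hf :=
  (0 : _ →ₗ[ℂ] _).prod ((dSc F e (μG z)).prod (-Fm.cmp (fun _ => .id ℂ _) fun _ => pbT z.2.2.1 _))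

variable (ch n ν κ κ') in
/-- The domain of `kdD`. -/
def OD : Set (ch.WG n ν κ κ' Λ) := Zb F ((ch.re n).dom ν (κ ⊕ κ') F e) ∩ Prod.fst ⁻¹' ch.dom ν κ F e

variable (ch n ν κ κ') in
/-- The domain of `kdS`. -/
def OS : Set (ch.WG n ν κ κ' Λ) := Zn F ((ch.re n).dom ν (κ ⊕ κ') F e)

variable (ch n ν κ κ') in
/-- The domain of `kdJ`. -/
def OJ : Set (ch.WG n ν κ κ' Λ) := ZN F ((ch.re n).adm ν (κ ⊕ κ') F)

variable {F e}

/-- The tori acting on the values at the labelled nodes. -/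
noncomputable def θD (ℓ : R → ι → ℤ) (a : ch.AG n ν κ κ' S) (q : κ') : (S → ℂ) × (R → ℂ) :=
  (a.1.1, fun r => ∏ i, a.2.2.2 q i ^ ℓ r i)

/-- The values at the branches of the labelled nodes. -/
noncomputable def μD (z : ch.WG n ν κ κ' Λ) (q : κ') : (Λ → ℂ) × (J → ℂ) × (J → ℂ) :=
  vl2 (μG z) (nq q false) (nq q true)

/-- The label without fields. -/
noncomputable def Lb.nf (w : ch.Lb n ν') : ch.Lb n ν' := (W.mk' w.1.Q w.1.p w.1.Ξ 0, w.2)

end Ch

end Vale.Agent.P269
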