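import Vale.Agent.P269.Vir.Gen2

set_option linter.unusedSectionVars false
set_option linter.style.haveILetI false

/-!
# Tubular neighbourhoods of sections and uniqueness of their classes
-/

namespace Vale.Agent.P269.Tub

open Set Function Topology Filter P291Z Orb Holo Ch Metric

section top

variable {X E B : Type} [TopologicalSpace X] [TopologicalSpace E] [TopologicalSpace B]

theorem exists_open [TopologicalSpace.MetrizableSpace X] {f : X → E} {p : X → B} {s : B → X}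
    (hp : Continuous p) (hs : Continuous s) (hq : ∀ x x', f x = f x' → p x = p x')
    (hps : ∀ b, p (s b) = b) (h : ∀ b, LH f (s b)) :
    ∃ N, IsOpen N ∧ range s ⊆ N ∧ IsOpenEmbedding (f ∘ (Subtype.val : N → X)) := by
  letI := TopologicalSpace.metrizableSpaceMetric X
  obtain ⟨N, h1, h2, h3⟩ := exists_open_of_eventually (A := range s) (P := fun x => LH f x ∧
      ∃ ε, dist x (s (p x)) < ε ∧ InjOn f (ball (s (p x)) ε)) (forall_mem_range.2 fun b => by
    obtain ⟨ε, h1, h2⟩ := (nhds_basis_ball.prod_self.eventually_iff.1 (h b).eventually_inj :)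
    have h3 : Tendsto (fun x => s (p x)) (𝓝 (s b)) (𝓝 (s b)) :=
      (hs.comp hp).tendsto' _ _ (congrArg s (hps b))
    have h4 : 0 < ε / 3 := by positivity
    filter_upwards [(h b).eventually, ball_mem_nhds _ h4, h3.eventually (ball_mem_nhds _ h4)]
      with x h5 h6 h7
    have h8 : ball (s (p x)) (2 * ε / 3) ⊆ ball (s b) ε :=
      ball_subset_ball' (by have := mem_ball.1 h7; linarith)
    refine ⟨h5, 2 * ε / 3, ?_, fun y hy y' hy' => @h2 (y, y') ⟨h8 hy, h8 hy'⟩⟩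
    have := dist_triangle_right x (s (p x)) (s b)
    have := mem_ball.1 h6
    have := mem_ball.1 h7
    linarith)
  have h4 : ∀ x : N, LH (f ∘ (Subtype.val : N → X)) x := fun x =>
    (h3 _ x.2).1.comp (h1.isOpenEmbedding_subtypeVal.lh x)
  refine ⟨N, h1, h2, .of_continuous_injective_isOpenMap
    (continuous_iff_continuousAt.2 fun x => (h4 x).cont) (fun x y e => Subtype.ext ?_)
    (isOpenMap_iff_nhds_le.2 fun x => (h4 x).map_nhds.ge)⟩
  obtain ⟨ε, h5, h6⟩ := (h3 _ x.2).2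
  obtain ⟨ε', h7, h8⟩ := (h3 _ y.2).2
  rw [← hq _ _ e] at h7 h8
  rcases le_total ε ε' with h9 | h9
  exacts [h8 (h5.trans_le h9) h7 e, h6 h5 (h7.trans_le h9) e]

theorem lh_of_emb {A : Type} [TopologicalSpace A] {ι : X → A} (hι : IsEmbedding ι) {f : X → E}
    (hf : Continuous f) {γ : E → A} {x : X}
    (h1 : ∀ᶠ y in 𝓝 (f x), ContinuousAt γ y ∧ ∃ t, ι t = γ y ∧ f t = y)
    (h2 : ∀ᶠ t in 𝓝 x, γ (f t) = ι t) : LH f x := by
  classical
  let g : E → X := fun y => if h : ∃ t, ι t = γ y ∧ f t = y then h.choose else x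
  have h3 : ∀ᶠ y in 𝓝 (f x), ι (g y) = γ y ∧ f (g y) = y := h1.mono fun y hy => by
    simp only [g, dif_pos hy.2]
    exact hy.2.choose_spec
  refine LH.of_inv g (.of_forall fun _ => hf.continuousAt) ?_ ?_ (h3.mono fun _ h => h.2)
  · filter_upwards [h1, h3.eventually_nhds] with y a b
    exact hι.continuousAt_iff.2 (a.1.congr (b.mono fun _ c => c.1.symm))
  · filter_upwards [h2, hf.continuousAt.eventually h3] with t a b
    exact hι.injective (b.1.trans a)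

end top

variable {Y' Y B : Ch.Sp}

theorem lh_map (m : Mor Y' Y) {ρ : Y.G → Y'.G} (h0 : Tendsto ρ (𝓝 1) (𝓝 1))
    (h1 : ∀ g, m.ρ (ρ g) = g) {t : Y'.T} (h : LH m.f t) (h2 : ∀ g : Y.G, g • m.f t = m.f t → g = 1) :
    LH m.map (Y'.π t) := by
  have e : ∀ (Y : Ch.Sp) u, 𝓝 (Y.π u) = map Y.π (𝓝 u) := fun Y u =>
    (Y.quo.isOpenMap.map_nhds_eq Y.cont.continuousAt).symm
  refine LH.of_open_inj (.of_forall fun _ => m.map.continuous.continuousAt) ?_ ?_
  · rw [e, eventually_map]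
    refine h.eventually.mono fun u hu => ?_
    rw [m.map_π, e, e, ← hu.map_nhds, map_map, map_map]
    exact (map_congr (.of_forall fun x => m.map_π x)).ge
  · rw [e, prod_map_map_eq, eventually_map]
    obtain ⟨P, a1, Q, a2, a3⟩ := eventually_prod_iff.1 h.eventually_inj
    have a4 : Tendsto (fun p : Y.G × Y'.T => ρ p.1 • p.2) (𝓝 1 ×ˢ 𝓝 t) (𝓝 t) := by
      simpa using (h0.comp tendsto_fst).smul (tendsto_snd (f := 𝓝 1) (g := 𝓝 t))
    obtain ⟨R, a5, S, a6, a7⟩ := eventually_prod_iff.1 (a4.eventually a1)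
    filter_upwards [(h.cont.tendsto.prodMap h.cont.tendsto).eventually
      (eventually_of_proper_free h2 a5), tendsto_fst.eventually a6, tendsto_snd.eventually a2]
      with x b1 b2 b3 b4
    rw [m.map_π, m.map_π] at b4
    obtain ⟨g, hg⟩ := (Y.fib _ _).1 b4
    exact (Y'.fib _ _).2 ⟨ρ g, a3 (a7 (b1 g hg) b2) b3 (by rw [m.eqv, h1, hg])⟩

variable {p : Mor Y B} {s : Mor B Y} {V : VB B} {σ : Y.T → V.W}

/-- the map to the total space -/
noncomputable def tb (h : (V.pb p).IsSec σ) : Mor Y V.tot := (iso_pb V p).mor.comp h.mor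

/-- `σ` is a fibre coordinate of `p` near the section `s`. -/
structure Tube (s : Mor B Y) (h : (V.pb p).IsSec σ) : Prop where
  ps : ∀ b, p.f (s.f b) = b
  zero : ∀ b, σ (s.f b) = 0
  inv : ∃ ρ : B.G → Y.G, Tendsto ρ (𝓝 1) (𝓝 1) ∧ ∀ g, p.ρ (ρ g) = g
  free : ∀ (b : B.T) (g : B.G), g • b = b → g = 1
  lh : ∀ b, LH (tb h).f (s.f b)

namespace Tube

variable {hσ : (V.pb p).IsSec σ} (h : Tube s hσ)
include h

theorem map_ps (x : B.X) : p.map (s.map x) = x := by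
  obtain ⟨b, rfl⟩ := B.surj x
  rw [Mor.map_π, Mor.map_π, h.ps]

theorem isClosed : IsClosed (range s.map) :=
  (LeftInverse.isClosedEmbedding h.map_ps p.map.continuous s.map.continuous).isClosed_range

theorem tb_s (b : B.T) : (tb hσ).map (s.map (B.π b)) = V.zero.map (B.π b) := by
  rw [Mor.map_π, Mor.map_π, Mor.map_π]
  exact congrArg V.tot.π (Subtype.ext (Prod.ext (h.ps b) (h.zero b)))

theorem exists_open : ∃ N, IsOpen N ∧ IsOpenEmbedding ((tb hσ).map ∘ (Subtype.val : N → Y.X)) ∧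
    range s.map = N ∩ (tb hσ).map ⁻¹' V.Z := by
  obtain ⟨ρ, h1, h2⟩ := h.inv
  have e : ∀ x, V.proj.map ((tb hσ).map x) = p.map x := fun x => by
    obtain ⟨t, rfl⟩ := Y.surj x
    rw [Mor.map_π, Mor.map_π, Mor.map_π]
    rfl
  obtain ⟨N, h3, h4, h5⟩ := Tub.exists_open (f := (tb hσ).map) p.map.continuous s.map.continuous
    (fun x x' a => by rw [← e, a, e]) h.map_ps fun x => by
      obtain ⟨b, rfl⟩ := B.surj x
      rw [Mor.map_π]
      exact lh_map (tb hσ) h1 h2 (h.lh b) fun g a =>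
        h.free _ g (congrArg (fun y : V.V => y.1.1) a)
  refine ⟨N, h3, h5, Subset.antisymm (subset_inter h4 ?_) fun x hx => ?_⟩
  · rintro _ ⟨x, rfl⟩
    obtain ⟨b, rfl⟩ := B.surj x
    rw [mem_preimage, h.tb_s, Mor.map_π]
    exact VB.mk_mem_Z.2 rfl
  · obtain ⟨t, rfl⟩ := Y.surj x
    refine ⟨B.π (p.f t), congrArg Subtype.val (h5.injective (a₁ := ⟨_, h4 ⟨_, rfl⟩⟩)
      (a₂ := ⟨_, hx.1⟩) ((h.tb_s _).trans ?_))⟩
    have := hx.2
    rw [mem_preimage, Mor.map_π] at this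
    rw [comp_apply, Mor.map_π, Mor.map_π]
    exact congrArg V.tot.π (Subtype.ext (Prod.ext rfl (VB.mk_mem_Z.1 this).symm))

omit h in
theorem preimage_Z : (tb hσ).map ⁻¹' V.Z = Y.π '' {t | σ t = 0} := Set.ext fun x => by
  obtain ⟨t, rfl⟩ := Y.surj x
  rw [mem_preimage, Mor.map_π]
  exact VB.mk_mem_Z.trans hσ.mem_zeros.symm

theorem isol : Isol (range s.map) (Y.π '' {t | σ t = 0}) :=
  let ⟨_, h1, _, h2⟩ := h.exists_open
  Isol.of_isOpen h1 (h2.le.trans inter_subset_left) (preimage_Z (hσ := hσ) ▸ h2.ge)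

theorem lco : LCo (range s.map) hσ.eul := LCo.of_isCo' hσ.isCo h.isol

/-- **uniqueness** of the class of the section -/
theorem lcoh {t : Coch Y.X} (h1 : supp (δ t) = ∅) (h2 : supp t ⊆ range s.map)
    (h3 : ∀ b : B.T, IsDeg (2 * V.r) t ∧ ∃ (ℓ : (Fin V.r → ℂ) →ₗ[ℂ] V.W)
      (ψ : (Fin V.r → ℂ) → Y.T), Injective ℓ ∧ LinearMap.range ℓ = V.F b ∧ ContinuousAt ψ 0 ∧
      ψ 0 = s.f b ∧ (∀ᶠ v in 𝓝 0, p.f (ψ v) = b ∧ σ (ψ v) = ℓ v) ∧ LocCo (pull (Y.π ∘ ψ) t) 1) :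
    LCoh (range s.map) t hσ.eul := by
  rcases isEmpty_or_nonempty B.T with h0 | ⟨⟨b₀⟩⟩
  · exact LCoh.of_van fun _ ⟨x, _⟩ => isEmptyElim x
  obtain ⟨N, a1, a2, a3⟩ := h.exists_open
  have a4 := a1.isOpenEmbedding_subtypeVal
  have a5 := (tb hσ).map.continuous
  obtain ⟨b, b1, b2⟩ := exists_pull_deg a2.injective ((h3 b₀).1.pull (Subtype.val : N → Y.X))
  obtain ⟨b3, b4⟩ := (LCo.of_open (A := V.Z) (t := b) a2 (by
    rintro _ ⟨y, hy, rfl⟩
    refine ⟨⟨_, (a3.le ⟨B.π y.1.1, rfl⟩).1⟩, (h.tb_s _).trans ?_⟩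
    rw [Mor.map_π]
    exact congrArg V.tot.π (Subtype.ext (Prod.ext rfl hy.symm))) (b2 ▸ LCo.of_supp
      (cocycle_pull a4.continuous h1) fun x hx =>
        (a3.le (h2 (supp_pull a4.continuous _ hx))).2)).isCo V.isOVB.isClosed b1
  generalize loc V.Z b = c at b3 b4
  have b5 : ∀ x ∈ range s.map, t - pull (tb hσ).map c ∈ Van x := fun x hx =>
    van_of_pull a4 (x := ⟨x, (a3.le hx).1⟩) (by
      rw [map_sub, ← b2, pull_pull]
      exact van_pull_sub a2.continuous.continuousAt (b4 _ (a3.le hx).2))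
  have b6 := V.isOVB.isThom_of b3.cocycle b3.supp b3.deg fun x => by
    obtain ⟨y, rfl⟩ := B.surj x
    obtain ⟨-, ℓ, ψ, c1, c2, c3, c4, c5, c6⟩ := h3 y
    have c7 := VB.ch_mk c1 c2
    refine ⟨_, c7, Mor.map_π _ _, ((locCo_iff_cls (cocycle_pull (V.isOVB.chart_cont c7) b3.cocycle)
      (V.isOVB.supp_chart b3.supp c7)).1 ?_).trans (one_smul _ _)⟩
    have c8 := c6.of_van (Y.cont.continuousAt.comp c3)
      (van_symm (b5 _ ⟨B.π y, by rw [Mor.map_π, comp_apply, c4]⟩))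
    rw [pull_pull] at c8
    refine c8.pull_congr (c5.mono fun v hv => (((tb hσ).map_π (ψ v)).trans ?_).symm)
    exact congrArg V.tot.π (Subtype.ext (Prod.ext hv.1 hv.2))
  refine (LCoh.of_van b5).trans (LCoh.of_cohom h.isol ?_)
  have := hσ.cohom_pull ((iso_pb V p).isThom b6)
  rwa [pull_pull, ← ContinuousMap.coe_comp, ← Mor.map_comp] at this

end Tube

variable {κ : Type} {P : VB Y} {u : Y.T → P.W} {E : κ → VB Y}
  {M : ∀ a, Y.T → P.W →ₗ[ℂ] (E a).W} {A : κ → Set Y.X} {c : κ → Coch Y.X} {d : ℕ}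

/-- **sums over a list** -/
theorem exists_sum (hu : P.IsSec u) (hM : ∀ a, Ch.Hom (Mor.id Y) P (E a) (M a))
    (hd : ∀ a, (E a).r = d) (h1 : ∀ a, Isol (A a) (Y.π '' {t | M a t (u t) = 0}))
    (h2 : ∀ a, LCo (A a) (c a)) (h3 : ∀ a, LCoh (A a) ((hM a).isSec hu).eul (c a)) (l : List κ) :
    ∃ (E' : VB Y) (M' : Y.T → P.W →ₗ[ℂ] E'.W) (h : Ch.Hom (Mor.id Y) P E' M'),
      E'.r = l.length * d ∧ (∀ t w, M' t w = 0 → ∀ a ∈ l, M a t w = 0) ∧
      LCo {x | ∀ a ∈ l, x ∈ A a} (l.map c).prod ∧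
      LCoh {x | ∀ a ∈ l, x ∈ A a} (h.isSec hu).eul (l.map c).prod ∧
      Isol {x | ∀ a ∈ l, x ∈ A a} (Y.π '' {t | M' t (u t) = 0}) := by
  induction l with
  | nil =>
    have h : Ch.Hom (Mor.id Y) P (trivB Y (Fin 0 → ℂ)) fun _ => 0 :=
      ⟨fun _ _ _ => trivial, continuous_const, fun _ _ _ _ => rfl⟩
    have e : (trivB Y (Fin 0 → ℂ)).r = 0 := Module.finrank_fin_fun ℂ
    have e' : {x | ∀ a ∈ ([] : List κ), x ∈ A a} = univ := by simp
    rw [e']
    exact ⟨_, _, h, e.trans (zero_mul d).symm, fun _ _ _ _ h => absurd h List.not_mem_nil,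
      LCo.univ cocycle_one, LCoh.of_hcls (h.isSec hu).isCo.cocycle cocycle_one (by
        rw [VB.IsSec.hcls_eul, VB.eu_eq_one _ e]; exact hcls_one.symm),
      Isol.of_subset (subset_univ _)⟩
  | cons a l ih =>
    obtain ⟨E', M', h, a1, a2, a3, a4, a5⟩ := ih
    have h' : Ch.Hom (Mor.id Y) P ((E a).sum E') fun t => (M a t).prod (M' t) :=
      ⟨fun t w hw => ⟨(hM a).mem t w hw, h.mem t w hw⟩, (hM a).cont.prodMk h.cont,
        fun g t w hw => Prod.ext ((hM a).eqv g t w hw) (h.eqv g t w hw)⟩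
    have e : {x | ∀ b ∈ a :: l, x ∈ A b} = A a ∩ {x | ∀ b ∈ l, x ∈ A b} :=
      Set.ext fun x => List.forall_mem_cons
    have i := ((h1 a).inter a5).mono (B' := Y.π '' {t | M a t (u t) = 0 ∧ M' t (u t) = 0}) (by
      rintro _ ⟨t, ht, rfl⟩; exact ⟨⟨t, ht.1, rfl⟩, t, ht.2, rfl⟩)
    rw [e, List.map_cons, List.prod_cons]
    refine ⟨_, _, h', ?_, fun t w e => List.forall_mem_cons.2
      ⟨congrArg Prod.fst e, a2 t w (congrArg Prod.snd e)⟩, (h2 a).mul a3,
      (LCoh.of_cohom i (cohom_eul_sum ((hM a).isSec hu) (h.isSec hu))).trans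
        ((h3 a).mul a4 (h2 a) a3), i.mono (image_mono fun t ht => Prod.mk_eq_zero.1 ht)⟩
    change (E a).r + E'.r = _
    rw [hd, a1, List.length_cons]
    ring

end Vale.Agent.P269.Tub
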