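import Vale.Agent.P269.Glu.Diag0
import Vale.Agent.P269.Glu.DiagA
import Vale.Agent.P269.Prj.Tgt

set_option linter.unusedSectionVars false
set_option linter.style.haveILetI false

/-!
# The tubular neighbourhood of the diagonal
-/

namespace Vale.Agent.P269.DgB

open Set Function Topology Filter Module P291Z Orb Holo Ch Mono Tq Tub Fam

variable {S Λ R J K : Type} [Fintype S] [Fintype Λ] [Fintype R] [Fintype J] [Fintype K]

instance isAct2 (F : Wt S Λ R J) : IsAct F.act2 univ :=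
  ⟨fun x _ => Prod.ext (F.actL_one _) (Prod.ext (congrArg Prod.snd (F.actT_one (x.1, x.2.1)) :)
      (congrArg Prod.snd (F.actT_one (x.1, x.2.2)) :)),
    fun a b _ _ x _ => Prod.ext (F.actL_mul _ _ _)
      (Prod.ext (congrArg Prod.snd (F.actT_mul a b (x.1, x.2.1)) :)
        (congrArg Prod.snd (F.actT_mul a b (x.1, x.2.2)) :)), fun _ _ _ _ => trivial,
    fun a ha x _ =>
      have h : ∀ q : (J → ℂ) × (J → ℂ) →L[ℂ] J → ℂ, AnalyticAt ℂ (fun p : ((S → ℂ) × (R → ℂ)) ×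
          (Λ → ℂ) × (J → ℂ) × (J → ℂ) => F.actT p.1 (p.2.1, q p.2.2)) (a, x) := fun q =>
        F.an_actT analyticAt_fst ((analyticAt_fst.comp analyticAt_snd).prod
          ((q.analyticAt _).comp (analyticAt_snd.comp analyticAt_snd))) ha
      (analyticAt_fst.comp (h (.fst ℂ _ _))).prod ((analyticAt_snd.comp (h (.fst ℂ _ _))).prod
        (analyticAt_snd.comp (h (.snd ℂ _ _))))⟩

variable {F : Fam S Λ R J K} {K₀ : Set K} {z : (Λ → ℂ) × (J → ℂ)}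

theorem cone2_act (h : F.Inv) {t : (S → ℂ) × (R → ℂ)} (ht : IsUnit t)
    {x : (Λ → ℂ) × (J → ℂ) × (J → ℂ)} (hx : x ∈ F.cone2) : F.act2 t x ∈ F.cone2 :=
  ⟨⟨h.cone_act ht hx.1.1, h.cone_act ht hx.1.2⟩, fun j hj => congrArg (_ * ·) (hx.2 j hj)⟩

theorem lc_cone2 (h : F.Inv) : IsLocallyClosed F.cone2 := by
  refine ((h.lc_cone.preimage (f := fun z : _ × _ × _ => (z.1, z.2.1)) (by fun_prop)).inter
    (h.lc_cone.preimage (f := fun z : _ × _ × _ => (z.1, z.2.2)) (by fun_prop))).inter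
    (IsClosed.isLocallyClosed (s := {z : _ × (J → ℂ) × (J → ℂ) | ∀ j ∉ F.mov, z.2.1 j = z.2.2 j}) ?_)
  simp only [ofPred_forall]
  exact isClosed_iInter fun j => isClosed_iInter fun _ => isClosed_eq (by fun_prop) (by fun_prop)

theorem fp2 [DecidableEq R] (h : F.Good) : FP F.act2 F.cone2 :=
  Tq.fp_of (fun _ ha _ => cone2_act h.toInv ha) (lc_cone2 h.toInv)
    (fun a ha x hx e => by
      have := h.freeB _ (Prod.isUnit_iff.1 ha).1 _ hx.1.1.1 (congrArg Prod.fst e)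
      exact Prod.ext this (h.free _ (Prod.isUnit_iff.1 ha).2 (x.1, x.2.1) hx.1.1
        (this ▸ (congrArg (fun y => (y.1, y.2.1)) e :))))
    fun x a _ _ h1 h2 h3 h4 h5 h6 => h.prp (fun n => ((x n).1, (x n).2.1)) a _ _ h1
      (fun n => (h2 n).1.1) h3.1.1 h4.1.1 (h5.fst_nhds.prodMk_nhds h5.snd_nhds.fst_nhds)
      (h6.fst_nhds.prodMk_nhds h6.snd_nhds.fst_nhds)

theorem an_eqn' (k : K) (z : (Λ → ℂ) × (J → ℂ)) : AnalyticAt ℂ (fun y => F.eqn (z.1, y) k) z.2 :=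
  AnalyticAt.comp (g := fun z => F.eqn z k) (f := fun y => (z.1, y)) (an_eqn k z)
    (analyticAt_const.prod analyticAt_id)

theorem fderiv_eqn (k : K) (η : J → ℂ) :
    fderiv ℂ (fun y => F.eqn (z.1, y) k) z.2 η = ∑ j, F.jac z k j * η j :=
  HasDerivAt.unique ((an_eqn' k z).differentiableAt.hasFDerivAt.hasLineDerivAt η)
    (Vir.hasDerivAt_eval ((F.fib z.1).F k) z.2 η)

theorem ift_gen {L V N C E : Type} [NormedAddCommGroup L] [NormedSpace ℂ L] [FiniteDimensional ℂ L]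
    [NormedAddCommGroup V] [NormedSpace ℂ V] [FiniteDimensional ℂ V] [NormedAddCommGroup N]
    [NormedSpace ℂ N] [FiniteDimensional ℂ N] [NormedAddCommGroup C] [NormedSpace ℂ C]
    [FiniteDimensional ℂ C] [NormedAddCommGroup E] [NormedSpace ℂ E] [FiniteDimensional ℂ E]
    (A : V →L[ℂ] N) {g : L × V → C} {z : L × V} (hg : AnalyticAt ℂ g z) (h0 : g z = 0)
    {Q : V →L[ℂ] E} {D : V →L[ℂ] C} (hD : HasFDerivAt (fun y => g (z.1, y)) D z.2)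
    (hi : ∀ c, A c = 0 → D c = 0 → Q c = 0 → c = 0)
    (hd : finrank ℂ V = finrank ℂ N + (finrank ℂ C + finrank ℂ E)) :
    ∃ σ : E × (L × V) × (V →L[ℂ] E) → V, AnalyticAt ℂ σ (0, z, Q) ∧ σ (0, z, Q) = z.2 ∧
      (∀ᶠ x in 𝓝 (0, z, Q), A (x.2.1.2 - σ x) = 0 ∧ g (x.2.1.1, σ x) = 0 ∧
        x.2.2 (x.2.1.2 - σ x) = x.1) ∧ ∀ᶠ x in 𝓝 (z.2, z, Q), A (x.2.1.2 - x.1) = 0 →
        g (x.2.1.1, x.1) = 0 → σ (x.2.2 (x.2.1.2 - x.1), x.2) = x.1 := by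
  let θ : V × (L × V) × (V →L[ℂ] E) → N × C × E :=
    fun x => (A (x.2.1.2 - x.1), g (x.2.1.1, x.1), x.2.2 (x.2.1.2 - x.1))
  have a0 : AnalyticAt ℂ (fun x : V × (L × V) × (V →L[ℂ] E) => x.2.1.2 - x.1) (z.2, z, Q) :=
    (analyticAt_snd.comp (analyticAt_fst.comp analyticAt_snd)).sub analyticAt_fst
  have a1 : AnalyticAt ℂ θ (z.2, z, Q) := ((A.analyticAt _).comp a0).prod
    ((hg.comp_of_eq (f := fun x : V × (L × V) × (V →L[ℂ] E) => (x.2.1.1, x.1))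
      ((analyticAt_fst.comp (analyticAt_fst.comp analyticAt_snd)).prod analyticAt_fst) rfl).prod
        (((ContinuousLinearMap.id ℂ (V →L[ℂ] E)).analyticAt_bilinear _).comp₂
          (analyticAt_snd.comp analyticAt_snd) a0))
  have a2 : HasFDerivAt (fun y => θ (y, z, Q)) _ z.2 :=
    (A.hasFDerivAt.comp _ ((hasFDerivAt_id _).const_sub z.2)).prodMk
      (hD.prodMk (Q.hasFDerivAt.comp _ ((hasFDerivAt_id _).const_sub z.2)))
  have a3 : θ (z.2, z, Q) = 0 := by simp [θ, h0]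
  obtain ⟨σ, h1, h2, h3, h4⟩ := ift_fibre a1 (by
    rw [a2.fderiv]
    refine bijective_of_injective _ ((injective_iff_map_eq_zero _).2 fun c hc => ?_)
      (by simp only [finrank_prod, hd])
    exact hi c (neg_eq_zero.1 ((map_neg A c).symm.trans (congrArg Prod.fst hc)))
      (congrArg (·.2.1) hc) (neg_eq_zero.1 ((map_neg Q c).symm.trans (congrArg (·.2.2) hc))))
  rw [a3] at h1 h2 h4
  have a4 : AnalyticAt ℂ (fun x : E × (L × V) × (V →L[ℂ] E) => (((0 : N), (0 : C), x.1), x.2))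
      (0, z, Q) := (analyticAt_const.prod (analyticAt_const.prod analyticAt_fst)).prod analyticAt_snd
  refine ⟨fun x => σ ((0, 0, x.1), x.2), h1.comp_of_eq a4 rfl, h2,
    (a4.continuousAt.tendsto.eventually h4).mono fun x b => ⟨congrArg Prod.fst b,
      congrArg (·.2.1) b, congrArg (·.2.2) b⟩, h3.mono fun x hx b1 b2 => Eq.trans ?_ hx⟩
  simp only [θ, b1, b2]

variable (hF : F.Inv) (hR : F.Reg K₀)
include hF hR

theorem exists_inv (hz : z ∈ F.cone) {E : Type} [NormedAddCommGroup E] [NormedSpace ℂ E]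
    [FiniteDimensional ℂ E] (hE : finrank ℂ E = F.dv K₀) {Q : (J → ℂ) →L[ℂ] E}
    (hQ : ∀ w ∈ F.vert z, Q w = 0 → w = 0) :
    ∃ σ : E × ((Λ → ℂ) × (J → ℂ)) × ((J → ℂ) →L[ℂ] E) → J → ℂ, AnalyticAt ℂ σ (0, z, Q) ∧
      σ (0, z, Q) = z.2 ∧ (∀ᶠ x in 𝓝 (0, z, Q), x.2.1 ∈ F.cone →
        (x.2.1.1, x.2.1.2, σ x) ∈ F.cone2 ∧ x.2.2 (x.2.1.2 - σ x) = x.1) ∧
      ∀ᶠ x in 𝓝 (z.2, z, Q), (x.2.1.1, x.2.1.2, x.1) ∈ F.cone2 →
        σ (x.2.2 (x.2.1.2 - x.1), x.2) = x.1 := by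
  classical
  obtain ⟨σ, h1, h2, h3, h4⟩ := ift_gen
    (ContinuousLinearMap.pi fun j : ↥F.movᶜ => (.proj j.1 : (J → ℂ) →L[ℂ] ℂ))
    (g := fun z (k : K₀) => F.eqn z k) (analyticAt_pi_iff.2 fun k => an_eqn k.1 z)
    (funext fun k => (F.mem_cone.1 hz).2.2 k) (Q := Q)
    (hasFDerivAt_pi.2 fun k : K₀ => (an_eqn' k.1 z).differentiableAt.hasFDerivAt)
    (fun c b1 b2 => hQ c (mem_vert.2 ⟨fun j hj => congrFun b1 ⟨j, hj⟩, (hR.jac hF hz).red c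
      (fun j hj => congrFun b1 ⟨j, hj⟩) fun k hk =>
        (fderiv_eqn k c).symm.trans (congrFun b2 ⟨k, hk⟩)⟩)) (by
      have b1 := finrank_vert hF hR hz
      have b2 := set_fintype_card_le_univ F.mov
      rw [finrank_vert' hF hR hz, Nat.card_eq_fintype_card, Nat.card_eq_fintype_card] at b1
      simp only [finrank_fintype_fun_eq_card, hE, Fintype.card_compl_set]
      omega)
  have a6 : Tendsto (fun x : E × ((Λ → ℂ) × (J → ℂ)) × ((J → ℂ) →L[ℂ] E) => (x.2.1.1, σ x))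
      (𝓝 (0, z, Q)) (𝓝 z) :=
    (Continuous.tendsto (by fun_prop) _).prodMk_nhds (h2 ▸ h1.continuousAt.tendsto)
  refine ⟨σ, h1, h2, ?_, h4.mono fun x hx h => hx (funext fun j => sub_eq_zero.2 (h.2 j j.2))
    (funext fun k => (F.mem_cone.1 h.1.2).2.2 k)⟩
  filter_upwards [h3, a6.eventually (hR.cut z hz),
    a6.eventually (hF.openU.mem_nhds (F.mem_cone.1 hz).2.1)] with x b1 b2 b3 hx
  have b4 : ∀ j ∉ F.mov, x.2.1.2 j = σ x j := fun j hj => sub_eq_zero.1 (congrFun b1.1 ⟨j, hj⟩)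
  have b5 := bs_congr hF (F.mem_cone.1 hx).1 b4
  exact ⟨⟨⟨hx, F.mem_cone.2 ⟨b5, b3, b2 b5 fun k hk => congrFun b1.2.1 ⟨k, hk⟩⟩⟩, b4⟩, b1.2.2⟩

theorem exists_germ (hz : z ∈ F.cone) {Q : (J → ℂ) →L[ℂ] Fin (F.dv K₀) → ℂ}
    (hQ : ∀ w ∈ F.vert z, Q w = 0 → w = 0) :
    ∃ (O : Set (Fin (F.dv K₀) → ℂ)) (Φ : (Fin (F.dv K₀) → ℂ) → J → ℂ), IsOpen O ∧ 0 ∈ O ∧
      AnalyticOnNhd ℂ Φ O ∧ Φ 0 = z.2 ∧ (∀ v ∈ O, (z.1, z.2, Φ v) ∈ F.cone2 ∧ Q (z.2 - Φ v) = v) ∧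
      Injective (fderiv ℂ Φ 0) ∧ (fderiv ℂ Φ 0).range = F.vert z := by
  obtain ⟨σ, h1, h2, h3, -⟩ := exists_inv hF hR hz (finrank_fin_fun ℂ) hQ
  have a1 : AnalyticAt ℂ (fun v : Fin (F.dv K₀) → ℂ => (v, z, Q)) 0 :=
    analyticAt_id.prod analyticAt_const
  have a2 := h1.comp_of_eq a1 rfl
  have a3 := (a1.continuousAt.tendsto.eventually h3).mono fun _ h => h hz
  obtain ⟨O, h4, h5, h6⟩ := _root_.eventually_nhds_iff.1 (a2.eventually_analyticAt.and a3)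
  generalize hΦ : (σ ∘ fun v => (v, z, Q)) = Φ at a2 h4
  replace h2 : Φ 0 = z.2 := hΦ ▸ h2
  replace a3 : ∀ᶠ v in 𝓝 0, (z.1, z.2, Φ v) ∈ F.cone2 ∧ Q (z.2 - Φ v) = v := hΦ ▸ a3
  have a4 : Injective (fderiv ℂ Φ 0) := injective_fderiv_of_leftInv (g := fun y => Q (z.2 - y))
    ((Q.analyticAt _).comp (analyticAt_const.sub analyticAt_id)) a2 (a3.mono fun _ h => h.2)
  refine ⟨O, Φ, h5, h6, fun v hv => (h4 v hv).1, h2, fun v hv => hΦ ▸ (h4 v hv).2, a4,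
    Submodule.eq_of_le_of_finrank_eq ?_ ((LinearMap.finrank_range_of_inj a4).trans
      ((finrank_fin_fun ℂ).trans (finrank_vert' hF hR hz).symm))⟩
  have a5 : ∀ {g : (J → ℂ) → ℂ} {c : ℂ}, AnalyticAt ℂ g z.2 → (∀ᶠ v in 𝓝 0, g (Φ v) = c) → ∀ v,
      fderiv ℂ g z.2 (fderiv ℂ Φ 0 v) = 0 := fun {g c} b1 b2 v => by
    have := fderiv_comp_an (h2 ▸ b1) a2
    rw [EventuallyEq.fderiv_eq b2, fderiv_fun_const, h2] at this
    exact (congrArg (· v) this).symm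
  rintro _ ⟨v, rfl⟩
  refine mem_vert.2 ⟨fun j hj => ?_, fun k => (fderiv_eqn k _).symm.trans (a5 (an_eqn' k z)
    (a3.mono fun _ h => (F.mem_cone.1 h.1.1.2).2.2 k) v)⟩
  have := a5 ((ContinuousLinearMap.proj j : (J → ℂ) →L[ℂ] ℂ).analyticAt _)
    (a3.mono fun _ h => (h.1.2 j hj).symm) v
  rwa [ContinuousLinearMap.fderiv] at this

end Vale.Agent.P269.DgB
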