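import Vale.Agent.P269.Spl.MultB0

/-!
# Local values of Gysin pull-backs along fibre products
-/

namespace Vale.Agent.P269.FpB

open P291Z Set Function Topology Filter Holo Orb MultB

variable {X X₁ X₂ Y : Type} [TopologicalSpace X] [TopologicalSpace X₁] [TopologicalSpace X₂]
  [TopologicalSpace Y] {m k n d b : ℕ}

theorem li_of_ev {Z : Type} {f : X → Z} {x : X}
    (h : ∀ᶠ p in 𝓝 x ×ˢ 𝓝 x, f p.1 = f p.2 → p.1 = p.2) : Osg.LI f x :=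
  let ⟨U, h1, h2⟩ := (eventually_prod_self_iff (r := fun a b => f a = f b → a = b)).1 h
  ⟨U, h1, fun _ ha _ hb => h2 _ ha _ hb⟩

theorem locFin_prod (h₁ : Soft.LocFin (univ : Set X₁)) (h₂ : Soft.LocFin (univ : Set X₂)) :
    Soft.LocFin (univ : Set (X₁ × X₂)) := fun x _ => by
  obtain ⟨N, a1, D, f, a2, a3⟩ := h₁ x.1 trivial
  obtain ⟨N', b1, D', g, b2, b3⟩ := h₂ x.2 trivial
  refine ⟨N ×ˢ N', prod_mem_nhds a1 b1, D + D', fun y => Fin.append (f y.1) (g y.2),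
    continuousOn_pi.2 fun i => ?_, fun y hy z hz e => ?_⟩
  · refine Fin.addCases (fun i => ?_) (fun i => ?_) i
    · simp only [Fin.append_left]
      exact continuousOn_pi.1 (a2.comp continuousOn_fst fun _ h => h.1) i
    · simp only [Fin.append_right]
      exact continuousOn_pi.1 (b2.comp continuousOn_snd fun _ h => h.2) i
  · refine Prod.ext (a3 hy.1 hz.1 (funext fun i => ?_)) (b3 hy.2 hz.2 (funext fun i => ?_))
    · simpa only [Fin.append_left] using congrFun e (Fin.castAdd _ i)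
    · simpa only [Fin.append_right] using congrFun e (Fin.natAdd _ i)

/-- The two groups of coordinates. -/
def sp (m k : ℕ) (z : Fin (m + k) → ℂ) : (Fin m → ℂ) × (Fin k → ℂ) :=
  (fun i => z (Fin.castAdd k i), fun i => z (Fin.natAdd m i))

theorem sp_append (v : Fin m → ℂ) (w : Fin k → ℂ) : sp m k (Fin.append v w) = (v, w) :=
  Prod.ext (funext fun i => Fin.append_left _ _ i) (funext fun i => Fin.append_right _ _ i)

theorem lh_sp : LH (sp m k) 0 := (isHomeomorph_append (E := ℂ) m k).isOpenEmbedding.lh 0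

theorem an_sp : AnalyticAt ℂ (sp m k) 0 :=
  (analyticAt_pi_iff.2 fun i => (ContinuousLinearMap.proj (R := ℂ) (φ := fun _ => ℂ)
    (Fin.castAdd k i)).analyticAt _).prod (analyticAt_pi_iff.2 fun i =>
      (ContinuousLinearMap.proj (R := ℂ) (φ := fun _ => ℂ) (Fin.natAdd m i)).analyticAt _)

variable {ψ₁ : (Fin m → ℂ) → X₁} {ψ₂ : (Fin k → ℂ) → X₂} {β₁ : BM X₁} {β₂ : BM X₂}

theorem lh_pc (h₁ : LH ψ₁ 0) (h₂ : LH ψ₂ 0) : LH (Prod.map ψ₁ ψ₂ ∘ sp m k) 0 :=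
  LH.comp' (g := Prod.map ψ₁ ψ₂) (h₁.prodMap h₂) lh_sp rfl

variable [Nice X] [Nice X₁] [Nice X₂] [Nice Y]

theorem val_pc (h₁ : LH ψ₁ 0) (h₂ : LH ψ₂ 0) (v₁ : Val β₁ ψ₁ 1) (v₂ : Val β₂ ψ₂ 1) :
    Val (cross Prod.fst Prod.snd β₁ β₂) (Prod.map ψ₁ ψ₂ ∘ sp m k) 1 := by
  obtain ⟨a, a1, a2⟩ := (gch_of_lh h₁).gen
  obtain ⟨c, c1, c2⟩ := (gch_of_lh h₂).gen
  have a3 := Zc_of_pt a1.cyc a1.pt
  have c3 := Zc_of_pt c1.cyc c1.pt
  refine val_of_one (lh_pc h₁ h₂) (a := pull Prod.fst a * pull Prod.snd c)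
    (cross_Zc (IsPr.of_isHomeomorph isHomeomorph_prod) a3 c3).2 (fun y hy => Prod.ext
      (a1.pt (supp_pull continuous_fst _ (supp_mul _ _ hy).1))
      (c1.pt (supp_pull continuous_snd _ (supp_mul _ _ hy).2))) ?_ ?_
  · have := a2.cross c2 (c1.deg.pull _)
    rw [one_mul, pull_pull, pull_pull] at this
    rwa [map_mul, pull_pull, pull_pull]
  · rw [cross_spec isHomeomorph_prod β₁ β₂ a a3 c c3, ← one_mul (ev β₁ a), ← one_mul (ev β₂ c),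
      v₁ a 1 a1.cyc a1.pt a2, v₂ c 1 c1.cyc c1.pt c2, one_mul]

theorem val_of_li (h₁ : LH ψ₁ 0) (h₂ : LH ψ₂ 0) (v₁ : Val β₁ ψ₁ 1) (v₂ : Val β₂ ψ₂ 1)
    (e : n = m + k) {Θ₁ : (Fin n → ℂ) → Fin m → ℂ} {Θ₂ : (Fin n → ℂ) → Fin k → ℂ}
    (a₁ : AnalyticAt ℂ Θ₁ 0) (a₂ : AnalyticAt ℂ Θ₂ 0) (z₁ : Θ₁ 0 = 0) (z₂ : Θ₂ 0 = 0)
    (hi : Osg.LI (fun z => (ψ₁ (Θ₁ z), ψ₂ (Θ₂ z))) 0) :
    PCh (fun z => (ψ₁ (Θ₁ z), ψ₂ (Θ₂ z))) ∧
      Val (cross Prod.fst Prod.snd β₁ β₂) (fun z => (ψ₁ (Θ₁ z), ψ₂ (Θ₂ z))) 1 := by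
  subst e
  have e : ∀ z, (ψ₁ (Θ₁ z), ψ₂ (Θ₂ z)) = (Prod.map ψ₁ ψ₂ ∘ sp m k) (Fin.append (Θ₁ z) (Θ₂ z)) :=
    fun z => by rw [Function.comp_apply, sp_append]; rfl
  have r : Rep (fun z => (ψ₁ (Θ₁ z), ψ₂ (Θ₂ z))) (Prod.map ψ₁ ψ₂ ∘ sp m k) := by
    refine ⟨fun z => Fin.append (Θ₁ z) (Θ₂ z), posGerm_of_li (by rw [z₁, z₂, append_zero])
      (analyticAt_pi_iff.2 fun i => ?_) (li_of_comp (g := Prod.map ψ₁ ψ₂ ∘ sp m k)
        (li_congr hi (.of_forall fun z => (e z).symm))), .of_forall e⟩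
    refine Fin.addCases (fun i => ?_) (fun i => ?_) i
    · simpa only [Fin.append_left] using analyticAt_pi_iff.1 a₁ i
    · simpa only [Fin.append_right] using analyticAt_pi_iff.1 a₂ i
  have p := (gch_of_lh (lh_pc h₁ h₂)).pch
  exact ⟨r.pch p, r.val p (val_pc h₁ h₂ v₁ v₂)⟩

variable {i : X → X₁ × X₂} {p₁ : X₁ → Y} {p₂ : X₂ → Y} {Δ : Coch (Y × Y)} {ψ : (Fin d → ℂ) → X}
  {σ : (Fin b → ℂ) → Y} {Θ₁ : (Fin d → ℂ) → Fin m → ℂ}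
  {Θ₂ : (Fin d → ℂ) × (Fin b → ℂ) → Fin k → ℂ} {r : (Fin d → ℂ) → Fin b → ℂ}

/-- Local data for a fibre product. -/
structure Dat (i : X → X₁ × X₂) (p₁ : X₁ → Y) (p₂ : X₂ → Y) (β₁ : BM X₁) (β₂ : BM X₂)
    (ψ : (Fin d → ℂ) → X) (σ : (Fin b → ℂ) → Y) (ψ₁ : (Fin m → ℂ) → X₁) (ψ₂ : (Fin k → ℂ) → X₂)
    (Θ₁ : (Fin d → ℂ) → Fin m → ℂ) (Θ₂ : (Fin d → ℂ) × (Fin b → ℂ) → Fin k → ℂ)
    (r : (Fin d → ℂ) → Fin b → ℂ) : Prop where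
  dim : d + b = m + k
  emb : IsClosedEmbedding i
  c₁ : Continuous p₁
  c₂ : Continuous p₂
  rng : ∀ x : X₁ × X₂, p₁ x.1 = p₂ x.2 → x ∈ range i
  l : LH ψ 0
  l₀ : LH σ 0
  l₁ : LH ψ₁ 0
  l₂ : LH ψ₂ 0
  v₁ : Val β₁ ψ₁ 1
  v₂ : Val β₂ ψ₂ 1
  a₁ : AnalyticAt ℂ Θ₁ 0
  a₂ : AnalyticAt ℂ Θ₂ 0
  z₁ : Θ₁ 0 = 0
  z₂ : Θ₂ 0 = 0
  r₀ : Tendsto r (𝓝 0) (𝓝 0)
  r₁ : r 0 = 0
  e : ∀ᶠ v in 𝓝 0, i (ψ v) = (ψ₁ (Θ₁ v), ψ₂ (Θ₂ (v, 0)))
  e₁ : ∀ᶠ v in 𝓝 0, p₁ (ψ₁ (Θ₁ v)) = σ (r v)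
  e₂ : ∀ᶠ q in 𝓝 0, p₂ (ψ₂ (Θ₂ q)) = σ (r q.1 + q.2)
  inj : ∀ᶠ q in 𝓝 0 ×ˢ 𝓝 0, q.1.2 = q.2.2 → r q.1.1 = r q.2.1 → ψ₂ (Θ₂ q.1) = ψ₂ (Θ₂ q.2) →
    ψ₂ (Θ₂ (q.1.1, 0)) = ψ₂ (Θ₂ (q.2.1, 0))

omit [TopologicalSpace X] [Nice X] [Nice X₁] [Nice X₂] [Nice Y] in
theorem isCo_pull (c₁ : Continuous p₁) (c₂ : Continuous p₂)
    (e : ∀ x : X₁ × X₂, p₁ x.1 = p₂ x.2 → x ∈ range i) (hΔ : IsCo (range fun x => (x, x)) b Δ) :
    IsCo (range i) b (pull (Prod.map p₁ p₂) Δ) :=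
  ⟨cocycle_pull (c₁.prodMap c₂) hΔ.cocycle, hΔ.deg.pull _, fun x hx =>
    let ⟨_, hy⟩ := hΔ.supp (supp_pull (c₁.prodMap c₂) _ hx)
    e x ((congrArg Prod.fst hy).symm.trans (congrArg Prod.snd hy))⟩

theorem Dat.ev (h : Dat i p₁ p₂ β₁ β₂ ψ σ ψ₁ ψ₂ Θ₁ Θ₂ r) (hΔ : IsCo (range fun x => (x, x)) b Δ)
    {c : ℂ} (hc : LocCo (pull (fun w => (σ 0, σ w)) Δ) c) {a : Coch X}
    (h1 : PtGen (2 * d) (ψ 0) a) (h2 : LocCo (pull ψ a) 1) :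
    P291Z.ev (gys i (pull (Prod.map p₁ p₂) Δ) (cross Prod.fst Prod.snd β₁ β₂)) a = c := by
  have t1 : Tendsto (fun q : (Fin d → ℂ) × (Fin b → ℂ) => q.1) (𝓝 0) (𝓝 0) :=
    continuous_fst.tendsto 0
  have t2 : Tendsto (fun q : (Fin d → ℂ) × (Fin b → ℂ) => r q.1 + q.2) (𝓝 0) (𝓝 0) := by
    have := (h.r₀.comp t1).add (continuous_snd.tendsto' 0 0 rfl)
    rwa [add_zero] at this
  have t3 := h.r₀.comp t1
  have li : Osg.LI (fun q => (ψ₁ (Θ₁ q.1), ψ₂ (Θ₂ q))) (0 : (Fin d → ℂ) × (Fin b → ℂ)) := by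
    refine li_of_ev ?_
    have u1 := t1.eventually (h.e.and h.e₁)
    filter_upwards [tendsto_fst.eventually (u1.and h.e₂), tendsto_snd.eventually (u1.and h.e₂),
      h.inj, (t1.prodMap t1).eventually h.l.eventually_inj,
      (t2.prodMap t2).eventually h.l₀.eventually_inj,
      (t3.prodMap t3).eventually h.l₀.eventually_inj] with q k1 k2 k3 k4 k5 k6 e
    obtain ⟨e1, e2⟩ := Prod.ext_iff.1 e
    have k7 : r q.1.1 = r q.2.1 := k6 (k1.1.2.symm.trans ((congrArg p₁ e1).trans k2.1.2))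
    have k8 : r q.1.1 + q.1.2 = r q.2.1 + q.2.2 :=
      k5 (k1.2.symm.trans ((congrArg p₂ e2).trans k2.2))
    rw [k7, add_right_inj] at k8
    exact Prod.ext (k4 (h.emb.injective (k1.1.1.trans
      ((congrArg₂ Prod.mk e1 (k3 k8 k7 e2)).trans k2.1.1.symm)))) k8
  obtain ⟨k1, k2⟩ := val_of_li h.l₁ h.l₂ h.v₁ h.v₂ h.dim (Θ₁ := fun z => Θ₁ (sp d b z).1)
    (Θ₂ := fun z => Θ₂ (sp d b z)) (h.a₁.comp_of_eq (analyticAt_fst.comp an_sp) rfl)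
    (h.a₂.comp_of_eq an_sp rfl) h.z₁ h.z₂ (Osg.LI.comp (f := sp d b) li (li_of_lh lh_sp) lh_sp.cont)
  have := k2.ev_gys h.emb (isCo_pull h.c₁ h.c₂ h.rng hΔ) k1 (ψ := ψ) (d := c)
    (h.e.mono fun v hv => by simpa only [sp_append] using hv) ?_ ?_ h1.cyc h1.pt h1.deg h2
  · rwa [one_mul, one_mul] at this
  · filter_upwards [t1.eventually h.e₁, h.e₂, (t3.prodMk t2).eventually h.l₀.eventually_inj]
      with q k3 k4 k5 e
    simp only [sp_append] at e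
    obtain ⟨y, hy⟩ := hΔ.supp (supp_pull (h.c₁.prodMap h.c₂) _ e)
    exact left_eq_add.1 (k5 (k3.symm.trans (((congrArg Prod.fst hy).symm.trans
      (congrArg Prod.snd hy)).trans k4)))
  · rw [pull_pull]
    refine hc.pull_congr ?_
    filter_upwards [((continuous_const.prodMk continuous_id).tendsto' 0 0 rfl).eventually h.e₂]
      with w hw
    have := h.e₁.self_of_nhds
    rw [h.r₁] at this
    simp only [h.r₁, zero_add, id] at hw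
    simp only [sp_append, Function.comp_apply, Prod.map_apply, this, hw]

theorem emb_diag : IsClosedEmbedding fun x : Y => (x, x) :=
  LeftInverse.isClosedEmbedding (f := Prod.fst) (fun _ => rfl) continuous_fst
    (continuous_id.prodMk continuous_id)

theorem locCo_diag {β : BM Y} (hΔ : IsCo (range fun x => (x, x)) b Δ)
    (hg : gys (fun x => (x, x)) Δ (cross Prod.fst Prod.snd β β) = β) (h : LH σ 0)
    (v : Val β σ 1) : LocCo (pull (fun w => (σ 0, σ w)) Δ) 1 := by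
  obtain ⟨c, hc⟩ : ∃ c, LocCo (pull (fun w => (σ 0, σ w)) Δ) c := by
    refine IsLoc.exists_locCo ?_
    filter_upwards [h.eventually_cont, (gch_of_lh h).pch] with z k1 k2
    have k3 : ContinuousAt (fun w => (σ 0, σ w)) z := continuousAt_const.prodMk k1
    refine ⟨by rw [δ_pull]; exact Van.pull k3 (supp_eq_empty.1 hΔ.cocycle _),
      fun h0 => Van.pull k3 fun h' => ?_⟩
    obtain ⟨y, hy⟩ := hΔ.supp h'
    exact h0 (k2.2 ((congrArg Prod.snd hy).symm.trans (congrArg Prod.fst hy)))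
  obtain ⟨a, a1, a2⟩ := (gch_of_lh h).gen
  have D : Dat (fun x => (x, x)) id id β β σ σ σ σ id (fun q => q.1 + q.2) id :=
    ⟨rfl, emb_diag, continuous_id, continuous_id,
      fun x hx => ⟨x.1, Prod.ext rfl hx⟩, h, h, h, h, v, v, analyticAt_id,
      analyticAt_fst.add analyticAt_snd, rfl, add_zero _, tendsto_id, rfl,
      .of_forall fun z => by rw [add_zero]; rfl, .of_forall fun _ => rfl, .of_forall fun _ => rfl,
      .of_forall fun q _ e _ => congrArg (fun z => σ (z + 0)) e⟩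
  have := D.ev hΔ hc a1 a2
  rw [Prod.map_id, pull_id, hg] at this
  rwa [← this, ← one_mul (ev β a), v a 1 a1.cyc a1.pt a2] at hc

theorem Dat.val (h : Dat i p₁ p₂ β₁ β₂ ψ σ ψ₁ ψ₂ Θ₁ Θ₂ r) {β : BM Y}
    (hΔ : IsCo (range fun x => (x, x)) b Δ)
    (hg : gys (fun x => (x, x)) Δ (cross Prod.fst Prod.snd β β) = β) (v : Val β σ 1) :
    Val (gys i (pull (Prod.map p₁ p₂) Δ) (cross Prod.fst Prod.snd β₁ β₂)) ψ 1 :=
  let ⟨_, a1, a2⟩ := (gch_of_lh h.l).gen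
  val_of_one h.l a1.cyc a1.pt a2 (h.ev hΔ (locCo_diag hΔ hg h.l₀ v) a1 a2)

/-- existence of the class of the diagonal -/
theorem exists_diag {β : BM Y} (hβ : Ori (2 * b) β)
    (h : ∀ y, ∃ σ : (Fin b → ℂ) → Y, σ 0 = y ∧ LH σ 0 ∧ Val β σ 1) :
    ∃ Δ, IsCo (range fun x => (x, x)) b Δ ∧
      gys (fun x => (x, x)) Δ (cross Prod.fst Prod.snd β β) = β := by
  have o : Ori (2 * (b + b : ℕ)) (cross Prod.fst Prod.snd β β) := by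
    refine ⟨(by push_cast; ring : (2 * b + 2 * b : ℤ) = 2 * (b + b : ℕ)) ▸
      BM.IsDeg.cross isHomeomorph_prod hβ.deg hβ.deg, locFin_prod hβ.fin hβ.fin, fun x => ?_⟩
    obtain ⟨σ, s1, s2, s3⟩ := h x.1
    obtain ⟨σ', t1, t2, t3⟩ := h x.2
    obtain ⟨a, a1, a2⟩ := (gch_of_lh (lh_pc s2 t2)).gen
    exact ⟨a, (Prod.ext s1 t1 : (Prod.map σ σ' ∘ sp b b) 0 = x) ▸ a1,
      right_ne_zero_of_mul_eq_one (val_pc s2 t2 s3 t3 a 1 a1.cyc a1.pt a2)⟩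
  obtain ⟨t, h1, h2, h3, h4⟩ := o.exists_gys emb_diag hβ.deg
  exact ⟨t, ⟨h1, h3.cast (by push_cast; ring), h2⟩, h4⟩

end Vale.Agent.P269.FpB
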