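import Vale.Agent.P269.Glu.FpA
import Vale.Agent.P269.Glu.Vr
import Vale.Agent.P269.Map.GyB

set_option linter.unusedSectionVars false
set_option linter.style.haveILetI false

/-!
# Fibre products of actions: sums of Kuranishi data
-/

namespace Vale.Agent.P269

open Set Function Topology Filter Module P291Z Holo Ch Ch.KD

variable {A A₀ A₁ A₂ W W₀ W₁ U P₁ P₂ : Type} [NormedRing A] [NormedAlgebra ℂ A] [NormedRing A₀]
  [NormedAlgebra ℂ A₀] [NormedRing A₁] [NormedAlgebra ℂ A₁] [NormedRing A₂] [NormedAlgebra ℂ A₂]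
  [NormedAddCommGroup W] [NormedSpace ℂ W] [NormedAddCommGroup W₀] [NormedSpace ℂ W₀]
  [NormedAddCommGroup W₁] [NormedSpace ℂ W₁] [NormedAddCommGroup U] [NormedSpace ℂ U]
  [FiniteDimensional ℂ A] [FiniteDimensional ℂ A₀] [FiniteDimensional ℂ A₁] [FiniteDimensional ℂ A₂]
  [FiniteDimensional ℂ W] [FiniteDimensional ℂ W₀] [FiniteDimensional ℂ W₁] [FiniteDimensional ℂ U]
  [AddCommGroup P₁] [Module ℂ P₁] [TopologicalSpace P₁] [IsTopologicalAddGroup P₁]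
  [ContinuousSMul ℂ P₁] [T2Space P₁] [AddCommGroup P₂] [Module ℂ P₂] [TopologicalSpace P₂]
  [IsTopologicalAddGroup P₂] [ContinuousSMul ℂ P₂] [T2Space P₂] {n₁ r₁ n₂ r₂ b d : ℕ}

namespace FpC

section lin

variable {P P' : Type} [AddCommGroup P] [Module ℂ P] [AddCommGroup P'] [Module ℂ P']
  (S : Submodule ℂ P) (S' : Submodule ℂ P')

theorem range_prod : LinearMap.range (S.subtype.prodMap S'.subtype) = S.prod S' := by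
  rw [LinearMap.range_prodMap, Submodule.range_subtype, Submodule.range_subtype]

variable [FiniteDimensional ℂ S] [FiniteDimensional ℂ S']

theorem fin_prod : FiniteDimensional ℂ (S.prod S') := range_prod S S' ▸ inferInstance

theorem finrank_prod : finrank ℂ (S.prod S') = finrank ℂ S + finrank ℂ S' := by
  rw [← Module.finrank_prod, ← LinearMap.finrank_range_of_inj (f := S.subtype.prodMap S'.subtype)
    (S.injective_subtype.prodMap S'.injective_subtype), range_prod]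

end lin

/-- the sum of presentations presents the sum -/
theorem isKP_sum {D₁ : KD A W P₁} {D₂ : KD A W P₂} {Y : Ch.Sp} {th : Y.G → A} {μ : Y.T → W}
    {k₁ k₂ : KP Y} {i₁ : k₁.P.W →ₗ[ℂ] P₁} {i₂ : k₂.P.W →ₗ[ℂ] P₂} (h₁ : D₁.IsKP Y th μ k₁ i₁)
    (h₂ : D₂.IsKP Y th μ k₂ i₂) : (D₁.sum D₂).IsKP Y th μ (k₁.sum k₂) (i₁.prodMap i₂) :=
  ⟨h₁.emb.prodMap h₂.emb, (LinearMap.range_prodMap i₁ i₂).trans
      (congrArg₂ (fun S S' => S.prod S') h₁.range h₂.range :),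
    fun t => eq_top_iff.2 fun w _ => ⟨h₁.memF t w.1, h₂.memF t w.2⟩,
    fun g w => Prod.ext (h₁.eqv g w.1) (h₂.eqv g w.2),
    fun t w => and_congr (h₁.van t w.1) (h₂.van t w.2), fun t => Prod.ext (h₁.sec t) (h₂.sec t),
    fun t ht w => and_congr (h₁.obs t ht.1 w.1) (h₂.obs t ht.2 w.2)⟩

/-- presentations pull back along equivariant maps -/
theorem exists_mor {act : A → W → W} {act₁ : A₁ → W₁ → W₁} {D : KD A W P₂} {D₁ : KD A₁ W₁ P₁}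
    {Z S O : Set W} {Z₁ S₁ O₁ : Set W₁} (h : D.Dom act Z S O) (h₁ : D₁.Dom act₁ Z₁ S₁ O₁)
    {θ : A → A₁} {f : W → W₁} (hf : EqM act act₁ O O₁ θ f) {k : KP h₁.sp} {i : k.P.W →ₗ[ℂ] P₁}
    (hk : h₁.IsKP k i) : ∃ m : Mor h.sp h₁.sp, ⇑hf.map = m.map ∧
      (D₁.pb θ f).IsKP h.sp h.pres.u h.pres.i (k.pb m) i := by
  obtain ⟨θ', c, e⟩ := hf.hom
  let m : Mor h.sp h₁.sp := ⟨θ', fun x => ⟨f x.1, hf.maps x.2⟩, c,
    hf.cont.domRestrict.subtype_mk _, fun (g : Aˣ) x =>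
      Subtype.ext ((hf.eqv _ g.isUnit _ x.2).trans (congrArg (act₁ · _) (e g).symm))⟩
  exact ⟨m, m.map_eq fun _ => rfl, isKP_pb.2 ((funext e : _ = _) ▸ hk.pb m)⟩

/-- the zero section of a total space -/
theorem bun {act₀ : A → W → W} {ρ : A → U → U} {act : A → W × U → W × U}
    (e : ∀ a y, act a y = (act₀ a y.1, ρ a y.2)) [IsAct act univ] (S : Set W) :
    Bun act act₀ (S ×ˢ {0}) S (.id ℂ A) Prod.fst :=
  ⟨⟨rfl, fun _ _ => rfl, surjective_id, fun b hb => ⟨b, hb, rfl⟩, fun _ hx => hx.1,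
      fun _ _ => ⟨Prod.fst, analyticAt_fst, .of_forall fun _ => rfl⟩,
      fun a _ x _ => congrArg Prod.fst (e a x), fun x hx _ hy h => ⟨1, isUnit_one, rfl,
        (IsAct.one x (mem_univ _)).trans (Prod.ext h (hx.2.trans hy.2.symm))⟩,
      fun _ _ _ _ h _ => h⟩,
    fun _ _ _ _ h _ _ => tendsto_const_nhds.congr fun n => (h n).2.2.symm,
    fun _ hx => ⟨fun y => (y, 0), analyticAt_id.prod analyticAt_const, Prod.ext rfl hx.2.symm,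
      eventually_mem_nhdsWithin.mono fun _ hy => ⟨⟨hy, rfl⟩, rfl⟩⟩⟩

end FpC

theorem Ch.KD.Ok.sum {act : A → W → W} {O : Set W} {D₁ : KD A W P₁} {D₂ : KD A W P₂}
    (h₁ : D₁.Ok act O n₁ r₁) (h₂ : D₂.Ok act O n₂ r₂) :
    (D₁.sum D₂).Ok act O (n₁ + n₂) (r₁ + r₂) := by
  haveI := h₁.fin
  haveI := h₂.fin
  have c₁ : Continuous fun z : O × P₁ × P₂ => (z.1, z.2.1) := continuous_id.prodMap continuous_fst
  have c₂ : Continuous fun z : O × P₁ × P₂ => (z.1, z.2.2) := continuous_id.prodMap continuous_snd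
  refine ⟨FpC.fin_prod _ _, ⟨fun a ha q hq => ⟨h₁.rep.mem a ha _ hq.1, h₂.rep.mem a ha _ hq.2⟩,
      fun a ha q hq q' hq' =>
        Prod.ext (h₁.rep.add a ha _ hq.1 _ hq'.1) (h₂.rep.add a ha _ hq.2 _ hq'.2),
      fun a ha z q hq => Prod.ext (h₁.rep.smul a ha z _ hq.1) (h₂.rep.smul a ha z _ hq.2),
      fun q hq => Prod.ext (h₁.rep.one _ hq.1) (h₂.rep.one _ hq.2),
      fun a b ha hb q hq => Prod.ext (h₁.rep.mul a b ha hb _ hq.1) (h₂.rep.mul a b ha hb _ hq.2),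
      fun q hq => (h₁.rep.cont _ hq.1).prodMk (h₂.rep.cont _ hq.2)⟩,
    ⟨fun x hx q hq => ⟨h₁.fam.le x hx hq.1, h₂.fam.le x hx hq.2⟩,
      (h₁.fam.closed.preimage c₁).inter (h₂.fam.closed.preimage c₂), fun x hx => ?_,
      fun x hx a ha q hq => ⟨h₁.fam.inv x hx a ha _ hq.1, h₂.fam.inv x hx a ha _ hq.2⟩⟩,
    fun x hx => ⟨h₁.mem x hx, h₂.mem x hx⟩, h₁.cont.prodMk h₂.cont,
    fun x hx a ha => Prod.ext (h₁.eqv x hx a ha) (h₂.eqv x hx a ha),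
    VrA.clo_iff ((h₁.obs_closed.preimage c₁).inter (h₂.obs_closed.preimage c₂))
      fun _ => and_and_and_comm, fun x hx hs => ?_,
    fun x hx hs a ha q hq => ⟨h₁.obs_inv x hx hs.1 a ha _ hq.1, h₂.obs_inv x hx hs.2 a ha _ hq.2⟩,
    fun x hx hs q hq => ⟨h₁.le_obs x hx hs.1 hq.1, h₂.le_obs x hx hs.2 hq.2⟩,
    fun x hx hs q hq => ⟨h₁.obs_le x hx hs.1 hq.1, h₂.obs_le x hx hs.2 hq.2⟩,
    fun x hx hs w y c u a1 a2 a3 a4 =>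
      ⟨h₁.cone x hx hs.1 w.1 y c (fun n => (u n).1) a1 a2 (fun n => (a3 n).1)
        ((continuous_fst.tendsto w).comp a4),
      h₂.cone x hx hs.2 w.2 y c (fun n => (u n).2) a1 a2 (fun n => (a3 n).2)
        ((continuous_snd.tendsto w).comp a4)⟩⟩
  · haveI := Submodule.finiteDimensional_of_le (h₁.fam.le x hx)
    haveI := Submodule.finiteDimensional_of_le (h₂.fam.le x hx)
    exact (FpC.finrank_prod _ _).trans (congrArg₂ _ (h₁.fam.rank x hx) (h₂.fam.rank x hx))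
  · haveI := Submodule.finiteDimensional_of_le (h₁.obs_le x hx hs.1)
    haveI := Submodule.finiteDimensional_of_le (h₂.obs_le x hx hs.2)
    exact ((FpC.finrank_prod _ _).trans (congrArg₂ _ (h₁.obs_rank x hx hs.1)
      (h₂.obs_rank x hx hs.2))).trans (add_add_add_comm _ _ _ _)

/-- **total spaces of representations over cycles** -/
theorem Ch.KD.Gd.vr_prod {act₀ : A → W → W} [IsAct act₀ univ] {ρ : A → U → U}
    (rep : IsRepOn ρ ⊤) {act : A → W × U → W × U} (e : ∀ a y, act a y = (act₀ a y.1, ρ a y.2))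
    [IsAct act univ] {D₁ : KD A (W × U) P₁} {D₀ : KD A W P₂} {O₁ : Set (W × U)} {Z₀ O₀ M : Set W}
    (h₁ : D₁.Gd act (Z₀ ×ˢ {0}) O₁ n₁ r₁) (h₀ : D₀.Gd act₀ Z₀ O₀ n₂ r₂) [Nice (Quo act₀ Z₀)]
    (hc : Cyc act₀ O₀ M d) (ho : ∃ V, IsOpen V ∧ O₁ = Prod.fst ⁻¹' O₀ ∩ V) {L : P₁ →ₗ[ℂ] P₂}
    {E : W × U → U →ₗ[ℂ] P₁}
    (t : Tt D₁ (D₀.pb id Prod.fst) act ρ (.inl ℂ W U ∘L .fst ℂ W U) (.snd ℂ W U) (Z₀ ×ˢ {0})
      (Z₀ ×ˢ {0}) O₁ L E 0) (hr : Z₀.Nonempty → r₁ = finrank ℂ U + r₂)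
    (f : EqM act act₀ (Z₀ ×ˢ {0}) Z₀ id Prod.fst) :
    Cyc act O₁ (Prod.fst ⁻¹' M ∩ O₁) (d + finrank ℂ U) ∧ IsHomeomorph f.map ∧
      res f.map (D₀.vr act₀ Z₀ O₀ (h₀.fu d)) =
        D₁.vr act (Z₀ ×ˢ {0}) O₁ (h₁.fu (d + finrank ℂ U)) := by
  have z : ∀ a, IsUnit a → ρ a 0 = 0 := fun a ha =>
    ((congrArg _ (zero_smul ℂ 0)).symm.trans (rep.smul a ha 0 0 trivial)).trans (zero_smul ℂ _)
  have s : Spt act ρ (.inl ℂ W U ∘L .fst ℂ W U) (.snd ℂ W U) (.inr ℂ W U) :=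
    ⟨fun x => Prod.ext (add_zero x.1) (zero_add x.2), fun _ => rfl, rep, fun a ha x =>
      Eq.trans (b := (act₀ a x.1, ρ a 0)) (Prod.ext (congrArg Prod.fst (e a x) :) (z a ha).symm)
        (e a (x.1, 0)).symm,
      fun a _ x => congrArg Prod.snd (e a x)⟩
  have hB := FpC.bun e O₀
  have hi : Ivt act (O₀ ×ˢ {0}) := fun a ha x hx => e a x ▸
    ⟨h₀.ivt a ha _ hx.1, (congrArg _ hx.2).trans (z a ha)⟩
  have hl : IsLocallyClosed (O₀ ×ˢ ({0} : Set U)) :=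
    (h₀.lc.preimage continuous_fst).inter (isClosed_singleton.preimage continuous_snd).isLocallyClosed
  haveI := h₀.dom.isAct
  haveI : IsAct act (O₀ ×ˢ {0}) := IsAct.mono inferInstance (subset_univ _) hi
  haveI := FiniteDimensional.proper ℂ (W × U)
  haveI : LocallyCompactSpace (O₀ ×ˢ ({0} : Set U)) := hl.locallyCompactSpace
  haveI : Nice (Holo.Sp act (O₀ ×ˢ {0})) := ⟨inferInstance, inferInstance, inferInstance⟩
  haveI := h₀.nice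
  haveI := h₁.niceZ
  have g : (D₀.pb id Prod.fst).Gd act (Z₀ ×ˢ {0}) (O₀ ×ˢ {0}) n₂ r₂ :=
    ⟨⟨prod_mono_left h₀.dom.sub, ⟨_, isOpen_univ, (inter_univ _).symm⟩, ‹_›,
      h₀.dom.orb.of_map hB.toEt.continuous_F fun a x => Holo.Sp.ext (congrArg Prod.fst (e a x.val)),
      fun x hx => (h₀.dom.zero _ hx.1).trans (and_iff_left hx.2).symm⟩,
      h₀.ok.pb' (.same hB.maps continuousOn_fst hB.eqv)⟩
  have c := hB.cyc hi h₀.ivt Subset.rfl hc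
  rw [inter_eq_left.2 hB.maps.subset_preimage] at c
  obtain ⟨V, hV, hO⟩ := ho
  have a1 : O₁ = (ContinuousLinearMap.inl ℂ W U ∘L .fst ℂ W U) ⁻¹' (O₀ ×ˢ {0}) ∩ V :=
    hO.trans (Set.ext fun _ => and_congr_left' (and_iff_left rfl).symm)
  have a2 := s.cyc (fun _ hx => hx.2) c hV (a1 ▸ h₁.ivt)
  have a3 : (ContinuousLinearMap.inl ℂ W U ∘L .fst ℂ W U) ⁻¹' (O₀ ×ˢ {0} ∩ Prod.fst ⁻¹' M) ∩ V =
      Prod.fst ⁻¹' M ∩ O₁ := Set.ext fun _ => ⟨fun a => ⟨a.1.2, hO.ge ⟨a.1.1.1, a.2⟩⟩,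
    fun a => ⟨⟨⟨(hO.le a.2).1, rfl⟩, a.1⟩, (hO.le a.2).2⟩⟩
  rw [← a1, a3] at a2
  obtain ⟨b1, b2⟩ := hB.res_fnd hi h₀.ivt h₀.dom.orb hc hl
  obtain ⟨b3, b4⟩ := g.vr_pull h₀ hB.toEt (B := .id)
    ⟨fun _ h => h, fun _ _ _ _ => rfl, fun _ _ _ h => h,
      fun x _ => (sub_self (D₀.s x.1)).symm ▸ zero_mem _, fun _ _ _ _ h => h⟩
    (fun _ _ _ _ h => h) (fun _ => rfl) f.maps b1 hB.toEt.map_mk f.map_mk
  have b5 := (h₁.vr_tot' s g (fun _ hx => hx.2) c ⟨V, hV, a1⟩ t (fun ⟨x, hx⟩ => hr ⟨x.1, hx.1⟩)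
    (Φ := id) fun x => congrArg (Quo.mk act) (Subtype.ext (Prod.ext rfl x.2.2))).2
  rw [← push_id' (res id _), push_res_homeo IsHomeomorph.id] at b5
  exact ⟨a2, ⟨b3.continuous, b3.isOpenMap, b3.injective, fun y => Quot.inductionOn y fun x =>
    ⟨Quo.mk act ⟨(x.1, 0), x.2, rfl⟩, rfl⟩⟩, (b4 _).trans ((congrArg _ b2).trans b5)⟩

namespace Fp

variable {act : A → W₁ × U → W₁ × U} {act₁ : A₁ → W₁ → W₁} {act₂ : A₂ → W₀ × U → W₀ × U}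
  {act₀ : A₀ → W₀ → W₀} {θ₁ : CL A A₁} {θ₂ : CL A A₂} {τ₁ : CL A₁ A₀} {τ₂ : CL A₂ A₀}
  {π : W₁ →L[ℂ] W₀} {B : Set W₀} {O₁ Z₁ : Set W₁} {O₂ Z₂ : Set (W₀ × U)} {D₁ : KD A₁ W₁ P₁}
  {D₂ : KD A₂ (W₀ × U) P₂} (h : Fp act act₁ act₂ act₀ θ₁ θ₂ τ₁ τ₂ π) [IsAct act univ]
  [IsAct act₁ univ] [IsAct act₂ univ] [IsAct act₀ univ] (g₁ : D₁.Gd act₁ Z₁ O₁ n₁ r₁)
  (g₂ : D₂.Gd act₂ Z₂ O₂ n₂ r₂)
include h g₁ g₂

theorem gd : ((D₁.pb θ₁ Prod.fst).sum (D₂.pb θ₂ (fp₂ π))).Gd act (fpS π Z₁ Z₂) (fpS π O₁ O₂)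
    (n₁ + n₂) (r₁ + r₂) :=
  haveI := g₁.dom.isAct
  haveI := g₂.dom.isAct
  haveI : IsAct act (fpS π O₁ O₂) :=
    IsAct.mono inferInstance (subset_univ _) (h.ivt g₁.ivt g₂.ivt)
  ⟨⟨fun _ hx => ⟨g₁.dom.sub hx.1, g₂.dom.sub hx.2⟩, ⟨_, isOpen_univ, (inter_univ _).symm⟩, ‹_›,
    h.orb g₁.dom.orb g₂.dom.orb,
    fun _ hx => and_congr (g₁.dom.zero _ hx.1) (g₂.dom.zero _ hx.2)⟩,
    (g₁.ok.pb' h.eqM₁).sum (g₂.ok.pb' h.eqM₂)⟩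

/-- **the virtual pull-back of a sum** -/
theorem vr_gys (hB : BsOk act₀ B b) (m₁ : MapsTo π O₁ B) (m₂ : MapsTo Prod.fst O₂ B)
    (z₁ : MapsTo π Z₁ B) (z₂ : MapsTo Prod.fst Z₂ B) [Nice (Quo act₁ O₁)] [Nice (Quo act₂ O₂)]
    [Nice (Quo act₁ Z₁)] [Nice (Quo act₂ Z₂)] {t : Coch (Quo act₀ B × Quo act₀ B)}
    (ht : supp (δ t) = ∅) (hs : supp t ⊆ range fun x => (x, x)) (β₁ : BM (Quo act₁ O₁))
    (β₂ : BM (Quo act₂ O₂)) :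
    ((D₁.pb θ₁ Prod.fst).sum (D₂.pb θ₂ (fp₂ π))).vr act (fpS π Z₁ Z₂) (fpS π O₁ O₂)
      (gys (fun z : Quo act (fpS π O₁ O₂) => (h.eqM₁.map z, h.eqM₂.map z))
        (pull (Prod.map (h.eqB₁ m₁).map (h.eqB₂ m₂).map) t) (cross Prod.fst Prod.snd β₁ β₂)) =
      gys (fun z : Quo act (fpS π Z₁ Z₂) => (h.eqM₁.map z, h.eqM₂.map z))
        (pull (Prod.map (h.eqB₁ z₁).map (h.eqB₂ z₂).map) t)
        (cross Prod.fst Prod.snd (D₁.vr act₁ Z₁ O₁ β₁) (D₂.vr act₂ Z₂ O₂ β₂)) := by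
  have g := h.gd g₁ g₂
  obtain ⟨k₁, i₁, hk₁, -, -, e₁⟩ := g₁.exists_isKP
  obtain ⟨k₂, i₂, hk₂, -, -, e₂⟩ := g₂.exists_isKP
  obtain ⟨p₁, a₁, b₁⟩ := FpC.exists_mor g.dom g₁.dom h.eqM₁ hk₁
  obtain ⟨p₂, a₂, b₂⟩ := FpC.exists_mor g.dom g₂.dom h.eqM₂ hk₂
  have hk : g.dom.IsKP _ _ := FpC.isKP_sum b₁ b₂
  obtain ⟨c1, c2⟩ := h.isClosedEmbedding hB g₁.ivt g₂.ivt m₁ m₂
  obtain ⟨c3, c4⟩ := h.isClosedEmbedding hB g₁.ivtZ g₂.ivtZ z₁ z₂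
  haveI := g.nice
  have y₁ := g₁.dom.isZ hk₁
  have y₂ := g₂.dom.isZ hk₂
  obtain ⟨u₁, hu₁⟩ : ∃ u : Coch (Quo act₁ O₁), u = k₁.eul := ⟨_, rfl⟩
  obtain ⟨u₂, hu₂⟩ : ∃ u : Coch (Quo act₂ O₂), u = k₂.eul := ⟨_, rfl⟩
  have l₁ : Orb.LCo (range (Quo.incl act₁ g₁.dom.sub)) u₁ := hu₁ ▸ y₁.lco
  have l₂ : Orb.LCo (range (Quo.incl act₂ g₂.dom.sub)) u₂ := hu₂ ▸ y₂.lco
  have d₁ : IsDeg (2 * (k₁.r : ℤ)) u₁ := hu₁ ▸ k₁.eul_deg
  have d₂ : IsDeg (2 * (k₂.r : ℤ)) u₂ := hu₂ ▸ k₂.eul_deg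
  have v₁ : D₁.vr act₁ Z₁ O₁ = Orb.lgys (Quo.incl act₁ g₁.dom.sub) u₁ := hu₁ ▸ e₁
  have v₂ : D₂.vr act₂ Z₂ O₂ = Orb.lgys (Quo.incl act₂ g₂.dom.sub) u₂ := hu₂ ▸ e₂
  have v : ((D₁.pb θ₁ Prod.fst).sum (D₂.pb θ₂ (fp₂ π))).vr act (fpS π Z₁ Z₂) (fpS π O₁ O₂) =
      Orb.lgys (Quo.incl act g.dom.sub) (pull h.eqM₁.map u₁ * pull h.eqM₂.map u₂) := by
    rw [a₁, a₂, hu₁, hu₂]
    exact (g.dom.vr_eq hk).trans ((g.dom.isZ hk).vir_eq (KP.eul_pb_sum k₁ k₂ p₁ p₂))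
  have f1 : ∀ {X Y : Type} [TopologicalSpace X] [TopologicalSpace Y] (p : C(X, Quo act₀ B))
      (q : C(Y, Quo act₀ B)), supp (δ (pull (Prod.map p q) t)) = ∅ ∧
        supp (pull (Prod.map p q) t) ⊆ {z | p z.1 = q z.2} := fun p q =>
    ⟨cocycle_pull (p.continuous.prodMap q.continuous) ht, fun z hz =>
      let ⟨_, e⟩ := hs (supp_pull (p.continuous.prodMap q.continuous) _ hz)
      (congrArg Prod.fst e).symm.trans (congrArg Prod.snd e)⟩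
  obtain ⟨f2, f3⟩ := f1 (h.eqB₁ m₁).map (h.eqB₂ m₂).map
  obtain ⟨f4, f5⟩ := f1 (h.eqB₁ z₁).map (h.eqB₂ z₂).map
  have f6 : ∀ x, (h.eqB₁ m₁).map (Quo.incl act₁ g₁.dom.sub x) = (h.eqB₁ z₁).map x := fun x =>
    Quot.inductionOn x fun _ => rfl
  have f7 : ∀ x, (h.eqB₂ m₂).map (Quo.incl act₂ g₂.dom.sub x) = (h.eqB₂ z₂).map x := fun x =>
    Quot.inductionOn x fun _ => rfl
  have f8 := Orb.lgys_comm (g₁.isClosedEmbedding.prodMap g₂.isClosedEmbedding) c1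
    g.isClosedEmbedding c3 (fun x => Quot.inductionOn x fun _ => rfl)
    (.of_subset fun x hx => c4.ge ((f6 x.1).symm.trans ((c2.le hx).trans (f7 x.2))))
    (((l₁.pull continuous_fst).mul (l₂.pull continuous_snd)).mono range_prodMap.le
      (.of_subset range_prodMap.ge))
    (.of_supp f2 (f3.trans c2.ge)) (d := k₁.r + k₂.r)
    (((d₁.pull _).mul (d₂.pull _)).cast (mul_add _ _ _).symm) (cross Prod.fst Prod.snd β₁ β₂)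
  rw [pull_pull, show Prod.map (h.eqB₁ m₁).map (h.eqB₂ m₂).map ∘ Prod.map
      (Quo.incl act₁ g₁.dom.sub) (Quo.incl act₂ g₂.dom.sub) =
      Prod.map (h.eqB₁ z₁).map (h.eqB₂ z₂).map from funext fun x => Prod.ext (f6 x.1) (f7 x.2),
    Orb.lgys_eq_gys c3 f4 (f5.trans c4.ge), Orb.lgys_eq_gys c1 f2 (f3.trans c2.ge),
    Orb.lgys_cross (p₁ := Prod.fst) (p₂ := Prod.snd) IsHomeomorph.id (q₁ := Prod.fst)
      (q₂ := Prod.snd) IsHomeomorph.id (f := Prod.map _ _) (fun _ => rfl) (fun _ => rfl)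
      g₁.isClosedEmbedding g₂.isClosedEmbedding l₁ l₂ d₁ d₂, map_mul, pull_pull, pull_pull] at f8
  rw [v, v₁, v₂]
  exact f8.symm

end Fp

end Vale.Agent.P269
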