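import Vale.Agent.P269.Glu.GlB

set_option linter.unusedSectionVars false

/-!
# The labelled space is a principal bundle over the space of normalisations
-/

namespace Vale.Agent.P269.Ch

open P291Z Set Function Topology Filter Module Base Cv Holo Vir KD

namespace GS

section lin

variable {Y C V V' : Type} [NormedAddCommGroup Y] [NormedSpace ℂ Y] [NormedAddCommGroup C]
  [NormedSpace ℂ C] [NormedAddCommGroup V] [NormedSpace ℂ V] [NormedAddCommGroup V']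
  [NormedSpace ℂ V'] [FiniteDimensional ℂ C] [FiniteDimensional ℂ V] [FiniteDimensional ℂ V']
  {y₀ : Y}

theorem cmp_an {l : Y → V →L[ℂ] V'} {l' : Y → C →L[ℂ] V} (hl : AnalyticAt ℂ l y₀)
    (hl' : AnalyticAt ℂ l' y₀) : AnalyticAt ℂ (fun y => l y ∘L l' y) y₀ :=
  ((ContinuousLinearMap.compL ℂ C V V').analyticAt_bilinear _).comp₂ hl hl'

theorem exists_left {r : V →L[ℂ] V'} (h : Injective r) : ∃ L : V' →L[ℂ] V, L ∘L r = 1 := by
  obtain ⟨L, hL⟩ := (r : V →ₗ[ℂ] V').exists_leftInverse_of_injective (LinearMap.ker_eq_bot.2 h)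
  exact ⟨LinearMap.toContinuousLinearMap L, ContinuousLinearMap.ext fun v =>
    LinearMap.congr_fun hL v⟩

theorem exists_right {φ : V' →L[ℂ] V} (h : Surjective φ) : ∃ s : V →L[ℂ] V', φ ∘L s = 1 := by
  obtain ⟨s, hs⟩ := (φ : V' →ₗ[ℂ] V).exists_rightInverse_of_surjective (LinearMap.range_eq_top.2 h)
  exact ⟨LinearMap.toContinuousLinearMap s, ContinuousLinearMap.ext fun v =>
    LinearMap.congr_fun hs v⟩

theorem unit_of_surj {g : V →L[ℂ] V} (h : Surjective g) : IsUnit g :=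
  ContinuousLinearMap.isUnit_iff_bijective.2
    ⟨(LinearMap.injective_iff_surjective (f := (g : V →ₗ[ℂ] V))).2 h, h⟩

theorem unit_of_inj {g : V →L[ℂ] V} (h : Injective g) : IsUnit g :=
  ContinuousLinearMap.isUnit_iff_bijective.2
    ⟨h, (LinearMap.injective_iff_surjective (f := (g : V →ₗ[ℂ] V))).1 h⟩

/-- the inverse of an analytic family through the identity -/
theorem inv_an {u : Y → C →L[ℂ] C} (hu : AnalyticAt ℂ u y₀) (h1 : u y₀ = 1) :
    AnalyticAt ℂ (fun y => Ring.inverse (u y)) y₀ ∧ ∀ᶠ y in 𝓝 y₀, IsUnit (u y) := by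
  have : CompleteSpace C := FiniteDimensional.complete ℂ C
  refine ⟨AnalyticAt.comp (g := Ring.inverse) (f := u) ?_ hu, hu.continuousAt.eventually ?_⟩
  · rw [h1]
    exact analyticAt_inverse (𝕜 := ℂ) (1 : (C →L[ℂ] C)ˣ)
  · rw [h1]
    exact Units.isOpen.mem_nhds isUnit_one

/-- an analytic family of surjections that kill a given family of subspaces -/
theorem exists_quot {D : Y → C →L[ℂ] V'} (hD : AnalyticAt ℂ D y₀) (hi : Injective (D y₀))
    {φ₀ : V' →L[ℂ] V} (hs : Surjective φ₀) (h0 : φ₀ ∘L D y₀ = 0) :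
    ∃ φ : Y → V' →L[ℂ] V, AnalyticAt ℂ φ y₀ ∧ φ y₀ = φ₀ ∧
      ∀ᶠ y in 𝓝 y₀, Surjective (φ y) ∧ φ y ∘L D y = 0 := by
  obtain ⟨s, e⟩ := exists_left hi
  obtain ⟨t, e'⟩ := exists_right hs
  obtain ⟨a1, a2⟩ := inv_an (u := fun y => s ∘L D y) (cmp_an analyticAt_const hD) e
  have a3 : AnalyticAt ℂ (fun y => φ₀ - φ₀ ∘L D y ∘L Ring.inverse (s ∘L D y) ∘L s) y₀ :=
    analyticAt_const.sub (cmp_an analyticAt_const (cmp_an hD (cmp_an a1 analyticAt_const)))
  have a4 : φ₀ - φ₀ ∘L D y₀ ∘L Ring.inverse (s ∘L D y₀) ∘L s = φ₀ := by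
    rw [← ContinuousLinearMap.comp_assoc, h0, ContinuousLinearMap.zero_comp, sub_zero]
  refine ⟨_, a3, a4, ?_⟩
  filter_upwards [a2, (inv_an (cmp_an a3 (analyticAt_const (v := t))) (by rw [a4, e'])).2] with y b1 b2
  refine ⟨Surjective.of_comp (g := t) (ContinuousLinearMap.isUnit_iff_bijective.1 b2).2, ?_⟩
  have b3 : Ring.inverse (s ∘L D y) ∘L s ∘L D y = 1 := Ring.inverse_mul_cancel _ b1
  refine ContinuousLinearMap.ext fun c => ?_
  have b4 : Ring.inverse (s ∘L D y) (s (D y c)) = c := ContinuousLinearMap.ext_iff.1 b3 c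
  change φ₀ (D y c) - φ₀ (D y (Ring.inverse (s ∘L D y) (s (D y c)))) = 0
  rw [b4, sub_self]

/-- an analytic family of injections into the kernels of a given family, with left inverses -/
theorem exists_sub {J : Y → V' →L[ℂ] C} (hJ : AnalyticAt ℂ J y₀) (hs : Surjective (J y₀))
    {r₀ : V →L[ℂ] V'} (hi : Injective r₀) (h0 : J y₀ ∘L r₀ = 0) :
    ∃ (r : Y → V →L[ℂ] V') (ρ : Y → V' →L[ℂ] V), AnalyticAt ℂ r y₀ ∧ AnalyticAt ℂ ρ y₀ ∧
      r y₀ = r₀ ∧ ∀ᶠ y in 𝓝 y₀, ρ y ∘L r y = 1 ∧ J y ∘L r y = 0 := by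
  obtain ⟨t, e⟩ := exists_right hs
  obtain ⟨L, e'⟩ := exists_left hi
  obtain ⟨a1, a2⟩ := inv_an (u := fun y => J y ∘L t) (cmp_an hJ analyticAt_const) e
  have a3 : AnalyticAt ℂ (fun y => r₀ - t ∘L Ring.inverse (J y ∘L t) ∘L J y ∘L r₀) y₀ :=
    analyticAt_const.sub (cmp_an analyticAt_const (cmp_an a1 (cmp_an hJ analyticAt_const)))
  have a4 : r₀ - t ∘L Ring.inverse (J y₀ ∘L t) ∘L J y₀ ∘L r₀ = r₀ := by
    rw [h0, ContinuousLinearMap.comp_zero, ContinuousLinearMap.comp_zero, sub_zero]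
  obtain ⟨a5, a6⟩ := inv_an (cmp_an (analyticAt_const (v := L)) a3) (by rw [a4, e'])
  refine ⟨_, _, a3, cmp_an a5 (analyticAt_const (v := L)), a4, ?_⟩
  filter_upwards [a2, a6] with y b1 b2
  refine ⟨Ring.inverse_mul_cancel _ b2, ContinuousLinearMap.ext fun c => ?_⟩
  have b3 : (J y ∘L t) ∘L Ring.inverse (J y ∘L t) = 1 := Ring.mul_inverse_cancel _ b1
  have b4 : J y (t (Ring.inverse (J y ∘L t) (J y (r₀ c)))) = J y (r₀ c) :=
    ContinuousLinearMap.ext_iff.1 b3 _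
  change J y (r₀ c - t (Ring.inverse (J y ∘L t) (J y (r₀ c)))) = 0
  rw [map_sub, b4, sub_self]

theorem fac_quot {φ φ' : V' →L[ℂ] V} (h : Surjective φ) (h' : Surjective φ')
    (hk : ∀ v, φ' v = 0 → φ v = 0) : ∃ g : V →L[ℂ] V, IsUnit g ∧ g ∘L φ' = φ := by
  obtain ⟨s, e⟩ := exists_right h'
  have e1 : (φ ∘L s) ∘L φ' = φ := ContinuousLinearMap.ext fun v => by
    have : φ' (s (φ' v)) = φ' v := ContinuousLinearMap.ext_iff.1 e _
    have := hk (s (φ' v) - v) (by rw [map_sub, this, sub_self])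
    rwa [map_sub, sub_eq_zero] at this
  exact ⟨φ ∘L s, unit_of_surj (Surjective.of_comp (g := φ') (by
    rw [← ContinuousLinearMap.coe_comp, e1]; exact h)), e1⟩

theorem fac_sub {r r' : V →L[ℂ] V'} (h : Injective r) (h' : Injective r')
    (hk : ∀ v, r v ∈ range r') : ∃ g : V →L[ℂ] V, IsUnit g ∧ r' ∘L Ring.inverse g = r := by
  obtain ⟨L, e⟩ := exists_left h'
  have e1 : r' ∘L (L ∘L r) = r := ContinuousLinearMap.ext fun v => by
    obtain ⟨u, hu⟩ := hk v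
    have : L (r' u) = u := ContinuousLinearMap.ext_iff.1 e _
    change r' (L (r v)) = r v
    rw [← hu, this]
  have e2 : IsUnit (L ∘L r) := unit_of_inj (Injective.of_comp (f := r') (by
    rw [← ContinuousLinearMap.coe_comp, e1]; exact h))
  exact ⟨Ring.inverse (L ∘L r), e2.ringInverse, by rw [Ring.inverse_inverse e2, e1]⟩

theorem tend_mul {A : Type} [NormedRing A] [CompleteSpace A] {g u : ℕ → A}
    (hu : Tendsto u atTop (𝓝 1)) (h : Tendsto (fun n => g n * u n) atTop (𝓝 1)) :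
    Tendsto g atTop (𝓝 1) := by
  have h1 : Tendsto (fun n => Ring.inverse (u n)) atTop (𝓝 (Ring.inverse 1)) :=
    (NormedRing.inverse_continuousAt (1 : Aˣ)).tendsto.comp hu
  have h2 := h.mul h1
  rw [Ring.inverse_one, mul_one] at h2
  refine h2.congr' ?_
  filter_upwards [hu.eventually (Units.isOpen.mem_nhds isUnit_one)] with n hn
  exact Ring.mul_inverse_cancel_right _ _ hn

theorem tend_mul' {A : Type} [NormedRing A] [CompleteSpace A] {g u : ℕ → A} (hg : ∀ n, IsUnit (g n))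
    (hu : Tendsto u atTop (𝓝 1)) (h : Tendsto (fun n => u n * Ring.inverse (g n)) atTop (𝓝 1)) :
    Tendsto g atTop (𝓝 1) := by
  have h1 : Tendsto (fun n => Ring.inverse (u n * Ring.inverse (g n))) atTop (𝓝 (Ring.inverse 1)) :=
    (NormedRing.inverse_continuousAt (1 : Aˣ)).tendsto.comp h
  have h2 := h1.mul hu
  rw [Ring.inverse_one, mul_one] at h2
  refine h2.congr' ?_
  filter_upwards [h.eventually (Units.isOpen.mem_nhds isUnit_one)] with n hn
  have hn' : IsUnit (u n * Ring.inverse (g n)) := hn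
  rw [Ring.inverse_mul_eq_iff_eq_mul _ _ _ hn', Ring.inverse_mul_cancel_right _ _ (hg n)]

theorem tend_quot {g : ℕ → V →L[ℂ] V} {φ : ℕ → V' →L[ℂ] V} {φ₀ : V' →L[ℂ] V} (hs : Surjective φ₀)
    (h : Tendsto φ atTop (𝓝 φ₀)) (h' : Tendsto (fun n => g n ∘L φ n) atTop (𝓝 φ₀)) :
    Tendsto g atTop (𝓝 1) := by
  have : CompleteSpace V := FiniteDimensional.complete ℂ V
  obtain ⟨s, e⟩ := exists_right hs
  have c : Continuous fun f : V' →L[ℂ] V => f ∘L s := continuous_id.clm_comp continuous_const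
  exact tend_mul (u := fun n => φ n ∘L s) (e ▸ (c.tendsto _).comp h) (e ▸ (c.tendsto _).comp h')

theorem tend_sub {g : ℕ → V →L[ℂ] V} {r : ℕ → V →L[ℂ] V'} {r₀ : V →L[ℂ] V'} (hi : Injective r₀)
    (hg : ∀ n, IsUnit (g n)) (h : Tendsto r atTop (𝓝 r₀))
    (h' : Tendsto (fun n => r n ∘L Ring.inverse (g n)) atTop (𝓝 r₀)) : Tendsto g atTop (𝓝 1) := by
  have : CompleteSpace V := FiniteDimensional.complete ℂ V
  obtain ⟨L, e⟩ := exists_left hi
  have c : Continuous fun f : V →L[ℂ] V' => L ∘L f := continuous_const.clm_comp continuous_id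
  exact tend_mul' (u := fun n => L ∘L r n) hg (e ▸ (c.tendsto _).comp h) (e ▸ (c.tendsto _).comp h')

end lin

end GS

open GS

variable {S Λ R J K ι ν κ κ' : Type} [Fintype S] [Fintype Λ] [Fintype R] [Fintype J]
  [Fintype K] [Fintype ι] [DecidableEq ι] [Fintype ν] [Fintype κ] [Fintype κ']
  {ch : Ch ι J} {n : Nm ι J} {F : Fam S Λ R J K} {e : K → ι → ℕ} {K₀ : Set K} {ℓ : R → ι → ℤ}
  {T : Set ((ch.re n).WF ν (κ ⊕ κ') Λ)} {z : ch.WG n ν κ κ' Λ}

namespace GS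

theorem cont_φ (i : ι) : Continuous fun z : ch.WG n ν κ κ' Λ => z.2.2.1 i :=
  ((continuous_apply i).comp (continuous_fst.comp continuous_snd) :
    Continuous fun w : ch.Lb n (Mk ν (κ ⊕ κ')) => w.2.1 i).comp continuous_snd

theorem cont_r (l : Option J) : Continuous fun z : ch.WG n ν κ κ' Λ => z.2.2.2 l :=
  ((continuous_apply l).comp (continuous_snd.comp continuous_snd) :
    Continuous fun w : ch.Lb n (Mk ν (κ ⊕ κ')) => w.2.2 l).comp continuous_snd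

theorem act_φ {Wg : Wt S Λ R J} {a : ch.AG n ν κ κ' S} (h : a.2 = 1) (z : ch.WG n ν κ κ' Λ) (i : ι) :
    (actG Wg a z).2.2.1 i = a.1.2.1 i ∘L z.2.2.1 i := by
  change a.1.2.1 i ∘L z.2.2.1 i ∘L Ring.inverse (a.2.1 i) = _
  have e : a.2.1 i = 1 := by rw [h]; rfl
  rw [e, Ring.inverse_one]
  rfl

theorem act_r {Wg : Wt S Λ R J} {a : ch.AG n ν κ κ' S} (h : a.2 = 1) (z : ch.WG n ν κ κ' Λ)
    (l : Option J) : (actG Wg a z).2.2.2 l = z.2.2.2 l ∘L Ring.inverse (a.1.2.2.1 l) := by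
  change a.2.2.1 l ∘L z.2.2.2 l ∘L Ring.inverse (a.1.2.2.1 l) = _
  have e : a.2.2.1 l = 1 := by rw [h]; rfl
  rw [e]
  rfl

open Classical in
/-- The glued point that is determined by a label. -/
noncomputable def xOf (A : Set J) (ρ : ∀ l, (ch.re n).E l →L[ℂ] ch.E l)
    (x : (ch.re n).W (Mk ν (κ ⊕ κ'))) (φ : HV n.M ch.M) : ch.W (Mk ν κ) :=
  W.mk' (fun l => ρ l ∘L x.Q l ∘L pbT φ _) (fun a => apV φ (x.p (inc a)))
    (ρ none ∘L x.Ξ ∘L pbT φ _) fun j => if j ∈ A then 0 else ρ (some j) ∘L x.X j ∘L pbT φ _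

theorem eq_xOf (hz : z ∈ Zn F T) {ρ : ∀ l, (ch.re n).E l →L[ℂ] ch.E l}
    (h : ∀ l, ρ l ∘L z.2.2.2 l = 1) : z.1.2 = xOf F.mov ρ z.2.1 z.2.2.1 := by
  have e : ∀ l v, ρ l (z.2.2.2 l v) = v := fun l => ContinuousLinearMap.ext_iff.1 (h l)
  refine W.ext (fun l => ContinuousLinearMap.ext fun μ => ?_) hz.1.1.mark
    (ContinuousLinearMap.ext fun μ => ?_) fun j => ?_
  · exact (e l _).symm.trans (congrArg (ρ l) (hz.1.1.Q l μ))
  · exact (e none _).symm.trans (congrArg (ρ none) (hz.1.1.Ξ μ))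
  · by_cases hj : j ∈ F.mov
    · exact (hz.2 j hj).trans (if_pos hj).symm
    · refine Eq.trans (ContinuousLinearMap.ext fun μ => ?_) (if_neg hj).symm
      exact (e _ _).symm.trans (congrArg (ρ (some j)) (hz.1.2.2 j hj μ))

/-- The span of the differences of the branches. -/
noncomputable def dL (x : (ch.re n).W (Mk ν (κ ⊕ κ'))) (i : ι) :
    (κ' → ℂ) →L[ℂ] (Fin (n.M i) → ℂ) :=
  ∑ a, (ContinuousLinearMap.proj a : (κ' → ℂ) →L[ℂ] ℂ).smulRight
    (x.p (nq a false) i - x.p (nq a true) i)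

theorem dL_apply (x : (ch.re n).W (Mk ν (κ ⊕ κ'))) (i : ι) (c : κ' → ℂ) :
    dL x i c = ∑ a, c a • (x.p (nq a false) i - x.p (nq a true) i) := by
  rw [dL, sum_apply]
  rfl

section an

variable {P : Type} [NormedAddCommGroup P] [NormedSpace ℂ P] {q : P}

theorem pbT_an {M M' : ι → ℕ} {φ : P → HV M M'} (h : ∀ i, AnalyticAt ℂ (fun y => φ y i) q)
    {σ : Type} [Fintype σ] (τ : σ → ι) : AnalyticAt ℂ (fun y => pbT (φ y) τ) q :=
  analyticAt_of_apply fun μ => by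
    have h1 := AnalyticAt.comp (f := fun y => ((fun s => φ y (τ s)), μ)) (x := q)
      ContinuousMultilinearMap.analyticAt_uncurry_compContinuousLinearMap
      ((AnalyticAt.pi fun s => h (τ s)).prod analyticAt_const)
    exact h1

theorem xOf_an {A : Set J} {ρ : P → ∀ l, (ch.re n).E l →L[ℂ] ch.E l}
    {x : P → (ch.re n).W (Mk ν (κ ⊕ κ'))} {φ : P → HV n.M ch.M}
    (hρ : ∀ l, AnalyticAt ℂ (fun y => ρ y l) q) (hx : AnalyticAt ℂ x q)
    (h : ∀ i, AnalyticAt ℂ (fun y => φ y i) q) :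
    AnalyticAt ℂ (fun y => xOf A (ρ y) (x y) (φ y)) q := by
  refine W.an_iff.2 ⟨fun l => an_comp (hρ l) (an_comp (W.an_Q hx l) (pbT_an h _)),
    fun a => AnalyticAt.pi fun i => an_apply (h i) (analyticAt_pi_iff.1 (W.an_p hx (inc a)) i),
    an_comp (hρ none) (an_comp (W.an_Ξ hx) (pbT_an h _)), fun j => ?_⟩
  by_cases hj : j ∈ A
  · exact (analyticAt_const (v := 0)).congr (.of_forall fun y => (if_pos hj).symm)
  · exact (an_comp (hρ _) (an_comp (W.an_X hx j) (pbT_an h _))).congr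
      (.of_forall fun y => (if_neg hj).symm)

theorem dL_an {x : P → (ch.re n).W (Mk ν (κ ⊕ κ'))} (hx : AnalyticAt ℂ x q) (i : ι) :
    AnalyticAt ℂ (fun y => dL (x y) i) q :=
  analyticAt_of_apply fun c => by
    simp only [dL_apply]
    exact Finset.analyticAt_fun_sum _ fun a _ => analyticAt_const.fun_smul
      ((analyticAt_pi_iff.1 (W.an_p hx _) i).fun_sub (analyticAt_pi_iff.1 (W.an_p hx _) i))

theorem lb_an {ν' : Type} [Fintype ν'] {x : P → (ch.re n).W ν'} {φ : P → HV n.M ch.M}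
    {r : P → ∀ l, ch.E l →L[ℂ] (ch.re n).E l} (hx : AnalyticAt ℂ x q)
    (h : ∀ i, AnalyticAt ℂ (fun y => φ y i) q) (hr : ∀ l, AnalyticAt ℂ (fun y => r y l) q) :
    AnalyticAt ℂ (fun y => ((x y, φ y, r y) : ch.Lb n ν')) q :=
  hx.prod ((AnalyticAt.pi h).prod (AnalyticAt.pi hr))

end an

/-- every admissible choice of the maps of the label gives a labelled point -/
theorem mem_Zn (hn : ch.GN n κ') (hT : Ivt (actF F.toWt) T) (hz : z ∈ Zn F T) {φ : HV n.M ch.M}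
    {r : ∀ l, ch.E l →L[ℂ] (ch.re n).E l} {ρ : ∀ l, (ch.re n).E l →L[ℂ] ch.E l}
    (h1 : ∀ i, Surjective (φ i) ∧ φ i ∘L dL z.2.1 i = 0)
    (h2 : ∀ l, ρ l ∘L r l = 1 ∧ ∀ a, jmp z.2.1 a l ∘L r l = 0) :
    (((z.1.1, xOf F.mov ρ z.2.1 φ), (z.2.1, φ, r)) : ch.WG n ν κ κ' Λ) ∈ Zn F T := by
  have g := hz.1.1
  choose s s1 s2 using fun i => fac_quot (h1 i).1 (g.surj i) fun v hv => by
    have e : v ∈ (z.2.2.1 i).ker := hv
    rw [g.ker_eq hn] at e
    obtain ⟨c, rfl⟩ := (Submodule.mem_span_range_iff_exists_fun ℂ).1 e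
    rw [← dL_apply]
    exact ContinuousLinearMap.ext_iff.1 (h1 i).2 c
  choose t t1 t2 using fun l => fac_sub (r := r l)
    (LeftInverse.injective (g := ρ l) (ContinuousLinearMap.ext_iff.1 (h2 l).1)) (g.inj l)
    fun v => (g.mem_range hn.num.a_ne l).2 fun a => ContinuousLinearMap.ext_iff.1 ((h2 l).2 a) v
  let a : ch.AG n ν κ κ' S := ((1, s, t, 1), 1)
  have ha : IsUnit a := AP.isUnit_iff.2 ⟨Prod.isUnit_iff.2 ⟨isUnit_one, Prod.isUnit_iff.2
    ⟨Pi.isUnit_iff.2 s1, Prod.isUnit_iff.2 ⟨Pi.isUnit_iff.2 t1, isUnit_one⟩⟩⟩, isUnit_one⟩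
  have m := ivt_Zn hT a ha z hz
  have e1 : μG (actG F.toWt a z) = μG z := by
    rw [μG_actG, θG_eq_one.2 ⟨rfl, rfl, rfl⟩, actF_one]
  have e2 : (actG F.toWt a z).2.2.1 = φ := funext fun i => (act_φ rfl z i).trans (s2 i)
  have e3 : (actG F.toWt a z).2.2.2 = r := funext fun l => (act_r rfl z l).trans (t2 l)
  have e4 : (actG F.toWt a z).2.1 = z.2.1 := congrArg Prod.snd e1
  have e7 : (actG F.toWt a z).1.1 = z.1.1 := (congrArg Prod.fst e1 :)
  have e5 := eq_xOf (ρ := ρ) m fun l => by rw [e3]; exact (h2 l).1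
  rw [e2, e4] at e5
  have e6 : actG F.toWt a z = ((z.1.1, xOf F.mov ρ z.2.1 φ), (z.2.1, φ, r)) :=
    Prod.ext (Prod.ext e7 e5) (Prod.ext e4 (Prod.ext e2 e3))
  exact e6 ▸ m

theorem sec_μG (hn : ch.GN n κ') (hT : Ivt (actF F.toWt) T) (hz : z ∈ Zn F T)
    (hs : ∀ᶠ y in 𝓝[T] (μG z), y ∈ μG '' (Zn F T : Set (ch.WG n ν κ κ' Λ))) :
    ∃ σ : (ch.re n).WF ν (κ ⊕ κ') Λ → ch.WG n ν κ κ' Λ, AnalyticAt ℂ σ (μG z) ∧ σ (μG z) = z ∧
      ∀ᶠ y in 𝓝[T] (μG z), σ y ∈ Zn F T ∧ μG (σ y) = y := by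
  have g := hz.1.1
  have sn : AnalyticAt ℂ (fun y : (ch.re n).WF ν (κ ⊕ κ') Λ => y.2) (μG z) := analyticAt_snd
  choose Φ p1 p2 using fun q => holOn_ptz g.mem' q
  have p3 : ∀ q, ptz z.2.1 q = Φ q z.2.1 := fun q => (p2 q).self_of_nhds g.mem'
  have p4 : ∀ q l, AnalyticAt ℂ (fun y : (ch.re n).WF ν (κ ⊕ κ') Λ => (Φ q y.2).2 l) (μG z) :=
    fun q l => analyticAt_pi_iff.1 (analyticAt_snd.comp (AnalyticAt.comp (f := fun y :
      (ch.re n).WF ν (κ ⊕ κ') Λ => y.2) (x := μG z) (p1 q) sn)) l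
  choose φ f1 f2 f3 using fun i => exists_quot (dL_an sn i) (φ₀ := z.2.2.1 i)
    ((injective_iff_map_eq_zero _).2 fun c hc => funext
      (Fintype.linearIndependent_iff.1 (g.li hn i) c ((dL_apply _ i c).symm.trans hc)))
    (g.surj i) (ContinuousLinearMap.ext fun c => by
      change z.2.2.1 i (dL z.2.1 i c) = 0
      rw [dL_apply, map_sum]
      refine Finset.sum_eq_zero fun a _ => ?_
      have e : z.2.2.1 i (z.2.1.p (nq a false) i) = z.2.2.1 i (z.2.1.p (nq a true) i) :=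
        congrFun (g.node a) i
      rw [map_smul, map_sub, e, sub_self, smul_zero])
  let Jm : ∀ l, (ch.re n).WF ν (κ ⊕ κ') Λ → (ch.re n).E l →L[ℂ] (κ' → ℂ) := fun l y =>
    ContinuousLinearMap.pi fun a => (Φ (nq a false) y.2).2 l - (Φ (nq a true) y.2).2 l
  have j1 : ∀ l, AnalyticAt ℂ (Jm l) (μG z) := fun l => analyticAt_of_apply fun v =>
    AnalyticAt.pi fun a => an_apply ((p4 _ l).fun_sub (p4 _ l)) analyticAt_const
  have j2 : ∀ l v a, Jm l (μG z) v a = jmp z.2.1 a l v := fun l v a => by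
    rw [jmp, p3, p3]
    rfl
  choose r ρ r1 r2 r3 r4 using fun l => exists_sub (j1 l) (r₀ := z.2.2.2 l)
    (fun c => (g.jmp_surj hn.num.a_ne l c).imp fun v hv => (funext (j2 l v)).trans hv) (g.inj l)
    (ContinuousLinearMap.ext fun v => funext fun a =>
      (j2 l _ a).trans (ContinuousLinearMap.ext_iff.1 (g.jmp_comp a l) v))
  refine ⟨fun y => ((y.1, xOf F.mov (fun l => ρ l y) y.2 fun i => φ i y),
    (y.2, fun i => φ i y, fun l => r l y)),
    (analyticAt_fst.prod (xOf_an r2 sn f1)).prod (lb_an sn f1 r1), ?_, ?_⟩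
  · have e := eq_xOf (ρ := fun l => ρ l (μG z)) hz fun l => by
      rw [← r3 l]; exact (r4 l).self_of_nhds.1
    rw [← funext f2] at e
    exact Prod.ext (Prod.ext rfl e.symm) (Prod.ext rfl (Prod.ext (funext f2) (funext r3)))
  · filter_upwards [hs, nhdsWithin_le_nhds (eventually_all.2 f3),
      nhdsWithin_le_nhds (eventually_all.2 r4),
      nhdsWithin_le_nhds (sn.continuousAt.eventually (eventually_all.2 p2))] with y b1 b2 b3 b4
    obtain ⟨z', hz', rfl⟩ := b1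
    refine ⟨mem_Zn hn hT hz' b2 fun l => ⟨(b3 l).1, fun a => ContinuousLinearMap.ext fun v => ?_⟩, rfl⟩
    have e : ∀ q, ptz z'.2.1 q = Φ q z'.2.1 := fun q => b4 q hz'.1.1.mem'
    rw [jmp, e, e]
    exact congrFun (ContinuousLinearMap.ext_iff.1 (b3 l).2 v) a

end GS

theorem rig_μG {Wg : Wt S Λ R J} (h : Gl z.1.2 z.2) {Z : Set (ch.WG n ν κ κ' Λ)} :
    Rig (actG Wg : ch.AG n ν κ κ' S → _) Z θG z := by
  intro y a ha h1 h2
  have e := fun m => θG_eq_one.1 (ha m).2.2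
  have u : ∀ m, IsUnit (a m).1.2 := fun m => (Prod.isUnit_iff.1 (AP.isUnit_iff.1 (ha m).2.1).1).2
  have t1 : ∀ i, Tendsto (fun m => (a m).1.2.1 i) atTop (𝓝 1) := fun i =>
    tend_quot (h.surj i) (((cont_φ i).tendsto z).comp h1)
      ((((cont_φ i).tendsto z).comp h2).congr fun m => act_φ (e m).2.2 (y m) i)
  have t2 : ∀ l, Tendsto (fun m => (a m).1.2.2.1 l) atTop (𝓝 1) := fun l =>
    tend_sub (h.inj l) (fun m => isUnit_E (u m) l) (((cont_r l).tendsto z).comp h1)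
      ((((cont_r l).tendsto z).comp h2).congr fun m => act_r (e m).2.2 (y m) l)
  have t3 : Tendsto (fun m => (a m).1.2) atTop (𝓝 1) :=
    (tendsto_pi_nhds.2 t1).prodMk_nhds ((tendsto_pi_nhds.2 t2).prodMk_nhds
      (tendsto_const_nhds.congr fun m => (e m).2.1.symm))
  have t4 : Tendsto (fun m => (a m).1) atTop (𝓝 1) :=
    (tendsto_const_nhds.congr fun m => (e m).1.symm).prodMk_nhds t3
  exact t4.prodMk_nhds (tendsto_const_nhds.congr fun m => (e m).2.2.symm)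

/-- **the gluing construction is analytic** -/
theorem bun_μG (hn : ch.GN n κ') (hT : Lev F T)
    (hs : ∀ z ∈ (Zn F T : Set (ch.WG n ν κ κ' Λ)), ∀ᶠ y in 𝓝[T] (μG z), y ∈ μG '' (Zn F T : Set (ch.WG n ν κ κ' Λ))) :
    Bun (actG F.toWt : ch.AG n ν κ κ' S → _) (actF F.toWt) (Zn F T) T θG μG :=
  ⟨et_μG hn hT.inv, fun _ hz => rig_μG hz.1.1, fun z hz => sec_μG hn hT.inv hz (hs z hz)⟩

end Vale.Agent.P269.Ch
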