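import Vale.Agent.P269.Glu.NdDefs
import Vale.Agent.P269.Glu.Vr
import Vale.Agent.P269.Glu.DiagA
import Vale.Agent.P269.Bas.Cmp
import Vale.Agent.P269.Loc.Formal

/-!
# Total spaces of sums of line bundles, Euler cocycles, graphs
-/

set_option linter.unusedSectionVars false
set_option linter.style.haveILetI false

namespace Vale.Agent.P269.Nd

open P291Z Set Function Topology Filter Module Orb Holo Ch Ch.KD

variable {A A' W W' P α : Type} [NormedRing A] [NormedAlgebra ℂ A] [NormedAddCommGroup W]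
  [NormedSpace ℂ W] [NormedRing A'] [NormedAlgebra ℂ A'] [NormedAddCommGroup W'] [NormedSpace ℂ W']
  [FiniteDimensional ℂ A] [FiniteDimensional ℂ W] [FiniteDimensional ℂ A'] [FiniteDimensional ℂ W']
  [AddCommGroup P] [Module ℂ P] [TopologicalSpace P] [IsTopologicalAddGroup P] [ContinuousSMul ℂ P]
  [T2Space P] [Fintype α] {act : A → W → W} {act' : A' → W' → W'} {S Z O M : Set W} {S' : Set W'}
  {c : α → A → ℂ} {T : Set (W × (α → ℂ))} {D : KD A W P} {n r d : ℕ} {τ : W → α → ℂ}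

namespace NA

theorem image_part [IsAct act S] {B : Set W} (hB : Ivt act (S ∩ B)) :
    Holo.Sp.mk '' {t : Holo.Sp act S | t.val ∈ B} = Quo.part act S B :=
  Subset.antisymm (by rintro _ ⟨y, hy, rfl⟩; exact (Quo.mem_part hB y).2 hy)
    fun z hz => ⟨_, hz, Holo.Sp.mk_out z⟩

theorem res_id {X : Type} [TopologicalSpace X] [Nice X] (β : BM X) : res id β = β := by
  have h := res_push_homeo (e := (id : X → X)) IsHomeomorph.id β
  rwa [push_id'] at h

theorem exists_mor [IsAct act S] [IsAct act' S'] (ho : Orb Aˣ (Holo.Sp act S))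
    (ho' : Orb A'ˣ (Holo.Sp act' S')) {θ : A' → A} {f : W' → W} (hf : EqM act' act S' S θ f) :
    ∃ m : Mor (spA ho') (spA ho), ⇑hf.map = m.map ∧ (∀ g : A'ˣ, Units.val (m.ρ g) = θ g) ∧
      ∀ t : Holo.Sp act' S', Holo.Sp.val (act := act) (m.f t) = f t.val := by
  obtain ⟨ρ, a, e⟩ := hf.hom
  let m : Mor (spA ho') (spA ho) := ⟨ρ, fun x : Holo.Sp act' S' => .of act _ (hf.maps x.val_mem), a,
    hf.cont.domRestrict.subtype_mk _, fun (g : A'ˣ) (t : Holo.Sp act' S') => Subtype.ext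
      ((hf.eqv g g.isUnit t.val t.val_mem).trans (congrArg (act · _) (e g).symm))⟩
  exact ⟨m, m.map_eq fun _ => rfl, e, fun _ => rfl⟩

/-- the Euler cocycle of a sum of line bundles -/
theorem cohom_chars {Y : Ch.Sp} {χ : α → Y.G →ₜ* ℂˣ} {s : Y.T → α → ℂ} (hs : (chars χ).IsSec s)
    (h : ∀ i, (Ch.char (χ i)).IsSec fun t => s t i) {l : List α} (hl : l.Nodup) (hl' : ∀ i, i ∈ l) :
    IsCo (Y.π '' {t | s t = 0}) (Fintype.card α) (l.map fun i => (h i).eul).prod ∧
      Cohom (Y.π '' {t | s t = 0}) hs.eul (l.map fun i => (h i).eul).prod := by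
  classical
  have a1 : l.length = Fintype.card α := by
    rw [← List.toFinset_card_of_nodup hl,
      Finset.eq_univ_of_forall fun a => List.mem_toFinset.2 (hl' a), Finset.card_univ]
  have a2 : {x | ∀ i ∈ l, x ∈ Y.π '' {t | s t i = 0}} = Y.π '' {t | s t = 0} := Set.ext fun x => by
    obtain ⟨t, rfl⟩ := Y.surj x
    exact ((forall_congr' fun i => (imp_iff_right (hl' i)).trans (h i).mem_zeros).trans
      funext_iff.symm).trans hs.mem_zeros.symm
  have a3 : ∀ l : List α, IsCo {x | ∀ i ∈ l, x ∈ Y.π '' {t | s t i = 0}} l.length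
      (l.map fun i => (h i).eul).prod := fun l => by
    induction l with
    | nil => exact Loc.IsCo.mono' Loc.isCo_one fun _ _ _ h => absurd h List.not_mem_nil
    | cons a l ih =>
      rw [List.map_cons, List.prod_cons, List.length_cons, add_comm]
      exact Loc.IsCo.mono' (Loc.IsCo.mul' (h a).isCo ih) fun x hx => List.forall_mem_cons.2 hx
  have a4 := a3 l
  have hM : ∀ i, Ch.Hom (Mor.id Y) (chars χ) (Ch.char (χ i)) fun _ => LinearMap.proj i := fun i =>
    Ch.Hom.of_continuous (fun _ _ _ => trivial) ((continuous_apply i).comp continuous_snd)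
      fun _ _ _ _ => rfl
  obtain ⟨E, L, k, b1, b2, -, b3, -⟩ := Tub.exists_sum (d := 1) hs hM (fun _ => rfl)
    (fun _ => Isol.refl _) (fun i => LCo.of_isCo (h i).isCo) (fun _ => LCoh.refl _ _) l
  have b4 : ∀ t w, L t w = 0 → w = 0 := fun t w e => funext fun i => b2 t w e i (hl' i)
  rw [a1, a2] at a4
  replace b3 : LCoh _ (k.isSec hs).eul _ := a2 ▸ b3
  exact ⟨a4, ((Iso.of_inj k (fun t w _ => b4 t w) (by rw [b1, a1, mul_one]; rfl)).cohom_eul' hs
    (k.isSec hs) fun _ => rfl).trans (b3.cohom hs.isClosed_zeros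
      ((k.isSec hs).isCo.supp.trans (image_mono fun t => b4 t _)) a4.supp)⟩

end NA

theorem chr_one : Chr fun (_ : α) (_ : A) => (1 : ℂ) :=
  ⟨fun _ => Tq.Hm.const, fun _ _ _ => analyticAt_const⟩

theorem sec_zero (h : ∀ i, Tq.Hm (c i)) : Tq.Sec act S c fun _ _ => 0 :=
  ⟨h, continuousOn_const, fun _ _ _ _ _ => (mul_zero _).symm⟩

theorem ivt_tot (h : Ivt act S) : Ivt (actV act c) (S ×ˢ univ) :=
  fun a ha _ hx => ⟨h a ha _ hx.1, trivial⟩

theorem eqM_fst (hT : MapsTo Prod.fst T S) : EqM (actV act c) act T S id Prod.fst :=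
  .same hT continuousOn_fst fun _ _ _ _ => rfl

theorem eqM_graph (hτ : Tq.Sec act S c τ) :
    EqM act (actV act c) S (S ×ˢ univ) id fun x => (x, τ x) :=
  .same (fun _ hx => ⟨hx, trivial⟩) (continuousOn_id.prodMk hτ.cont) fun a ha x hx =>
    Prod.ext rfl (funext (hτ.eqv a ha x hx))

theorem NA.graph_mk (hτ : Tq.Sec act S c τ) {z : (S ×ˢ univ : Set (W × (α → ℂ)))}
    (hz : z.1.2 = τ z.1.1) : (eqM_graph hτ).map (Quo.mk act ⟨_, z.2.1⟩) = Quo.mk _ z := by
  obtain ⟨⟨x, v⟩, _⟩ := z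
  obtain rfl : v = τ x := hz
  rfl

theorem range_graph [IsAct act S] (hτ : Tq.Sec act S c τ) :
    range (eqM_graph hτ).map = Quo.part (actV act c) (S ×ˢ univ) {z | z.2 = τ z.1} := by
  let p : Quo (actV act c) (S ×ˢ univ) → Prop := Quot.lift (fun z => z.1.2 = τ z.1.1) (by
    rintro z z' ⟨a, ha, e⟩
    rw [e]
    exact propext (funext_iff.trans (Iff.trans (forall_congr' fun i => (mul_right_inj'
      ((hτ.hm i).isUnit ha).ne_zero).symm.trans (by rw [← hτ.eqv a ha _ z.2.1]; rfl))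
        funext_iff.symm)))
  refine Subset.antisymm ?_ fun z hz => ⟨Quo.mk act ⟨_, z.out.2.1⟩, (NA.graph_mk hτ hz).trans
    (Quot.out_eq z)⟩
  rintro _ ⟨z, rfl⟩
  obtain ⟨x, rfl⟩ := Quot.exists_rep z
  exact (congrArg p (Quot.out_eq _)).mpr rfl

theorem cyc_tot (h : Cyc act O M d) :
    Cyc (actV act c) (O ×ˢ univ) (M ×ˢ univ) (d + Fintype.card α) := by
  have e : ∀ {B C : Set W}, B ⊆ closure C → B ×ˢ (univ : Set (α → ℂ)) ⊆ closure (C ×ˢ univ) :=
    fun h => (Set.prod_mono h subset_closure).trans closure_prod_eq.ge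
  rw [← finrank_fintype_fun_eq_card ℂ]
  refine ⟨⟨⟨ivt_tot h.inv, fun x => ?_, (e h.free).trans (closure_mono fun y hy =>
    ⟨⟨hy.1.1, trivial⟩, fun a ha b => hy.1.2 a ha (congrArg Prod.fst b)⟩)⟩,
    prod_univ ▸ h.lc.preimage continuous_fst, prod_mono h.sub subset_rfl, h.opn.elim fun U b =>
      ⟨Prod.fst ⁻¹' U, b.1.preimage continuous_fst, by rw [b.2, prod_univ, prod_univ]; rfl⟩, ?_⟩,
    e h.dense⟩
  · rw [← add_assoc]
    exact (MfdAt.prod ⟨x.2.1, h.mfd ⟨_, x.2.1⟩⟩ (MfdAt.univ x.1.2)).2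
  · rw [← add_assoc]
    exact h.small.prod.mono fun x hx => ⟨⟨hx.1.1, fun b => hx.2 ⟨b, trivial⟩⟩, trivial⟩

namespace Sc

variable {c : A → ℂ} {s : W → ℂ} (h : Sc act S c s)

include h in
theorem zeros : Holo.Sp.mk '' {t : Holo.Sp act S | s t.val = 0} = Quo.part act S {x | s x = 0} :=
  haveI := h.isAct
  NA.image_part fun a ha x hx => ⟨IsAct.mem a ha x hx.1,
    (h.eqv a ha x hx.1).trans ((congrArg _ hx.2).trans (mul_zero _))⟩

theorem isCo : IsCo (Quo.part act S {x | s x = 0}) 1 h.eu := h.zeros ▸ h.isSec.isCo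

/-- naturality of the Euler cocycle -/
theorem pull {c' : A' → ℂ} {s' : W' → ℂ} (h' : Sc act' S' c' s') {θ : A' → A} {f : W' → W}
    (hf : EqM act' act S' S θ f) (e₁ : ∀ a, IsUnit a → c' a = c (θ a))
    (e₂ : ∀ x ∈ S', s' x = s (f x)) :
    Cohom (Quo.part act' S' {x | s' x = 0}) (P291Z.pull hf.map h.eu) h'.eu := by
  haveI := h.isAct
  haveI := h'.isAct
  obtain ⟨m, a, b, e⟩ := NA.exists_mor h.orb h'.orb hf
  rw [a, ← h'.zeros]
  have k : Iso m (Ch.char (Y := spA h'.orb) h'.hm.ρ) (Ch.char (Y := spA h.orb) h.hm.ρ)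
      fun _ => LinearMap.id := ⟨Ch.Hom.of_continuous (fun _ _ _ => trivial) continuous_snd
    fun (g : A'ˣ) _ (w : ℂ) _ => congrArg (· * w) ((e₁ _ g.isUnit).trans (congrArg c (b g).symm)),
    fun _ _ _ h => h, fun _ w _ => ⟨w, trivial, rfl⟩⟩
  exact (k.cohom_eul h'.isSec h.isSec
    fun t => (e₂ _ (Holo.Sp.val_mem (act := act') t)).trans (congrArg s (e t).symm)).symm

end Sc

namespace Chr

variable (h : Chr c)
include h

theorem isAct [IsAct act S] (hT : MapsTo Prod.fst T S) (hi : Ivt (actV act c) T) :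
    IsAct (actV act c) T :=
  ⟨fun x hx => Prod.ext (IsAct.one _ (hT hx)) (funext fun i =>
      (congrArg (· * x.2 i) (h.hm i).one).trans (one_mul _)),
    fun a b ha hb x hx => Prod.ext (IsAct.mul a b ha hb _ (hT hx)) (funext fun i =>
      (congrArg (· * x.2 i) ((h.hm i).mul a b ha hb)).trans (mul_assoc _ _ _)), hi,
    fun a ha _ hx => ((IsAct.an a ha _ (hT hx)).comp_of_eq
      (analyticAt_fst.prod (analyticAt_fst.comp analyticAt_snd)) rfl).prod
      (analyticAt_pi_iff.2 fun i => ((h.an i a ha).comp_of_eq analyticAt_fst rfl).mul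
        (((ContinuousLinearMap.proj i : (α → ℂ) →L[ℂ] ℂ).analyticAt _).comp
          (analyticAt_snd.comp analyticAt_snd)))⟩

theorem isAct_univ [IsAct act univ] : IsAct (actV act c) univ :=
  h.isAct (S := univ) (mapsTo_univ _ _) fun _ _ _ _ => trivial

theorem orb [IsAct act S] [IsAct (actV act c) T] (ho : Orb Aˣ (Holo.Sp act S))
    (hT : MapsTo Prod.fst T S) (hl : IsLocallyClosed T) : Orb Aˣ (Holo.Sp (actV act c) T) :=
  haveI := FiniteDimensional.proper ℂ (W × (α → ℂ))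
  haveI : LocallyCompactSpace T := hl.locallyCompactSpace
  haveI : Nice (Holo.Sp (actV act c) T) := ⟨inferInstance, inferInstance, inferInstance⟩
  ho.of_map (f := fun x : Holo.Sp (actV act c) T => .of act x.val.1 (hT x.val_mem))
    (Holo.Sp.continuous_val.fst.subtype_mk _) fun _ _ => rfl

theorem sc [IsAct act S] (ho : Orb Aˣ (Holo.Sp act S)) (hτ : Tq.Sec act S c τ)
    (hT : MapsTo Prod.fst T S) (hi : Ivt (actV act c) T) (hl : IsLocallyClosed T) (i : α) :
    Sc (actV act c) T (c i) fun z => z.2 i - τ z.1 i :=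
  haveI := h.isAct hT hi
  ⟨this, h.orb ho hT hl, h.hm i, ((continuous_apply i).comp continuous_snd).continuousOn.sub
    ((continuous_apply i).comp_continuousOn (hτ.cont.comp continuousOn_fst hT)), fun a ha _ hx =>
      (congrArg (_ - ·) (hτ.eqv a ha _ (hT hx) i)).trans (mul_sub _ _ _).symm⟩

theorem gd (hD : D.Gd act Z O n r) :
    (D.pb id Prod.fst).Gd (actV act c) (Z ×ˢ univ) (O ×ˢ univ) n r :=
  haveI := hD.dom.isAct
  haveI := h.isAct (T := O ×ˢ univ) (fun _ hx => hx.1) (ivt_tot hD.ivt)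
  ⟨⟨prod_mono hD.dom.sub subset_rfl, ⟨univ, isOpen_univ, (inter_univ _).symm⟩, this,
    h.orb hD.dom.orb (fun _ hx => hx.1) (prod_univ ▸ hD.lc.preimage continuous_fst),
    fun _ hx => (hD.dom.zero _ hx.1).trans (and_iff_left trivial).symm⟩,
    hD.ok.pb' (eqM_fst fun _ hx => hx.1)⟩

theorem spt : Spt (actV act c) (fun a v i => c i a * v i)
    ((ContinuousLinearMap.fst ℂ W (α → ℂ)).prod (0 : W × (α → ℂ) →L[ℂ] α → ℂ))
    (ContinuousLinearMap.snd ℂ W (α → ℂ)) (ContinuousLinearMap.inr ℂ W (α → ℂ)) :=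
  ⟨fun _ => Prod.ext (add_zero _) (zero_add _), fun _ => rfl,
    ⟨fun _ _ _ _ => trivial, fun _ _ _ _ _ _ => funext fun _ => mul_add _ _ _,
      fun _ _ _ _ _ => funext fun _ => mul_left_comm _ _ _,
      fun q _ => funext fun i => (congrArg (· * q i) (h.hm i).one).trans (one_mul _),
      fun a b ha hb q _ => funext fun i =>
        (congrArg (· * q i) ((h.hm i).mul a b ha hb)).trans (mul_assoc _ _ _),
      fun _ _ => continuous_pi fun i =>
        (Units.continuous_val.comp (h.hm i).ρ.continuous).mul continuous_const⟩,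
    fun _ _ _ => Prod.ext rfl (funext fun _ => (mul_zero _).symm), fun _ _ _ => rfl⟩

omit h in
theorem bun_zero [IsAct (actV act c) univ] :
    Bun (actV act c) act (O ×ˢ {0}) O (ContinuousLinearMap.id ℂ A) Prod.fst :=
  ⟨⟨rfl, fun _ _ => rfl, surjective_id, fun b hb => ⟨b, hb, rfl⟩, fun _ hx => hx.1,
    fun _ _ => ⟨_, analyticAt_fst, .of_forall fun _ => rfl⟩, fun _ _ _ _ => rfl,
    fun x hx _ hy e => ⟨1, isUnit_one, rfl,
      (IsAct.one x (mem_univ x)).trans (Prod.ext e (hx.2.trans hy.2.symm))⟩,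
    fun _ _ _ _ e _ => e⟩, fun _ _ _ _ e _ _ => tendsto_const_nhds.congr fun n => (e n).2.2.symm,
    fun _ hx => ⟨fun y => (y, 0), analyticAt_id.prod analyticAt_const, Prod.ext rfl hx.2.symm,
      eventually_nhdsWithin_of_forall fun _ hy => ⟨⟨hy, rfl⟩, rfl⟩⟩⟩

omit h in
theorem isClosedEmbedding_graph (hτ : Tq.Sec act S c τ) [Nice (Quo (actV act c) (S ×ˢ univ))] :
    IsClosedEmbedding (eqM_graph hτ).map :=
  LeftInverse.isClosedEmbedding (f := (eqM_fst fun _ hx => hx.1).map)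
    (fun z => Quot.inductionOn z fun _ => rfl) (ContinuousMap.continuous _)
    (ContinuousMap.continuous _)

section big

variable [IsAct act S] [IsAct (actV act c) (S ×ˢ univ)]
  (ho : Orb Aˣ (Holo.Sp (actV act c) (S ×ˢ univ))) (hτ : Tq.Sec act S c τ)
include hτ

theorem isSec : (chars (Y := spA ho) fun i => (h.hm i).ρ).IsSec
    fun z : Holo.Sp (actV act c) (S ×ˢ univ) => z.val.2 - τ z.val.1 :=
  ⟨fun _ => trivial, show Continuous fun z : Holo.Sp (actV act c) (S ×ˢ univ) =>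
    z.val.2 - τ z.val.1 from Holo.Sp.continuous_val.snd.sub
      (hτ.cont.comp_continuous Holo.Sp.continuous_val.fst fun z => z.val_mem.1),
    fun (g : Aˣ) (z : Holo.Sp (actV act c) (S ×ˢ univ)) => funext fun i =>
      (congrArg (c i g * z.val.2 i - ·) (hτ.eqv _ g.isUnit _ z.val_mem.1 i)).trans
        (mul_sub _ _ _).symm⟩

omit h in
theorem zeros : Holo.Sp.mk '' {z : Holo.Sp (actV act c) (S ×ˢ univ) | z.val.2 - τ z.val.1 = 0} =
    range (eqM_graph hτ).map := by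
  refine Subset.antisymm ?_ ?_
  · rintro _ ⟨z, hz, rfl⟩
    exact ⟨_, NA.graph_mk hτ (z := ⟨_, z.val_mem⟩) (sub_eq_zero.1 hz)⟩
  · rintro _ ⟨z, rfl⟩
    obtain ⟨x, rfl⟩ := Quot.exists_rep z
    exact ⟨.of _ (x, τ x) ⟨x.2, trivial⟩, sub_self _, rfl⟩

theorem cohom (hs : ∀ i, Sc (actV act c) (S ×ˢ univ) (c i) fun z => z.2 i - τ z.1 i) {l : List α}
    (hl : l.Nodup) (hl' : ∀ i, i ∈ l) :
    IsCo (range (eqM_graph hτ).map) (Fintype.card α) (h.isSec ho hτ).eul ∧
      IsCo (range (eqM_graph hτ).map) (Fintype.card α) (l.map fun i => (hs i).eu).prod ∧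
      Cohom (range (eqM_graph hτ).map) (h.isSec ho hτ).eul (l.map fun i => (hs i).eu).prod :=
  zeros hτ ▸ ⟨(h.isSec ho hτ).isCo, NA.cohom_chars (h.isSec ho hτ) (fun i => (hs i).isSec) hl hl'⟩

end big

theorem gys_big [IsAct act univ] [IsAct act O] [IsAct (actV act c) (O ×ˢ univ)]
    (ho : Orb Aˣ (Holo.Sp act O)) (hM : Cyc act O M d) (hτ : Tq.Sec act O c τ)
    (hT : Orb Aˣ (Holo.Sp (actV act c) (O ×ˢ univ))) [Nice (Quo (actV act c) (O ×ˢ univ))] :
    gys (eqM_graph hτ).map (h.isSec hT hτ).eul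
      (fnd (actV act c) (O ×ˢ univ) (d + Fintype.card α)) = fnd act O d := by
  haveI := h.isAct_univ (act := act)
  haveI := nice_of_orb ho
  have i0 : Ivt (actV act c) (O ×ˢ {0}) := fun a ha x hx =>
    ⟨IsAct.mem a ha _ hx.1, funext fun i => (congrArg (_ * ·) (congrFun hx.2 i)).trans (mul_zero _)⟩
  have l0 : IsLocallyClosed (O ×ˢ {0} : Set (W × (α → ℂ))) :=
    (hM.lc.preimage continuous_fst).inter (isClosed_singleton.preimage continuous_snd).isLocallyClosed
  haveI : IsAct (actV act c) (O ×ˢ {0}) := h.isAct (fun _ hx => hx.1) i0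
  have o0 := h.orb ho (T := O ×ˢ {0}) (fun _ hx => hx.1) l0
  haveI := nice_of_orb o0
  have b := bun_zero (act := act) (c := c) (O := O)
  have c0 := b.cyc i0 IsAct.mem Subset.rfl hM
  rw [inter_eq_left.2 b.maps.subset_preimage] at c0
  obtain ⟨a1, a2⟩ := b.res_fnd i0 IsAct.mem ho hM l0
  have s := h.spt (act := act)
  have h0 : ∀ x ∈ (O ×ˢ {0} : Set (W × (α → ℂ))), ContinuousLinearMap.snd ℂ W (α → ℂ) x = 0 :=
    fun _ hx => hx.2
  have e : O ×ˢ univ = (ContinuousLinearMap.fst ℂ W (α → ℂ)).prod (0 : W × (α → ℂ) →L[ℂ] α → ℂ) ⁻¹'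
      (O ×ˢ {0}) ∩ univ := Set.ext fun _ => and_congr_left' (and_iff_left rfl).symm
  obtain ⟨β, a3, a4⟩ := s.exists_tot o0 h0 c0 hT isOpen_univ e
  have a5 := s.open_map o0 h0 hT isOpen_univ e
  set m := s.mor o0 hT (e.le.trans inter_subset_left) with hm
  have hζ : (s.vb o0).IsSec fun x : Holo.Sp (actV act c) (O ×ˢ {0}) => τ x.val.1 :=
    ⟨fun _ => trivial, hτ.cont.comp_continuous Holo.Sp.continuous_val.fst fun z => z.val_mem.1,
      fun g z => funext (hτ.eqv _ (Units.isUnit g) _ (Holo.Sp.val_mem (act := actV act c) z).1)⟩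
  have z0 : EqM act (actV act c) O (O ×ˢ {0}) id fun x => (x, 0) :=
    (eqM_graph (sec_zero h.hm)).mono Subset.rfl fun _ hx => ⟨hx, rfl⟩
  have a6 : ∀ z, b.toEt.map (z0.map z) = z := fun z => Quot.inductionOn z fun _ => rfl
  have a7 : IsHomeomorph z0.map := isHomeomorph_iff_exists_inverse.2
    ⟨z0.map.continuous, _, a6, fun z => a1.injective (a6 _), a1.continuous⟩
  have sq : ∀ z, m.map ((eqM_graph hτ).map z) = hζ.mor.map (z0.map z) := fun z =>
    Quot.inductionOn z fun x => (m.map_π (Holo.Sp.of (actV act c) (x, τ x) ⟨x.2, trivial⟩)).trans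
      (hζ.mor.map_π (Holo.Sp.of (actV act c) (x, 0) ⟨x.2, rfl⟩)).symm
  have hr : m.map ⁻¹' range hζ.mor.map ⊆ range (eqM_graph hτ).map := fun x ⟨y, hy⟩ => by
    obtain ⟨z, rfl⟩ := a7.surjective y
    exact ⟨z, a5.injective ((sq z).trans hy)⟩
  have c1 := hζ.range_mor ▸ hζ.isSec_sub.isCo
  have c2 := Loc.IsCo.mono' (Loc.IsCo.pull' c1 m.map.continuous) hr
  have c3 := zeros hτ ▸ (h.isSec hT hτ).isCo
  have k : Iso m (chars (Y := spA hT) fun i => (h.hm i).ρ) ((s.vb o0).pb (s.vb o0).proj)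
      fun _ => LinearMap.id := ⟨Ch.Hom.of_continuous (fun _ _ _ => trivial) continuous_snd
    fun _ _ _ _ => rfl, fun _ _ _ h => h, fun _ w _ => ⟨w, trivial, rfl⟩⟩
  have c4 := zeros hτ ▸ k.cohom_eul (h.isSec hT hτ) hζ.isSec_sub fun _ => rfl
  have c5 := res_gys hζ.isClosedEmbedding (isClosedEmbedding_graph hτ) a5 a7.isOpenEmbedding sq hr
    c1.cocycle c1.supp β
  have c6 : res z0.map (fnd (actV act c) (O ×ˢ {0}) d) = fnd act O d := by
    rw [← a2, res_res a7.isOpenEmbedding a1, show b.toEt.map ∘ z0.map = id from funext a6,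
      NA.res_id]
  rw [hζ.gys_move, a4] at c5
  rw [finrank_fintype_fun_eq_card] at a3
  rw [gys_congr (isClosedEmbedding_graph hτ) c3.cocycle c3.supp c2.cocycle c2.supp c4, ← a3, ← c6]
  exact c5.symm

/-- **The graph of a section cuts the class of the base out of the class of the total space.** -/
theorem gys_graph [IsAct act univ] (hD : D.Gd act Z O n r) (hM : Cyc act O M d)
    (hτ : Tq.Sec act Z c τ)
    (hs : ∀ i, Sc (actV act c) (Z ×ˢ univ) (c i) fun z => z.2 i - τ z.1 i) {l : List α}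
    (hl : l.Nodup) (hl' : ∀ i, i ∈ l) [Nice (Quo (actV act c) (Z ×ˢ univ))] :
    IsClosedEmbedding (eqM_graph hτ).map ∧
      IsCo (range (eqM_graph hτ).map) (Fintype.card α) (l.map fun i => (hs i).eu).prod ∧
      gys (eqM_graph hτ).map (l.map fun i => (hs i).eu).prod
        ((D.pb id Prod.fst).vr (actV act c) _ _ ((h.gd hD).fu (d + Fintype.card α))) =
        D.vr act Z O (hD.fu d) := by
  classical
  have h' := h.gd hD
  haveI := hD.dom.isAct
  haveI := hD.isActZ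
  haveI := h'.dom.isAct
  haveI := h'.isActZ
  haveI := h'.nice
  haveI := hD.nice
  haveI := hD.niceZ
  obtain ⟨C, hC, e⟩ := hD.clo
  obtain ⟨s, a1, a2⟩ := (chars (Y := spA hD.dom.orb) fun i => (h.hm i).ρ).exists_ext_sec
    (C := {t : Holo.Sp act O | t.val ∈ Z}) (f := fun t : Holo.Sp act O => τ t.val)
    (show IsClosed {t : Holo.Sp act O | t.val ∈ Z} from
      (Set.ext fun t => (and_iff_right t.val_mem).symm.trans (Set.ext_iff.1 e _).symm :
        Holo.Sp.val ⁻¹' C = {t : Holo.Sp act O | t.val ∈ Z}) ▸ hC.preimage Holo.Sp.continuous_val)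
    (fun (g : Aˣ) _ ht => hD.ivtZ _ g.isUnit _ ht)
    (hτ.cont.comp Holo.Sp.continuous_val.continuousOn fun _ ht => ht)
    (fun (g : Aˣ) _ ht => funext (hτ.eqv _ g.isUnit _ ht)) fun _ _ => trivial
  let τ' : W → α → ℂ := fun x => if hx : x ∈ O then s (.of act x hx) else 0
  have a3 : ∀ x (hx : x ∈ O), τ' x = s (.of act x hx) := fun x hx => dif_pos hx
  have a4 : ∀ x ∈ Z, τ' x = τ x := fun x hx => (a3 x (hD.dom.sub hx)).trans (a2 _ hx)
  have k : Tq.Sec act O c τ' := ⟨h.hm, continuousOn_iff_continuous_domRestrict.2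
    (a1.cont.congr fun x => (a3 _ x.2).symm), fun a ha x hx i => by
      obtain ⟨g, rfl⟩ := ha
      rw [a3 x hx, a3 _ (hD.ivt _ g.isUnit x hx)]
      exact congrFun (a1.eqv g (.of act x hx)) i⟩
  have hz : EqM act (actV act c) Z (Z ×ˢ univ) id fun x => (x, τ' x) :=
    (eqM_graph k).mono hD.dom.sub fun _ hx => ⟨hx, trivial⟩
  have a5 : ⇑hz.map = (eqM_graph hτ).map := funext fun z => Quot.inductionOn z fun x =>
    (NA.graph_mk hτ (z := ⟨(x, τ' x), x.2, trivial⟩) (a4 x x.2)).symm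
  obtain ⟨b1, b2, b3⟩ := h.cohom h'.orbZ hτ hs hl hl'
  have b4 := zeros k ▸ (h.isSec h'.dom.orb k).isCo
  obtain ⟨-, b5⟩ := hD.vr_gys h' (eqM_graph k) (B := LinearMap.id) ⟨fun _ b => b, fun _ _ _ _ => rfl,
    fun _ _ _ b => b, fun x _ => mem_of_eq_of_mem (sub_self (D.s x)) (zero_mem _), fun _ _ _ _ b => b⟩
    (fun _ _ _ _ b => b) (fun _ => rfl) (fun _ _ b => b.1) hz (isClosedEmbedding_graph k)
    b4.cocycle b4.supp (h'.fu (d + Fintype.card α))
  obtain ⟨m, c1, c2, c3⟩ := NA.exists_mor h'.dom.orb h'.orbZ (EqM.incl h'.dom.sub)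
  have c4 : Iso m (chars (Y := spA h'.orbZ) fun i => (h.hm i).ρ)
      (chars (Y := spA h'.dom.orb) fun i => (h.hm i).ρ) fun _ => LinearMap.id :=
    ⟨Ch.Hom.of_continuous (fun _ _ _ => trivial) continuous_snd fun (g : Aˣ) _ (w : α → ℂ) _ =>
      funext fun i => congrArg (fun a => c i a * w i) (c2 g).symm,
      fun _ _ _ h => h, fun _ w _ => ⟨w, trivial, rfl⟩⟩
  have c8 : ∀ t : Holo.Sp (actV act c) (Z ×ˢ univ), t.val.2 - τ t.val.1 =
      (Holo.Sp.val (act := actV act c) (m.f t)).2 - τ' (Holo.Sp.val (act := actV act c) (m.f t)).1 :=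
    fun t => ((congrArg (fun z : W × (α → ℂ) => z.2 - τ' z.1) (c3 t)).trans
      (congrArg (t.val.2 - ·) (a4 _ t.val_mem.1))).symm
  have c5 := zeros hτ ▸ c4.cohom_eul (h.isSec h'.orbZ hτ) (h.isSec h'.dom.orb k) c8
  have c6 := Loc.IsCo.mono' (Loc.IsCo.pull' (h.isSec h'.dom.orb k).isCo m.map.continuous)
    (B := range (eqM_graph hτ).map) fun z hz => by
      obtain ⟨t, rfl⟩ := (spA h'.orbZ).surj z
      exact zeros hτ ▸ ⟨t, (c8 t).trans ((h.isSec h'.dom.orb k).mem_zeros.1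
        (mem_of_eq_of_mem (m.map_π t).symm hz)), rfl⟩
  have c7 := isClosedEmbedding_graph hτ
  refine ⟨c7, b2, ?_⟩
  rw [← gys_congr c7 b1.cocycle b1.supp b2.cocycle b2.supp b3,
    gys_congr c7 b1.cocycle b1.supp c6.cocycle c6.supp c5, ← c1, ← a5]
  exact b5.trans (congrArg _ (h.gys_big hD.dom.orb hM k h'.dom.orb))

/-- the same without Kuranishi data -/
theorem gys_graph₀ [IsAct act univ] [IsAct act O] [IsAct (actV act c) (O ×ˢ univ)]
    (ho : Orb Aˣ (Holo.Sp act O)) (hM : Cyc act O M d) (hτ : Tq.Sec act O c τ)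
    (hs : ∀ i, Sc (actV act c) (O ×ˢ univ) (c i) fun z => z.2 i - τ z.1 i) {l : List α}
    (hl : l.Nodup) (hl' : ∀ i, i ∈ l) [Nice (Quo (actV act c) (O ×ˢ univ))] :
    IsClosedEmbedding (eqM_graph hτ).map ∧
      IsCo (range (eqM_graph hτ).map) (Fintype.card α) (l.map fun i => (hs i).eu).prod ∧
      gys (eqM_graph hτ).map (l.map fun i => (hs i).eu).prod
        (fnd (actV act c) (O ×ˢ univ) (d + Fintype.card α)) = fnd act O d := by
  haveI := nice_of_orb ho
  have hT := h.orb ho (T := O ×ˢ univ) (fun _ hx => hx.1) (cyc_tot (c := c) hM).lc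
  obtain ⟨a, b, e⟩ := h.cohom hT hτ hs hl hl'
  have k := isClosedEmbedding_graph hτ
  exact ⟨k, b, by rw [← gys_congr k a.cocycle a.supp b.cocycle b.supp e, h.gys_big ho hM hτ hT]⟩

end Chr

end Vale.Agent.P269.Nd
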