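import Vale.Agent.P269.Glu.NdDefs
import Vale.Agent.P269.Glu.Pcy
import Vale.Agent.P269.Map.GyB

/-!
# Neighbourhoods of torus bundles, virtual classes along principal bundles
-/

set_option linter.unusedSectionVars false

namespace Vale.Agent.P269.Nd

open P291Z Set Function Topology Filter Module Orb Holo Ch Ch.KD

variable {A A' W W' P P' α β : Type} [NormedRing A] [NormedAlgebra ℂ A] [NormedAddCommGroup W]
  [NormedSpace ℂ W] [NormedRing A'] [NormedAlgebra ℂ A'] [NormedAddCommGroup W'] [NormedSpace ℂ W']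
  [FiniteDimensional ℂ A] [FiniteDimensional ℂ W] [FiniteDimensional ℂ A'] [FiniteDimensional ℂ W']
  [AddCommGroup P] [Module ℂ P] [TopologicalSpace P] [IsTopologicalAddGroup P] [ContinuousSMul ℂ P]
  [T2Space P] [AddCommGroup P'] [Module ℂ P'] [TopologicalSpace P'] [IsTopologicalAddGroup P']
  [ContinuousSMul ℂ P'] [T2Space P'] [Fintype α] [Fintype β] {act : A → W → W}
  {act' : A' → W' → W'} {B Z O M : Set W} {B' Z' O' M' N : Set W'} {θ : A' →L[ℂ] A}

section lab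

variable {w : β → α → ℤ} {σ : β → α → ℂ} {r : β → W' → ℂ} {c : α → A' → ℂ}
  {g : W' × (α → ℂ) → W} {z : W' × (α → ℂ)}

theorem N0_subset : N0 w r B' ⊆ N1 w r B' := fun _ h =>
  ⟨h.1, h.2.1, fun b => (h.2.2 b).symm ▸ Complex.one_mem_slitPlane⟩

theorem lab_eq (hz : z ∈ N0 w r B') : lab w σ r z = z :=
  Prod.ext rfl (funext fun i => by simp [lab, hz.2.2])

theorem lf_eq (hz : z ∈ N0 w r B') : lf w σ r g z = (g z, fun _ => 0) :=
  Prod.ext (congrArg g (lab_eq hz)) (funext fun b =>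
    (congrArg Complex.log (hz.2.2 b)).trans Complex.log_one)

theorem mem_N0 (hz : z ∈ N1 w r B') (h : ∀ b, Complex.log (rho w r z b) = 0) : z ∈ N0 w r B' :=
  ⟨hz.1, hz.2.1, fun b => by
    rw [← Complex.exp_log (Complex.slitPlane_ne_zero (hz.2.2 b)), h, Complex.exp_zero]⟩

variable (σ) in
/-- The flow in the directions `σ`. -/
noncomputable def flw (ξ : β → ℂ) (z : W' × (α → ℂ)) : W' × (α → ℂ) :=
  (z.1, fun i => z.2 i * Complex.exp (∑ b, σ b i * ξ b))

theorem lab_flw (z : W' × (α → ℂ)) :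
    lab w σ r z = flw σ (-fun b => Complex.log (rho w r z b)) z :=
  Prod.ext rfl (funext fun i => by simp [lab, flw])

theorem flw_flw {ξ η : β → ℂ} (h : ξ + η = 0) (z : W' × (α → ℂ)) : flw σ ξ (flw σ η z) = z :=
  Prod.ext rfl (funext fun i => by
    have : ∀ b, η b + ξ b = 0 := fun b => (add_comm _ _).trans (congrFun h b)
    simp only [flw, mul_assoc, ← Complex.exp_add, ← Finset.sum_add_distrib, ← mul_add, this]
    simp)

theorem flw_lab (z : W' × (α → ℂ)) :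
    flw σ (fun b => Complex.log (rho w r z b)) (lab w σ r z) = z :=
  lab_flw (σ := σ) z ▸ flw_flw (add_neg_cancel _) z

theorem flw_act (ξ : β → ℂ) (a : A') (z : W' × (α → ℂ)) :
    flw σ ξ (actV act' c a z) = actV act' c a (flw σ ξ z) :=
  Prod.ext rfl (funext fun _ => mul_assoc _ _ _)

theorem flw_ne (ξ : β → ℂ) (h : ∀ i, z.2 i ≠ 0) (i : α) : (flw σ ξ z).2 i ≠ 0 :=
  mul_ne_zero (h i) (Complex.exp_ne_zero _)

theorem an_flw (q : (β → ℂ) × W' × (α → ℂ)) :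
    AnalyticAt ℂ (fun q : (β → ℂ) × W' × (α → ℂ) => flw σ q.1 q.2) q := by
  have h : ∀ {ι : Type} [Fintype ι] (i : ι) (x : ι → ℂ), AnalyticAt ℂ (fun x : ι → ℂ => x i) x :=
    fun i x => (ContinuousLinearMap.proj i : (_ → ℂ) →L[ℂ] ℂ).analyticAt x
  exact (analyticAt_fst.comp analyticAt_snd).prod (analyticAt_pi_iff.2 fun i =>
    ((h i _).comp (analyticAt_snd.comp analyticAt_snd)).mul (Finset.analyticAt_fun_sum _ fun b _ =>
      analyticAt_const.mul ((h b _).comp analyticAt_fst)).cexp')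

namespace Lab

variable [DecidableEq β] (h : Lab w σ r act' c B')
include h

theorem rho_flw (ξ : β → ℂ) (z : W' × (α → ℂ)) (b : β) :
    rho w r (flw σ ξ z) b = rho w r z b * Complex.exp (ξ b) := by
  have e : ∑ i, w b i * ∑ b', σ b' i * ξ b' = ξ b := by
    simp only [Finset.mul_sum, ← mul_assoc]
    rw [Finset.sum_comm]
    simp [← Finset.sum_mul, h.dual]
  simp only [rho, flw, mul_zpow, Finset.prod_mul_distrib, ← Complex.exp_int_mul, ← Complex.exp_sum,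
    e, mul_right_comm]

theorem rho_act {a : A'} (ha : IsUnit a) (hz : z.1 ∈ B') : rho w r (actV act' c a z) = rho w r z :=
  funext fun b => by
    simp only [rho, actV, mul_zpow, Finset.prod_mul_distrib]
    rw [← h.inv a ha _ hz b]
    ring

theorem act_ne {a : A'} (ha : IsUnit a) (hz : ∀ i, z.2 i ≠ 0) (i : α) :
    (actV act' c a z).2 i ≠ 0 := mul_ne_zero ((h.chr.hm i).isUnit ha).ne_zero (hz i)

theorem ivt0 : Ivt (actV act' c) (N0 w r B') := fun a ha _ hz =>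
  ⟨h.ivt a ha _ hz.1, h.act_ne ha hz.2.1, h.rho_act ha hz.1 ▸ hz.2.2⟩

theorem ivt1 : Ivt (actV act' c) (N1 w r B') := fun a ha _ hz =>
  ⟨h.ivt a ha _ hz.1, h.act_ne ha hz.2.1, h.rho_act ha hz.1 ▸ hz.2.2⟩

theorem holOn_rho (h1 : z.1 ∈ B') (h2 : ∀ i, z.2 i ≠ 0) (b : β) :
    HolOn (B' ×ˢ univ) (fun z => rho w r z b) z :=
  ((HolOn.of_an (Finset.analyticAt_fun_prod _ fun i _ => AnalyticAt.fun_zpow
    (((ContinuousLinearMap.proj i : (α → ℂ) →L[ℂ] ℂ).analyticAt _).comp analyticAt_snd)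
      (h2 i))).prod ((h.hol b _ h1).comp (.of_an analyticAt_fst) (mk_mem_prod h1 (mem_univ _))
        (.of_forall fun _ a => a.1))).comp_an (mk_mem_prod h1 (mem_univ _))
    (analyticAt_fst.mul analyticAt_snd)

theorem open1 : ∃ U, IsOpen U ∧ N1 w r B' = B' ×ˢ univ ∩ U := by
  refine ⟨interior {z | z ∈ B' ×ˢ univ → z ∈ N1 w r B'}, isOpen_interior, Set.ext fun z =>
    ⟨fun hz => ⟨⟨hz.1, trivial⟩, mem_interior_iff_mem_nhds.2 ?_⟩,
      fun hz => interior_subset hz.2 hz.1⟩⟩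
  filter_upwards [eventually_all.2 fun b => (h.holOn_rho hz.1 hz.2.1 b).ev ⟨hz.1, trivial⟩
    (Complex.isOpen_slitPlane.mem_nhds (hz.2.2 b)), eventually_all.2 fun i =>
      ((continuous_apply i).comp continuous_snd).continuousAt.eventually_ne (hz.2.1 i)]
    with y a b e using ⟨e.1, b, fun k => a k e⟩

theorem lab_mem (hz : z ∈ N1 w r B') : lab w σ r z ∈ N0 w r B' :=
  lab_flw (σ := σ) z ▸ ⟨hz.1, flw_ne _ hz.2.1, fun b => by
    have := Complex.slitPlane_ne_zero (hz.2.2 b)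
    rw [h.rho_flw, Pi.neg_apply, Complex.exp_neg, Complex.exp_log this, mul_inv_cancel₀ this]⟩

theorem lab_act {a : A'} (ha : IsUnit a) (hz : z.1 ∈ B') :
    lab w σ r (actV act' c a z) = actV act' c a (lab w σ r z) := by
  rw [lab_flw, lab_flw, h.rho_act ha hz, flw_act]

theorem holOn_log (hz : z ∈ N1 w r B') (b : β) :
    HolOn (N1 w r B') (fun z => Complex.log (rho w r z b)) z :=
  ((h.holOn_rho hz.1 hz.2.1 b).comp_an ⟨hz.1, trivial⟩ (analyticAt_clog (hz.2.2 b))).mono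
    (.of_forall fun _ a => ⟨a.1, trivial⟩)

theorem holOn_lab (hz : z ∈ N1 w r B') : HolOn (N1 w r B') (lab w σ r) z :=
  ((((HolOn.pi (h.holOn_log hz)).comp_an hz analyticAt_id.neg).prod (.of_an analyticAt_id)).comp_an
    hz (an_flw (σ := σ) _)).congr (.of_forall fun y _ => lab_flw y)

/-- **The neighbourhood is a principal bundle over an open part of the trivial bundle.** -/
theorem bun (hb : Bun (actV act' c) act (N0 w r B') B θ g) :
    Bun (actV act' c) (actV act fun (_ : β) _ => 1) (N1 w r B') (B ×ˢ univ) θ (lf w σ r g) := by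
  refine ⟨⟨hb.one, hb.mul, hb.surj, hb.usurj, fun x hx => ⟨hb.maps (h.lab_mem hx), trivial⟩,
    fun x hx => ?_, fun a ha x hx => Prod.ext ?_ (funext fun b => ?_), fun x hx y hy e => ?_,
    fun x hx a ha h1 h2 => hb.free _ (h.lab_mem hx) a ha h1
      ((h.lab_act ha hx.1).symm.trans (congrArg _ h2))⟩, fun x hx y a h1 h2 h3 => ?_,
    fun x hx => ?_⟩
  · have k : HolOn (N0 w r B') g (lab w σ r x) := (hb.hol _ (h.lab_mem hx)).imp fun _ a =>
      ⟨a.1, eventually_nhdsWithin_iff.1 a.2⟩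
    exact ((k.comp (h.holOn_lab hx) hx (.of_forall fun _ => h.lab_mem)).prod
      (.pi (h.holOn_log hx))).imp fun _ a => ⟨a.1, eventually_nhdsWithin_iff.2 a.2⟩
  · exact (congrArg g (h.lab_act ha hx.1)).trans (hb.eqv a ha _ (h.lab_mem hx))
  · exact (congrArg (fun f => Complex.log (f b)) (h.rho_act ha hx.1)).trans (one_mul _).symm
  · obtain ⟨a, h1, h2, h3⟩ := hb.fib _ (h.lab_mem hx) _ (h.lab_mem hy) (congrArg Prod.fst e)
    refine ⟨a, h1, h2, ?_⟩
    rw [← flw_lab (w := w) (σ := σ) (r := r) x, ← flw_act, h3]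
    exact (congrArg (flw σ · _) (congrArg Prod.snd e)).trans (flw_lab y)
  · have k := (h.holOn_lab hx).tendsto hx
    refine hb.rig _ (h.lab_mem hx) (fun n => lab w σ r (y n)) a
      (fun n => ⟨h.lab_mem (h1 n).1, (h1 n).2⟩)
      (k.comp (tendsto_nhdsWithin_iff.2 ⟨h2, .of_forall fun n => (h1 n).1⟩))
      ((k.comp (tendsto_nhdsWithin_iff.2 ⟨h3, .of_forall fun n =>
        h.ivt1 _ (h1 n).2.1 _ (h1 n).1⟩)).congr fun n => h.lab_act (h1 n).2.1 (h1 n).1.1)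
  · obtain ⟨s, h1, h2, h3⟩ := hb.sec _ (h.lab_mem hx)
    let e := Complex.expOpenPartialHomeomorph
    refine ⟨fun q => flw σ q.2 (s q.1), (an_flw _).comp
      (analyticAt_snd.prod (h1.comp_of_eq analyticAt_fst rfl)),
      (congrArg (flw σ _) h2).trans (flw_lab x), eventually_nhdsWithin_iff.2 ?_⟩
    filter_upwards [continuousAt_fst.eventually (eventually_nhdsWithin_iff.1 h3),
      eventually_all.2 fun b => ((continuous_apply b).comp continuous_snd).continuousAt.eventually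
        (e.open_source.mem_nhds (e.map_target (hx.2.2 b)))] with q a b k
    obtain ⟨a1, a2⟩ := a k.1
    have a3 : ∀ i, rho w r (flw σ q.2 (s q.1)) i = Complex.exp (q.2 i) := fun i => by
      rw [h.rho_flw, a1.2.2, one_mul]
    have a4 : (fun i => Complex.log (rho w r (flw σ q.2 (s q.1)) i)) = q.2 := funext fun i =>
      (congrArg _ (a3 i)).trans (e.left_inv (b i))
    refine ⟨⟨a1.1, flw_ne _ a1.2.1, fun i => (a3 i).symm ▸ e.map_source (b i)⟩, Prod.ext ?_ a4⟩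
    refine Eq.trans (congrArg g ?_) a2
    rw [lab_flw, a4, flw_flw (neg_add_cancel _)]

end Lab

end lab

/-- the dimension of a cycle is determined -/
theorem cyc_dim {M₁ : Set W} {d d₁ : ℕ} (h : Cyc act O M d) (h₁ : Cyc act O M₁ d₁)
    (hO : O.Nonempty) : d = d₁ := by
  obtain ⟨x, hx⟩ := h.pcy.nonempty hO
  obtain ⟨U, hU, e⟩ := h.opn
  obtain ⟨y, a, b⟩ := mem_closure_iff.1 (h₁.dense (h.sub hx)) U hU (e.le hx).2
  have c : y ∈ M := e.ge ⟨h₁.sub b, a⟩
  exact add_left_cancel (((isMfd_of_nhdsWithin c h.sub (h.mem_nhds c)).1 (h.mfd _)).unique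
    ((isMfd_of_nhdsWithin b h₁.sub (h₁.mem_nhds b)).1 (h₁.mfd _)))

/-- fundamental classes along principal bundles -/
theorem fnd_bun [IsAct act univ] [IsAct act' univ] [IsAct act O] [IsAct act' O']
    (ho : Orb Aˣ (Holo.Sp act O)) (ho' : Orb A'ˣ (Holo.Sp act' O')) {d d' : ℕ} (hc : Cyc act O M d)
    (hc' : Cyc act' O' M' d') {f : W' → W} (hb : Bun act' act N O θ f) (hi : Ivt act' N)
    (e : N ⊆ O') (hN : ∃ U, IsOpen U ∧ N = O' ∩ U) [Nice (Quo act O)] [Nice (Quo act' O')] :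
    IsOpenEmbedding (Quo.incl act' e) ∧ IsOpenEmbedding hb.toEt.eqM.map ∧
      res (Quo.incl act' e) (fnd act' O' d') = res hb.toEt.eqM.map (fnd act O d) := by
  have : IsAct act' N := IsAct.mono inferInstance e hi
  have h1 := hc'.res_fnd ho' e hN
  have h2 := Quo.isOpenEmbedding_incl (act := act') e hN
  obtain ⟨U, hU, rfl⟩ := hN
  have h3 := hc'.inter hU hi
  obtain ⟨h4, h5⟩ := hb.res_fnd hi IsAct.mem ho hc h3.lc
  refine ⟨h2, h4, h1.trans (Eq.trans ?_ h5.symm)⟩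
  rcases eq_empty_or_nonempty (O' ∩ U) with k | k
  · have : IsEmpty (Quo act' (O' ∩ U)) := ⟨fun z => Quot.inductionOn z fun x => (k.le x.2).elim⟩
    exact BM_eq_of_isEmpty _ _
  · have h6 := hb.cyc hi IsAct.mem Subset.rfl hc
    rw [inter_eq_left.2 hb.maps.subset_preimage] at h6
    rw [cyc_dim h3 h6 k]

theorem et_incl [IsAct act univ] {O₁ : Set W} (e : O₁ ⊆ O) :
    Et act act O₁ O (ContinuousLinearMap.id ℂ A) id :=
  ⟨rfl, fun _ _ => rfl, surjective_id, fun b hb => ⟨b, hb, rfl⟩, e,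
    fun _ _ => ⟨id, analyticAt_id, .of_forall fun _ => rfl⟩, fun _ _ _ _ => rfl,
    fun x _ _ _ k => ⟨1, isUnit_one, rfl, (IsAct.one (S := univ) x trivial).trans k⟩,
    fun _ _ _ _ k _ => k⟩

set_option linter.unusedVariables false in
/-- **virtual classes along principal bundles** -/
theorem vr_bun [IsAct act univ] [IsAct act' univ] {D : KD A W P} {D' : KD A' W' P'} {n r n' r' : ℕ}
    (h : D.Gd act Z O n r) (h' : D'.Gd act' Z' O' n' r') {d d' : ℕ} (hc : Cyc act O M d)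
    (hc' : Cyc act' O' M' d') {f : W' → W} (hb : Bun act' act N B θ f) (hi : Ivt act' N)
    (hB : Ivt act B) (e : O ⊆ B) (hN : ∃ U, IsOpen U ∧ Z' ∩ N ⊆ U ∧ O' ∩ U ⊆ N)
    (hY : ∃ U, IsOpen U ∧ Z' ∩ N = Z' ∩ U)
    (loc : ∀ x ∈ Z' ∩ N, ∀ᶠ y in 𝓝 x, y ∈ N → (y ∈ O' ↔ f y ∈ O)) {L : P' →ₗ[ℂ] P}
    (hL : D'.Lin D θ f (O' ∩ N ∩ f ⁻¹' O) L) (hj : D'.Inj D f (Z' ∩ N) L)
    (hr : (Z' ∩ N).Nonempty → r' = r) (hz : EqM act' act (Z' ∩ N) Z θ f) [Nice (Quo act Z)]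
    [Nice (Quo act' Z')] :
    IsOpenEmbedding (Quo.incl act' (inter_subset_left : Z' ∩ N ⊆ Z')) ∧ IsOpenEmbedding hz.map ∧
      res (Quo.incl act' (inter_subset_left : Z' ∩ N ⊆ Z')) (D'.vr act' Z' O' (h'.fu d')) =
        res hz.map (D.vr act Z O (h.fu d)) := by
  obtain ⟨U, hU, u1, u2⟩ := hN
  obtain ⟨V, hV, v1, v2, v3⟩ := exists_loc (Z := Z' ∩ N) (S' := N ∩ f ⁻¹' O) h'.ivt
    (fun a ha x hx => ⟨hi a ha x hx.1,
      pre_of_eq (hb.eqv a ha x hx.1) (h.ivt _ (hb.isUnit ha) _ hx.2)⟩) fun x hx => by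
      filter_upwards [loc x hx, hU.mem_nhds (u1 hx)] with y a b
        using ⟨fun k => ⟨u2 ⟨k, b⟩, (a (u2 ⟨k, b⟩)).1 k⟩, fun k => (a k.1).2 k.2⟩
  have i1 : Ivt act' (O' ∩ V) := fun a ha x hx => ⟨h'.ivt a ha x hx.1, v1 a ha x hx.2⟩
  have h₁ : D'.Gd act' (Z' ∩ N) (O' ∩ V) n' r' := h'.mono inter_subset_left i1
    (h'.lc.inter hV.isLocallyClosed) (Set.ext fun x =>
      ⟨fun k => ⟨k.1, h'.dom.sub k.1, v2 k⟩, fun k => ⟨k.1, (v3.le k.2).1.1⟩⟩)
  have hb₁ : Bun act' act (O' ∩ V) O θ f := hb.mono (fun x k => (v3.le k).1.1) e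
    (fun x k => (v3.le k).1.2) fun x k => eventually_nhdsWithin_iff.2
      (mem_of_superset (hV.mem_nhds k.2) fun y a b c => v3.ge ⟨⟨b, c⟩, a⟩)
  have := h.dom.isAct
  have := h'.dom.isAct
  have := h.nice
  have := h'.nice
  obtain ⟨a1, a2, a3⟩ := fnd_bun h.dom.orb h'.dom.orb hc hc' hb₁ i1 inter_subset_left ⟨V, hV, rfl⟩
  obtain ⟨b1, b2⟩ := h₁.vr_pull h' (et_incl inter_subset_left) (B := LinearMap.id)
    ⟨fun _ k => k, fun _ _ _ _ => rfl, fun _ _ _ k => k, fun x _ => (sub_self (D'.s x)).symm ▸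
      zero_mem _, fun _ _ _ _ k => k⟩ (fun _ _ _ _ k => k) (fun _ => rfl) inter_subset_left a1
    (fun _ => rfl) (Φ := Quo.incl act' (inter_subset_left : Z' ∩ N ⊆ Z')) fun _ => rfl
  obtain ⟨c1, c2⟩ := h₁.vr_pull h hb₁.toEt (hL.mono fun x k => ⟨⟨k.1, (v3.le k).1.1⟩,
    (v3.le k).1.2⟩) hj hr hz.maps a2 (fun _ => rfl) (Φ := hz.map) fun _ => rfl
  exact ⟨b1, c1, (b2 _).trans ((congrArg _ a3).trans (c2 _).symm)⟩

end Vale.Agent.P269.Nd
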