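import Vale.Agent.P269.Glu.NdC

/-!
# Persistent nodes as pairs of marked points: the integrals
-/

set_option linter.unusedSectionVars false

namespace Vale.Agent.P269.Nd

open P291Z Set Function Topology Filter Module Orb Holo Ch Ch.KD

variable {S Λ R J K I ι ν κ ε β : Type} [Fintype S] [Fintype Λ] [Fintype R] [Fintype J] [Fintype K]
  [Fintype I] [Fintype ι] [DecidableEq ι] [Fintype ν] [Fintype κ] [Fintype ε] [Fintype β]
  {ch : Ch ι J} {F : Fam S Λ R J K} {Z₀ : Set J} {φ : I → J} {ℓ : R → ι → ℤ}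

theorem un_re {W : Wt S Λ R J} (f : Fac W ν κ) :
    (f.re .inl id : Fac W (ν ⊕ ε × Bool) κ).un ε = f.re id .inl := by
  rcases f with (_ | _) | ⟨_ | _, _, _⟩ | _ | _ | _ <;> rfl

section un

variable {Z : Set (ch.WF ν (κ ⊕ ε) Λ)} {Z' : Set (ch.WF (ν ⊕ ε × Bool) κ Λ)} (hm : MapsTo uW Z Z')
  {f : Fac F.toWt (ν ⊕ ε × Bool) κ}
include hm

theorem at_un (hf : f.At Z') : (f.un ε).At Z := by
  cases f with
  | ev n A c => exact fun x hx => mem_of_eq_of_mem (vl_uW x n).symm (hf _ (hm hx))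
  | par A c => exact fun x hx => hf _ (hm hx)
  | _ => trivial

variable (hz : GZ F ℓ Z) (hz' : GZ F ℓ Z')
include hz hz'

theorem coch_dg_un (q : κ) :
    F.coch Z (.dg (.inl q)) = pull (bc_uW hm).toEqM.map (F.coch Z' (.dg q)) := by
  have k : Tq.Eqv F.act2 F.act2 F.cone2 F.cone2 fun z => (id z.1, z.2) := .incl Subset.rfl
  rw [(bc_uW hm).coch_dg hz hz' k (q' := .inl q) fun _ => rfl,
    show ⇑k.qm = id from funext fun z => Quot.inductionOn z fun _ => rfl, pull_id]
  rfl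

/-- the factors are pulled back -/
theorem cl_un (hd : F.IsDiag F.diag) (hf : f.At Z') :
    F.cl Z (f.un ε) = H.map (bc_uW hm).toEqM.map (F.cl Z' f) := by
  cases f with
  | psi n => exact (bc_uW hm).cl_psi hz hz' n
  | ev n A c =>
    have k : Tq.Eqv F.actT F.actT A A fun z => (id z.1, z.2) := .incl Subset.rfl
    have := (bc_uW hm).cl_ev hz hz' k (at_un hm hf) hf c
    rwa [H.map_id (f := k.qm) fun z => Quot.inductionOn z fun _ => rfl] at this
  | par A c =>
    have k : Tq.Eqv F.actL F.actL A A id := .incl Subset.rfl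
    have := (bc_uW hm).cl_par hz hz' k (at_un hm hf) hf c
    rwa [H.map_id (f := k.qm) fun z => Quot.inductionOn z fun _ => rfl] at this
  | dg q => exact (congrArg hcls (coch_dg_un hm hz hz' q)).trans (H.map_hcls _ (hz'.cocycle_dg hd q)).symm
  | tw Θ => exact (bc_uW hm).cl_tw hz hz' (fun _ _ _ => rfl) Θ

theorem rp_un (hd : F.IsDiag F.diag) (hf : f.At Z') :
    F.Rp Z (f.un ε) (pull (bc_uW hm).toEqM.map (F.coch Z' f)) := by
  have k := fun e => (bc_uW hm).rp_of_cl hz hz' hd hd (at_un hm hf) hf e (cl_un hm hz hz' hd hf)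
  cases f with
  | dg q => exact coch_dg_un hm hz hz' q ▸ Fam.Rp.refl (Fac.dg (Sum.inl q))
  | _ => exact k rfl

end un

/-- integration over a closed subspace -/
theorem ev_gys' {X Y : Type} [TopologicalSpace X] [TopologicalSpace Y] [Nice Y] {i : X → Y}
    (hi : IsClosedEmbedding i) {t a : Coch Y} (ht : supp (δ t) = ∅) (hs : supp t ⊆ range i)
    (ha : supp (δ a) = ∅) (hc : IsCompact (supp a ∩ range i)) (v : BM Y) :
    ev (gys i t v) (pull i a) = ev v (a * t) := by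
  rw [← lgys_eq_gys hi ht hs]
  exact ev_lgys hi (LCo.of_supp ht hs) v (fun z => supp_eq_empty.1 ha _)
    (preimage_inter_range (f := i) ▸ hi.isCompact_preimage hc)
    (fun y hy => hs (supp_mul _ _ hy).2) fun _ => van_refl _ _

/-- ordered products of sums -/
theorem prod_sum {A : Type} [Semiring A] [DecidableEq ε] {l : List ε} (hl : l.Nodup)
    (hl' : ∀ q, q ∈ l) (g : ε → β → A) :
    (l.map fun q => ∑ s, g q s).prod = ∑ s : ε → β, (l.map fun q => g q (s q)).prod := by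
  have a : ∀ f : ε → A, (l.map f).prod =
      MultilinearMap.mkPiAlgebraFin ℕ l.length A fun i => f (l.get i) := fun f =>
    congrArg List.prod ((congrArg _ (List.ofFn_get l).symm).trans List.map_ofFn)
  simp only [a]
  rw [MultilinearMap.map_sum]
  exact (Equiv.sum_comp ((hl.getEquivOfForallMemList l hl').symm.arrowCongr (.refl β)) _).symm

section pr

variable (D : Fam S Λ R J K)

theorem eqv_fst : Tq.Eqv D.act3 D.actT D.cone3 D.cone fun z => (z.1, z.2.1) :=
  ⟨fun _ h => h.1, by fun_prop, fun _ ha _ _ => ⟨_, (Wt.isUnit3 ha).1, rfl⟩⟩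

theorem eqv_snd : Tq.Eqv D.act3 D.actT D.cone3 D.cone fun z => (z.1, z.2.2) :=
  ⟨fun _ h => h.2, by fun_prop, fun _ ha _ _ => ⟨_, (Wt.isUnit3 ha).2, rfl⟩⟩

end pr

/-- the class of a cocycle of the fibre product with a Künneth decomposition -/
theorem hcls_evT {Z : Set (ch.WF ν κ Λ)} (hz : GZ F ℓ Z) {m m' : Mk ν κ}
    (hm : ∀ x ∈ Z, vl x m ∈ (F.sub F.B Z₀).cone) (hm' : ∀ x ∈ Z, vl x m' ∈ (F.sub F.B Z₀).cone)
    {t : Coch (F.sub F.B Z₀).X3} (ht : supp (δ t) = ∅) {a a' : β → H (F.X (F.sub F.B Z₀).cone)}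
    (ha : hcls t = ∑ s, hpull (fun z => Quo.mk F.actT ⟨_, (Quo.out z).2.1⟩) (a s) *
      hpull (fun z => Quo.mk F.actT ⟨_, (Quo.out z).2.2⟩) (a' s)) :
    supp (δ (evT m m' (F.sub F.B Z₀).cone3 t : Coch (Quo (actF F.toWt) Z))) = ∅ ∧
      hcls (evT m m' (F.sub F.B Z₀).cone3 t) =
        ∑ s, F.cl Z (.ev m _ (a s)) * F.cl Z (.ev m' _ (a' s)) := by
  have k : Tq.Eqv (actF F.toWt) F.act3 Z (F.sub F.B Z₀).cone3 (vl2 · m m') :=
    (hz.eqh_vl2 m m').toEqv.mono Subset.rfl fun x hx => ⟨hm x hx, hm' x hx⟩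
  have e : (evT m m' (F.sub F.B Z₀).cone3 t : Coch (Quo (actF F.toWt) Z)) = pull k.qm t :=
    (dif_pos fun z => k.maps (Quo.out z).2).trans (congrArg (pull · t) (funext k.qm_out))
  rw [e, ← H.map_hcls _ ht, ha, map_sum]
  refine ⟨cocycle_pull k.qm.continuous ht, Finset.sum_congr rfl fun s _ => ?_⟩
  rw [map_mul, hz.cl_ev m hm, hz.cl_ev m' hm', (congrArg (hpull · (a s))
    (funext (eqv_fst (F.sub F.B Z₀)).qm_out)).trans (Tq.hpull_eq _ _), (congrArg (hpull · (a' s))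
    (funext (eqv_snd (F.sub F.B Z₀)).qm_out)).trans (Tq.hpull_eq _ _), k.map_map, k.map_map]
  rfl

variable [DecidableEq R] [DecidableEq I] [DecidableEq ε] {e : K → ι → ℕ} {K₀ : Set K}
  {n : J → I → ℤ} {ψ : J → (Λ → ℂ) → ℂ} {T O M : Set (ch.WF ν (κ ⊕ ε) Λ)}
  {T' O' M' : Set (ch.WF (ν ⊕ ε × Bool) κ Λ)} {d d' : ℕ} (h : Cx F Z₀ φ ch e K₀ ℓ n ψ)
  (hT : NdT F Z₀ T T') (hv : Vd F e T O M d) (hv' : Vd F e T' O' M' d') (hd : F.IsDiag F.diag)
  (hK : IsCompact (dia F.toWt (ch.solF _ κ F ∩ T')))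
  {fs : List (Fac F.toWt (ν ⊕ ε × Bool) κ)} (hA : ∀ f ∈ fs, f.At (ch.solF _ κ F ∩ T'))
  (hq : ∀ q, .dg q ∈ fs) {es : List ε} (hl : es.Nodup) (hl' : ∀ q, q ∈ es)
  {b : Coch (ModS F T')} (hb : supp (δ b) = ∅)
include h hT hv hv' hd hK hA hq hl hl' hb

/-- **integrals**, with the class of the diagonal -/
theorem ev_node₀ {t : Coch (F.sub F.B Z₀).X3} (ht : IsD3 (F.sub F.B Z₀) t) :
    ev (virF F e T) (pull hT.π b *
        ((fs.map (Fac.un ε) ++ es.map fun q => Fac.dg (Sum.inr q)).map (F.coch _)).prod) =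
      ev (virF F e T') (b * (fs.map (F.coch _)).prod * dgP (F.sub F.B Z₀) t _ es) := by
  have hz := hv.gz h.std
  have hz' := hv'.gz h.std
  have := hz.nice
  have := hz'.nice
  have hi := (isClosed_iInter fun q : ε => hz.isClosed_diq (.inr q)).isClosedEmbedding_subtypeVal
  obtain ⟨h1, -, ⟨_, h2⟩, ⟨_, h3⟩, h4⟩ := nd_gys h hT hv hv' hd ht hi Subtype.range_coe hl hl'
  have h5 := hz'.mem_Zc hd hA hq hb hK
  have h6 : ∀ {B}, IsCompact B → IsCompact (hT.π ⁻¹' B ∩ range (Subtype.val :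
      ↥(⋂ q : ε, diq F.toWt (ch.solF ν _ F ∩ T) (.inr q)) → _)) := fun c => by
    rw [← image_preimage_eq_inter_range]
    exact (h1.isCompact_preimage c).image continuous_subtype_val
  have h7 : IsCompact (dia F.toWt (ch.solF ν _ F ∩ T)) := by
    refine (h6 hK).of_isClosed_subset hz.isClosed_dia fun z c => ?_
    rw [GZ.dia_eq, mem_iInter] at c
    refine ⟨GZ.dia_eq.ge (mem_iInter.2 fun q => ?_), ⟨z, mem_iInter.2 fun q => c _⟩, rfl⟩
    obtain ⟨x, rfl⟩ := Quot.exists_rep z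
    exact (hz'.mk_mem_diq (x := ⟨_, hT.mapsTo x.2⟩)).2 ((vl_uW _ _).trans
      ((hz.mk_mem_diq.1 (c (.inl q))).trans (vl_uW x.1 (.inr (q, true))).symm))
  have h8 := cocycle_pull hT.π.continuous hb
  rw [← ev_gys h1 h3.cocycle h3.supp _ (Near.of_Zc h5), ← h4, ← pull_pull,
    ev_gys' hi h2.cocycle h2.supp (cocycle_pull hT.π.continuous h5.2) ((h6 h5.1).of_isClosed_subset
      ((isClosed_supp _).inter hi.isClosed_range)
      (inter_subset_inter_left _ (supp_pull hT.π.continuous _))), map_mul, mul_assoc,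
    map_list_prod, List.map_map, dgE, ← List.prod_append]
  refine hz.ev_congr hd (List.forall_mem_append.2 ⟨List.forall_mem_map.2 fun f hf =>
    at_un hT.mapsTo (hA f hf), List.forall_mem_map.2 fun _ _ => ?_⟩) (List.rel_append ?_ ?_)
    ?_ h8 h8 rfl h7 _
  · trivial
  · exact List.forall₂_map_left_iff.2 (List.forall₂_map_right_iff.2 (List.forall₂_same.2
      fun f hf => rp_un hT.mapsTo hz hz' hd (hA f hf)))
  · exact List.forall₂_map_left_iff.2 (List.forall₂_map_right_iff.2 (List.forall₂_same.2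
      fun q _ => Fam.Rp.refl _))
  · rintro (q | q)
    exacts [List.mem_append_left _ (List.mem_map_of_mem (f := Fac.un ε) (hq q)),
      List.mem_append_right _ (List.mem_map_of_mem (hl' q))]

/-- **integrals**, with a Künneth decomposition of the diagonal -/
theorem ev_node {t : Coch (F.sub F.B Z₀).X3} (ht : IsD3 (F.sub F.B Z₀) t)
    {a a' : β → H (F.X (F.sub F.B Z₀).cone)}
    (ha : hcls t = ∑ s, hpull (fun z => Quo.mk F.actT ⟨_, (Quo.out z).2.1⟩) (a s) *
      hpull (fun z => Quo.mk F.actT ⟨_, (Quo.out z).2.2⟩) (a' s)) :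
    ev (virF F e T) (pull hT.π b *
        ((fs.map (Fac.un ε) ++ es.map fun q => Fac.dg (Sum.inr q)).map (F.coch _)).prod) =
      ∑ s : ε → β, ev (virF F e T') (b * ((fs ++ es.flatMap fun q =>
        [Fac.ev (mq q false) _ (a (s q)), Fac.ev (mq q true) _ (a' (s q))]).map (F.coch _)).prod) := by
  have hz' := hv'.gz h.std
  obtain ⟨_, h0⟩ := ht.co
  have h1 : ∀ q c, ∀ x ∈ ch.solF _ κ F ∩ T', vl x (mq q c) ∈ (F.sub F.B Z₀).cone :=
    fun q c x hx => h.mem_cone hx.1 (hT.van x hx.2 q c)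
  have h2 := fun q => hcls_evT hz' (h1 q false) (h1 q true) h0.cocycle ha
  have h3 := hz'.mem_Zc hd hA hq hb hK
  have h4 : ∀ {c}, supp (δ c) = ∅ → ev (virF F e T') (b * (fs.map (F.coch _)).prod * c) =
      virF F e T' (Hc.act (hcls c) (P291Z.cls (b * (fs.map (F.coch _)).prod))) := fun hc => by
    rw [Hc.act_cls hc h3, ev_eq]
  have h5 : ∀ c ∈ es.map fun q => evT (F := F.toWt) (Z := ch.solF _ κ F ∩ T') (mq q false)
      (mq q true) (F.sub F.B Z₀).cone3 t, supp (δ c) = ∅ :=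
    List.forall_mem_map.2 fun q _ => (h2 q).1
  rw [ev_node₀ h hT hv hv' hd hK hA hq hl hl' hb ht, dgP, h4 (NF.cocycle_prod h5), NF.hcls_prod h5,
    List.map_map, comp_def, List.map_congr_left fun q _ => (h2 q).2, prod_sum hl hl', map_sum,
    LinearMap.sum_apply, map_sum]
  refine Finset.sum_congr rfl fun s _ => ?_
  have h6 : ∀ c ∈ (es.flatMap fun q => [Fac.ev (mq q false) _ (a (s q)),
      Fac.ev (mq q true) _ (a' (s q))]).map (F.coch (ch.solF _ κ F ∩ T')), supp (δ c) = ∅ :=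
    List.forall_mem_map.2 fun f hf => hz'.cocycle hd (by
      obtain ⟨q, -, hf⟩ := List.mem_flatMap.1 hf
      rcases List.mem_pair.1 hf with rfl | rfl
      exacts [h1 q false, h1 q true])
  rw [List.map_append, List.prod_append, ← mul_assoc, h4 (NF.cocycle_prod h6), NF.hcls_prod h6,
    List.map_map, List.map_flatMap, List.flatMap_def, List.prod_flatten, List.map_map]
  exact congrArg (fun l : List _ => virF F e T' (Hc.act l.prod _)) (List.map_congr_left fun q _ =>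
    congrArg (_ * ·) (mul_one _).symm)

end Vale.Agent.P269.Nd
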