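import Vale.Agent.P269.Glu.NdDefs
import Vale.Agent.P269.Bas.Dg
import Vale.Agent.P269.Bas.Ev
import Vale.Agent.P269.Base.Match

/-!
# The diagonals of the target
-/

set_option linter.unusedSectionVars false
set_option linter.style.haveILetI false

namespace Vale.Agent.P269.Nd

open P291Z Set Function Topology Filter Module Orb Holo Ch Ch.KD

variable {S Λ R J K I : Type} [Fintype S] [Fintype Λ] [Fintype R] [Fintype J] [Fintype K] [Fintype I]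
  {F : Fam S Λ R J K}

namespace U3

theorem ne₁ {a : A3 S R} (h : IsUnit a) : ∀ r, a.2.1 r ≠ 0 := (isUnit_T.1 (Dg0.unit₁ h)).2

theorem ne₂ {a : A3 S R} (h : IsUnit a) : ∀ r, a.2.2 r ≠ 0 := (isUnit_T.1 (Dg0.unit₂ h)).2

theorem unit2 {t : R → ℂ} (h : ∀ r, t r ≠ 0) : IsUnit ((1, t) : A2 S R) :=
  isUnit_T.2 ⟨fun _ => one_ne_zero, h⟩

theorem unit3 {t : R → ℂ} (h : ∀ r, t r ≠ 0) : IsUnit ((1, 1, t) : A3 S R) :=
  Prod.isUnit_iff.2 ⟨isUnit_one, Prod.isUnit_iff.2 ⟨isUnit_one, isUnit_pi_iff.2 h⟩⟩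

theorem act_act (W : Wt S Λ R J) (s s' : A2 S R) (l l' : Λ → ℂ) (y : J → ℂ) :
    (W.actT s (l, (W.actT s' (l', y)).2)).2 = (W.actT (s * s') (l', y)).2 :=
  (congrArg Prod.snd (W.actT_mul s s' (l', y))).symm

theorem act_comm (W : Wt S Λ R J) (s₁ s₂ s₃ s₄ : A2 S R) (e : s₁ * s₂ = s₃ * s₄)
    (l₁ l₂ l₃ l₄ : Λ → ℂ) (y : J → ℂ) :
    (W.actT s₁ (l₁, (W.actT s₂ (l₂, y)).2)).2 = (W.actT s₃ (l₃, (W.actT s₄ (l₄, y)).2)).2 := by
  rw [act_act, act_act, e]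
  rfl

theorem act_inv (W : Wt S Λ R J) {s s' : A2 S R} (e : s * s' = 1) (l l' : Λ → ℂ) (y : J → ℂ) :
    (W.actT s (l, (W.actT s' (l', y)).2)).2 = y := by
  rw [act_act, e, W.actT_one]

theorem mul_inv2 {t : R → ℂ} (h : ∀ r, t r ≠ 0) : ((1, t) : A2 S R) * (1, t⁻¹) = 1 :=
  Prod.ext (one_mul _) (funext fun r => mul_inv_cancel₀ (h r))

theorem act_mem (h : F.Inv) {t : R → ℂ} (ht : ∀ r, t r ≠ 0) {l : Λ → ℂ} {y : J → ℂ}
    (hy : (l, y) ∈ F.cone) : (l, (F.actT (1, t) (l, y)).2) ∈ F.cone :=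
  mem_of_eq_of_mem (y := F.actT (1, t) (l, y)) (Prod.ext (F.actL_one l).symm rfl)
    (h.cone_act (unit2 ht) hy)

theorem act_app (W : Wt S Λ R J) (t : R → ℂ) (z : (Λ → ℂ) × (J → ℂ)) (j : J) :
    (W.actT (1, t) z).2 j = (∏ r, t r ^ W.w j r) * z.2 j := by simp [Wt.actT]

/-- the identification changes by the characters `c3` -/
theorem act_dg {a : A3 S R} (ha : IsUnit a) {z : W3 Λ J} {t : R → ℂ}
    (e : z.2.2 = (F.actT (1, t) (z.1, z.2.1)).2) : (F.act3 a z).2.2 =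
      (F.actT (1, fun r => c3 r a * t r) ((F.act3 a z).1, (F.act3 a z).2.1)).2 :=
  (congrArg (fun y => (F.actT (a.1, a.2.2) (z.1, y)).2) e).trans (act_comm F.toWt (a.1, a.2.2)
    (1, t) (1, fun r => c3 r a * t r) (a.1, a.2.1) (Prod.ext (mul_comm _ _) (funext fun r => by
      have := ne₁ ha r
      change a.2.2 r * t r = a.2.2 r / a.2.1 r * t r * a.2.1 r
      field_simp)) z.1 z.1 (F.act3 a z).1 z.1 z.2.1)

/-- a free proper action -/
theorem emb {A W : Type} [NormedRing A] [NormedAlgebra ℂ A] [NormedAddCommGroup W]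
    [NormedSpace ℂ W] (act : A → W → W) (T : Set W) [h : Mono.FP act T] :
    IsClosedEmbedding fun p : Aˣ × Holo.Sp act T => (p.1 • p.2, p.2) :=
  have a := ProperSMul.isProperMap_smul_pair (G := Aˣ) (X := Holo.Sp act T)
  .of_continuous_injective_isClosedMap a.continuous (fun ⟨g, x⟩ ⟨g', x'⟩ e => by
    obtain ⟨b, rfl⟩ := Prod.ext_iff.1 e
    exact Prod.ext (inv_mul_eq_one.1 (h.free x _ (by
      rw [mul_smul, show g • x = g' • x from b, inv_smul_smul]))).symm rfl) a.isClosedMap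

end U3

open U3

theorem chr_c3 : Chr (c3 : R → A3 S R → ℂ) :=
  have a : ∀ r (a : A3 S R), IsUnit a → AnalyticAt ℂ (c3 r) a := fun r _ ha =>
    (analyticAt_pi_iff.1 (Dg0.a₂ analyticAt_snd) r).div
      (analyticAt_pi_iff.1 (Dg0.a₁ analyticAt_snd) r) (ne₁ ha r)
  ⟨fun r => ⟨div_one _, fun _ _ _ _ => mul_div_mul_comm _ _ _ _, fun t ht =>
    (a r t ht).continuousAt⟩, a⟩

theorem eqM_d3 (F : Fam S Λ R J K) : EqM F.actT F.act3 F.cone F.cone3 (fun t => (t.1, t.2, t.2))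
    fun z => (z.1, z.2, z.2) :=
  have a : Tq.Hm fun t : A2 S R => ((t.1, t.2, t.2) : A3 S R) :=
    ⟨rfl, fun _ _ _ _ => rfl, fun _ _ => by fun_prop⟩
  ⟨⟨a.ρ.toMonoidHom, a.ρ.continuous, fun _ => rfl⟩, fun _ h => ⟨h, h⟩, by fun_prop,
    fun _ _ _ _ => rfl⟩

theorem eqM_d2 (F : Fam S Λ R J K) : EqM F.actT F.act2 F.cone F.cone2 id
    fun z => (z.1, z.2, z.2) :=
  .same (fun _ => Dg0.diag_mem) (by fun_prop) fun _ _ _ _ => rfl

theorem d3_eq : d3 F = (eqM_d3 F).map := funext fun z =>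
  ((eqM_d3 F).map_mk _).symm.trans (congrArg _ (Tq.mk_out z))

theorem ivt_dg3 (h : F.Inv) : Ivt F.act3 (dg3 F) := fun _ ha z ⟨a, _, b, c⟩ =>
  ⟨Dg0.ivt3 h _ ha z a, _, isUnit_pi_iff.2 fun r =>
    mul_ne_zero (div_ne_zero (ne₂ ha r) (ne₁ ha r)) (isUnit_pi_iff.1 b r), act_dg ha c⟩

theorem diag_dg3 {z : (Λ → ℂ) × (J → ℂ)} (hz : z ∈ F.cone) : (z.1, z.2, z.2) ∈ dg3 F :=
  ⟨⟨hz, hz⟩, 1, isUnit_one, (congrArg Prod.snd (F.actT_one z)).symm⟩

theorem dg3_diag {z : W3 Λ J} (hz : z ∈ dg3 F) :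
    ∃ b, IsUnit b ∧ (z.1, z.2.1, z.2.1) = F.act3 b z :=
  let ⟨_, t, b, c⟩ := hz
  have d := isUnit_pi_iff.1 b
  ⟨(1, 1, t⁻¹), unit3 fun r => inv_ne_zero (d r), Prod.ext (F.actL_one _).symm (Prod.ext
    (congrArg Prod.snd (F.actT_one (z.1, z.2.1))).symm
    ((congrArg (fun y => (F.actT (1, t⁻¹) (z.1, y)).2) c).trans
      (act_inv F.toWt ((mul_comm _ _).trans (mul_inv2 d)) _ _ _)).symm)⟩

theorem range_d3 (h : F.Inv) : range (d3 F) = Quo.part F.act3 F.cone3 (dg3 F) := by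
  haveI := (Dg0.isAct3 F.toWt).mono (subset_univ _) (Dg0.ivt3 h)
  have a : Ivt F.act3 (F.cone3 ∩ dg3 F) := fun a b z c =>
    ⟨Dg0.ivt3 h a b z c.1, ivt_dg3 h a b z c.2⟩
  refine Set.ext fun x => ⟨fun ⟨z, e⟩ => e ▸ (Quo.mem_part a (Sp.of _ _ _)).2
    (diag_dg3 z.out.2), fun hx => ?_⟩
  obtain ⟨b, c, d⟩ := dg3_diag (F := F) hx
  rw [d3_eq]
  exact ⟨Quo.mk _ ⟨_, x.out.2.1⟩, (Quot.sound ⟨b, c, d⟩).symm.trans (Tq.mk_out x)⟩

theorem range_d2 (h : F.Inv) : range (eqM_d2 F).map = F.Δ2 := by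
  refine Set.ext fun x => ⟨fun ⟨z, e⟩ => ?_, fun hx => ⟨Quo.mk _ ⟨_, x.out.2.1.1⟩, Eq.trans
    (congrArg (Quo.mk _) (Subtype.ext ?_)) (Tq.mk_out x)⟩⟩
  swap
  · exact Prod.ext rfl (Prod.ext rfl hx)
  obtain ⟨z, rfl⟩ := Tq.mk_surj z
  exact e ▸ (Dg0.mk_mem h (z := ⟨_, Dg0.diag_mem z.2⟩)).2 rfl

variable [DecidableEq R]

theorem nice3 (h : F.Good) : Nice F.X3 := haveI := h.fp3; inferInstance

theorem isClosed_dg3 (h : F.Good) : IsClosed (Subtype.val ⁻¹' dg3 F : Set F.cone3) := by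
  haveI := h.fp
  have a := (emb F.actT F.cone).isClosed_range.preimage (f := fun z : F.cone3 =>
    (Sp.of F.actT (z.1.1, z.1.2.2) z.2.2, Sp.of F.actT (z.1.1, z.1.2.1) z.2.1))
    ((Continuous.subtype_mk (by fun_prop) _).prodMk (Continuous.subtype_mk (by fun_prop) _))
  refine (congrArg IsClosed (Set.ext fun z => ⟨?_, ?_⟩)).mp a
  · rintro ⟨⟨g, x⟩, e⟩
    obtain ⟨b, rfl⟩ := Prod.ext_iff.1 e
    have c := congrArg Sp.val b
    have d := Prod.isUnit_iff.1 g.isUnit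
    exact ⟨z.2, g.1.2, d.2,
      h.freeB _ d.1 _ z.2.1.1 (congrArg Prod.fst c) ▸ (congrArg Prod.snd c).symm⟩
  · rintro ⟨_, t, b, c⟩
    exact ⟨((unit2 (isUnit_pi_iff.1 b)).unit, Sp.of F.actT (z.1.1, z.1.2.1) z.2.1),
      Prod.ext (Sp.ext (Prod.ext (F.actL_one _) c.symm)) rfl⟩

theorem isClosedEmbedding_d3 (h : F.Good) : IsClosedEmbedding (d3 F) := by
  haveI := (Dg0.isAct3 F.toWt).mono (subset_univ _) (Dg0.ivt3 h.toInv)
  haveI := (Dg0.isAct3 F.toWt).mono (subset_univ _) (ivt_dg3 h.toInv)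
  have a : Tq.Eqv F.actT F.act3 F.cone (dg3 F) fun z => (z.1, z.2, z.2) :=
    ⟨fun _ => diag_dg3, by fun_prop, fun t b _ _ => ⟨_, (eqM_d3 F).isUnit b, rfl⟩⟩
  have b : Tq.Eqv F.act3 F.actT (dg3 F) F.cone fun z => (z.1, z.2.1) :=
    ⟨fun _ c => c.1.1, by fun_prop, fun t b _ _ => ⟨_, Dg0.unit₁ b, rfl⟩⟩
  have c := (Mono.isClosedEmbedding_qinc (fun _ c => c.1) (isClosed_dg3 h)).comp (a.homeo b
    (fun x _ => ⟨1, isUnit_one, (F.actT_one x).symm⟩) fun _ => dg3_diag).isClosedEmbedding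
  exact (congrArg IsClosedEmbedding (((eqM_d3 F).eq_map fun _ => rfl).trans d3_eq.symm)).mp c

theorem isClosedEmbedding_d2 (h : F.Good) : IsClosedEmbedding (eqM_d2 F).map := by
  haveI := (Dg0.isAct2 F.toWt).mono (subset_univ _) (Dg0.ivt2 h.toInv)
  haveI := (Dg0.isAct2 F.toWt).mono (subset_univ _) (Dg0.ivt0 h.toInv)
  have a : Tq.Eqv F.actT F.act2 F.cone F.dg0 fun z => (z.1, z.2, z.2) :=
    ⟨fun _ c => ⟨Dg0.diag_mem c, rfl⟩, by fun_prop, fun t b _ _ => ⟨t, b, rfl⟩⟩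
  have b : Tq.Eqv F.act2 F.actT F.dg0 F.cone fun z => (z.1, z.2.1) :=
    ⟨fun _ c => c.1.1.1, by fun_prop, fun t b _ _ => ⟨t, b, rfl⟩⟩
  have d : IsClosed (Subtype.val ⁻¹' F.dg0 : Set F.cone2) :=
    (congrArg IsClosed (Set.ext fun z => (and_iff_right z.2).symm)).mp
      (isClosed_eq (f := fun z : F.cone2 => z.1.2.1) (g := fun z => z.1.2.2) (by fun_prop)
        (by fun_prop))
  have c := (Mono.isClosedEmbedding_qinc (fun _ c => c.1) d).comp (a.homeo b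
    (fun x _ => ⟨1, isUnit_one, (F.actT_one x).symm⟩) fun x e => ⟨1, isUnit_one,
      Eq.trans (b := x) (Prod.ext rfl (Prod.ext rfl e.2))
        (IsAct.one (S := F.dg0) x e).symm⟩).isClosedEmbedding
  exact (congrArg IsClosedEmbedding ((eqM_d2 F).eq_map fun _ => rfl)).mp c

theorem tau_unique (h : F.Good) {z : (Λ → ℂ) × (J → ℂ)} (hz : z ∈ F.cone) {t t' : R → ℂ}
    (a : IsUnit t) (a' : IsUnit t') (e : (F.actT (1, t) z).2 = (F.actT (1, t') z).2) : t = t' :=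
  have b := isUnit_pi_iff.1 a
  have c := h.free (t⁻¹ * t') ((isUnit_pi_iff.2 fun r => inv_ne_zero (b r)).mul a') z hz
    (Prod.ext (F.actL_one _) ((congrArg (fun s => (F.actT (s, t⁻¹ * t') z).2) (one_mul 1).symm).trans
      ((act_act F.toWt (1, t⁻¹) (1, t') z.1 z.1 z.2).symm.trans
        ((congrArg (fun y => (F.actT (1, t⁻¹) (z.1, y)).2) e.symm).trans
          (act_inv F.toWt ((mul_comm _ _).trans (mul_inv2 b)) z.1 z.1 z.2)))))
  funext fun r => (inv_mul_eq_one₀ (b r)).1 (congrFun c r)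

theorem exists_tau (h : F.Good) : ∃ τ, IsTau F τ := by
  classical
  haveI := h.fp
  haveI := h.fp3
  haveI := Dg0.isAct3 F.toWt
  let f : W3 Λ J → R → ℂ := fun z =>
    Classical.epsilon fun t => IsUnit t ∧ z.2.2 = (F.actT (1, t) (z.1, z.2.1)).2
  have a : ∀ z ∈ dg3 F, IsUnit (f z) ∧ z.2.2 = (F.actT (1, f z) (z.1, z.2.1)).2 :=
    fun z hz => Classical.epsilon_spec hz.2
  have b : ∀ z ∈ F.cone3, ∀ t, IsUnit t → z.2.2 = (F.actT (1, t) (z.1, z.2.1)).2 → f z = t :=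
    fun z hz t c d => have e := a z ⟨hz, t, c, d⟩; tau_unique h hz.1 e.1 c (e.2.symm.trans d)
  have c₀ : Continuous fun z : dg3 F => ((unit2 (S := S) (isUnit_pi_iff.1 (a z z.2).1)).unit,
      Sp.of F.actT (z.1.1, z.1.2.1) z.2.1.1) := by
    refine (emb F.actT F.cone).isInducing.continuous_iff.2 (Continuous.prodMk
      (Sp.isEmbedding_val.continuous_iff.2 ?_) (Continuous.subtype_mk (by fun_prop) _))
    exact Continuous.congr (f := fun z : dg3 F => (z.1.1, z.1.2.2)) (by fun_prop)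
      fun z => Prod.ext (F.actL_one _).symm (a z z.2).2
  have c : ContinuousOn f (dg3 F) := continuousOn_iff_continuous_domRestrict.2
    (continuous_snd.comp (Units.continuous_val.comp c₀.fst) :)
  obtain ⟨s, d, e⟩ := (Ch.chars (Y := Tq.sp F.act3 F.cone3) fun r => (chr_c3.hm r).ρ).exists_ext_sec
    (C := Subtype.val ⁻¹' dg3 F) (isClosed_dg3 h)
    (fun g x hx => ivt_dg3 h.toInv _ g.isUnit _ hx) (f := fun x => f x.1)
    (c.comp continuous_subtype_val.continuousOn fun _ hx => hx)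
    (fun g x hx => b _ (g • x).2 _ (isUnit_pi_iff.2 fun r => mul_ne_zero (div_ne_zero
      (ne₂ g.isUnit r) (ne₁ g.isUnit r)) (isUnit_pi_iff.1 (a _ hx).1 r)) (act_dg g.isUnit (a _ hx).2))
    fun _ _ => trivial
  let τ : W3 Λ J → R → ℂ := fun z => if k : z ∈ F.cone3 then s ⟨z, k⟩ else 0
  have k : ∀ z (k : z ∈ F.cone3), τ z = s ⟨z, k⟩ := fun z k => dif_pos k
  exact ⟨τ, ⟨chr_c3.hm, continuousOn_iff_continuous_domRestrict.2 (d.cont.congr fun z =>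
    (k z.1 z.2).symm), fun t ht z hz r => by
      rw [k _ (Dg0.ivt3 h.toInv t ht z hz), k z hz]
      exact congrFun (d.eqv ht.unit ⟨z, hz⟩) r⟩, fun z hz t ht u =>
    (k z hz).trans ((e ⟨z, hz⟩ ⟨hz, t, ht, u⟩).trans (b z hz t ht u))⟩

variable [DecidableEq I] {φ : I → J} {n : J → I → ℤ} {ψ : J → (Λ → ℂ) → ℂ} {σ : I → R → ℂ}

theorem φ_ne (hs : F.Sh 0 φ n ψ) {z : (Λ → ℂ) × (J → ℂ)} (hz : z ∈ F.cone) (i : I) :
    z.2 (φ i) ≠ 0 := hs.ne _ (hs.free i).1 (hs.free i).2.1 rfl z hz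

theorem lab3 (h : F.Inv) (hs : F.Sh 0 φ n ψ)
    (hσ : ∀ i i', ∑ r, F.w (φ i') r * σ i r = if i = i' then 1 else 0) :
    Lab (fun i => F.w (φ i)) σ (r3 φ) F.act3 c3 F.cone3 where
  chr := chr_c3
  ivt := Dg0.ivt3 h
  dual := hσ
  hol i _ hx := .of_an ((analyticAt_pi_iff.1 (Dg0.a₁ analyticAt_snd) _).div
    (analyticAt_pi_iff.1 (Dg0.a₂ analyticAt_snd) _) (φ_ne hs hx.2 i))
  ne i _ hx := div_ne_zero (φ_ne hs hx.1 i) (φ_ne hs hx.2 i)
  inv a ha x hx i := by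
    have b := prod_zpow_ne (ne₁ ha) (F.w (φ i))
    have c := prod_zpow_ne (ne₂ ha) (F.w (φ i))
    have d := prod_zpow_ne (isUnit_T.1 (Dg0.unit₁ ha)).1 (F.wt (φ i))
    have e := φ_ne hs hx.2 i
    simp only [c3, r3, Wt.act3, Wt.actT, div_zpow, Finset.prod_div_distrib] at d e ⊢
    field_simp

theorem bun3 (h : F.Inv) (hs : F.Sh 0 φ n ψ) : Bun (actV F.act3 c3) F.act2
    (N0 (fun i => F.w (φ i)) (r3 φ) F.cone3) F.cone2 θ3 (g3 F.toWt) where
  one := rfl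
  mul _ _ := rfl
  surj b := ⟨(b.1, b.2, 0), rfl⟩
  usurj b hb := ⟨_, (eqM_d3 F).isUnit hb, rfl⟩
  maps z := fun ⟨a, b, c⟩ => by
    have d := act_mem h (t := z.2⁻¹) (fun r => inv_ne_zero (b r)) a.2
    refine ⟨⟨a.1, d⟩, fun j hj => ?_⟩
    by_cases k : j ∈ F.zer
    · exact (a.1.2.1.2.2 j k).trans (d.2.1.2.2 j k).symm
    refine ((hs.E _ a.1.1 _ a.1.2.1.2.2 fun _ i _ => φ_ne hs a.1 i).1 a.1.2.1.2.1 j hj k).trans
      (Eq.trans (congrArg _ (Finset.prod_congr rfl fun i _ => congrArg (· ^ _) ?_))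
        ((hs.E _ d.1 _ d.2.1.2.2 fun _ i _ => φ_ne hs d i).1 d.2.1.2.1 j hj k).symm)
    have e := c i
    have f := φ_ne hs a.2 i
    have g := prod_zpow_ne b (F.w (φ i))
    simp only [rho, r3, act_app, Pi.inv_apply, inv_zpow, Finset.prod_inv_distrib] at e f ⊢
    field_simp at e ⊢
    linear_combination e
  hol x hx := by
    have a : AnalyticAt ℂ Prod.fst x := analyticAt_fst
    exact ⟨_, (Dg0.a₁ a).prod ((Dg0.a₁ (Dg0.a₂ a)).prod (Dg0.a₂ (F.an_actT (analyticAt_const.prod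
      (analyticAt_pi_iff.2 fun r => (analyticAt_pi_iff.1 analyticAt_snd r).inv (hx.2.1 r)))
      ((Dg0.a₁ a).prod (Dg0.a₂ (Dg0.a₂ a))) (unit2 fun r => inv_ne_zero (hx.2.1 r))))),
      .of_forall fun _ => rfl⟩
  eqv a ha x hx := Prod.ext rfl (Prod.ext rfl (act_comm F.toWt (1, (actV F.act3 c3 a x).2⁻¹)
    (a.1, a.2.2) (a.1, a.2.1) (1, x.2⁻¹) (Prod.ext (mul_comm _ _) (funext fun r => by
      have := ne₁ ha r
      have := ne₂ ha r
      have := hx.2.1 r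
      change (a.2.2 r / a.2.1 r * x.2 r)⁻¹ * a.2.2 r = a.2.1 r * (x.2 r)⁻¹
      field_simp)) x.1.1 x.1.1 x.1.1 x.1.1 x.1.2.2))
  fib x hx y hy e := by
    have a := hx.2.1
    refine ⟨(1, 1, y.2 * x.2⁻¹), unit3 fun r => mul_ne_zero (hy.2.1 r) (inv_ne_zero (a r)), rfl,
      Prod.ext (Prod.ext ((F.actL_one _).trans (congrArg (·.1) e)) (Prod.ext
        ((congrArg Prod.snd (F.actT_one (x.1.1, x.1.2.1))).trans (congrArg (·.2.1) e)) ?_))
        (funext fun r => ?_)⟩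
    · refine Eq.trans ?_ ((congrArg (fun w => (F.actT (1, y.2) (y.1.1, w)).2)
        (congrArg (·.2.2) e)).trans (act_inv F.toWt (mul_inv2 hy.2.1) _ _ _))
      exact ((act_act F.toWt (1, y.2) (1, x.2⁻¹) _ _ _).trans
        (congrArg (fun s => (F.actT (s, _) _).2) (one_mul _))).symm
    · exact (congrArg (· * _) (div_one _)).trans (inv_mul_cancel_right₀ (a r) _)
  free x hx a _ b c := by
    have d : a.2.1 = 1 := congrArg (·.2) b
    refine Prod.ext (congrArg (·.1) b) (Prod.ext d (funext fun r => ?_))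
    have e := (mul_eq_right₀ (hx.2.1 r)).1 (congrFun (congrArg Prod.snd c) r)
    rwa [c3, d, Pi.one_apply, div_one] at e
  rig x hx y a b c d := by
    have e : Tendsto (fun m => (a m).2.2) atTop (𝓝 1) := tendsto_pi_nhds.2 fun r => by
      have := (tendsto_pi_nhds.1 d.snd_nhds r).div (tendsto_pi_nhds.1 c.snd_nhds r) (hx.2.1 r)
      rw [div_self (hx.2.1 r)] at this
      refine this.congr fun m => (mul_div_cancel_right₀ _ ((b m).1.2.1 r)).trans ?_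
      rw [c3, show (a m).2.1 = 1 from congrArg (·.2) (b m).2.2, Pi.one_apply, div_one]
    exact Tendsto.congr (f₁ := fun m => (1, 1, (a m).2.2)) (fun m =>
      Prod.ext (congrArg (·.1) (b m).2.2).symm (Prod.ext (congrArg (·.2) (b m).2.2).symm rfl))
      (tendsto_const_nhds.prodMk_nhds (tendsto_const_nhds.prodMk_nhds e))
  sec x hx := by
    have a := hx.2.1
    refine ⟨fun y => ((y.1, y.2.1, (F.actT (1, x.2) (y.1, y.2.2)).2), x.2), (analyticAt_fst.prod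
      ((Dg0.a₁ analyticAt_snd).prod (Dg0.a₂ (F.an_actT analyticAt_const (analyticAt_fst.prod
        (Dg0.a₂ analyticAt_snd)) (unit2 a))))).prod analyticAt_const,
      Prod.ext (Prod.ext rfl (Prod.ext rfl (act_inv F.toWt (mul_inv2 a) _ _ _))) rfl,
      eventually_mem_nhdsWithin.mono fun y hy => ⟨⟨⟨hy.1.1, act_mem h a hy.1.2⟩, a, fun i => ?_⟩,
        Prod.ext rfl (Prod.ext rfl (act_inv F.toWt ((mul_comm _ _).trans (mul_inv2 a)) _ _ _))⟩⟩
    have e := hy.2 _ (hs.free i).1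
    have f := φ_ne hs hy.1.2 i
    have g := prod_zpow_ne a (F.w (φ i))
    simp only [rho, r3, act_app, e] at f ⊢
    field_simp

end Vale.Agent.P269.Nd
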