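import Vale.Agent.P269.Glu.NdU
import Vale.Agent.P269.Prj.TgtM
import Vale.Agent.P269.Map.TZ

/-!
# The classes of the diagonals of the target
-/

set_option linter.unusedSectionVars false
set_option linter.style.haveILetI false

namespace Vale.Agent.P269.Nd

open P291Z Set Function Topology Filter Module Orb Holo Ch Ch.KD

variable {S Λ R J K : Type} [Fintype S] [Fintype Λ] [Fintype R] [Fintype J] [Fintype K]
  [DecidableEq R] {F : Fam S Λ R J K}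

namespace U2

variable {z : W3 Λ J} {K₀ : Set K} {T Z : Set (W3 Λ J)} {a m : ℕ}

theorem an_line (z : W3 Λ J) (η : J → ℂ) :
    AnalyticAt ℂ (fun ε : ℂ => (z.1, z.2.1, fun j => z.2.2 j + ε * η j)) 0 :=
  analyticAt_const.prod (analyticAt_const.prod (analyticAt_pi_iff.2 fun _ => by fun_prop))

theorem cont₂ : Continuous fun p : W3 Λ J => (p.1, p.2.2) := by fun_prop

theorem an₂ (z : W3 Λ J) : AnalyticAt ℂ (fun p : W3 Λ J => (p.1, p.2.2)) z :=
  analyticAt_fst.prod (Dg0.a₂ analyticAt_snd)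

theorem an₃ (z : W3 Λ J) (j : J) : AnalyticAt ℂ (fun p : W3 Λ J => p.2.2 j - p.2.1 j) z :=
  (analyticAt_pi_iff.1 (Dg0.a₂ analyticAt_snd) j).sub
    (analyticAt_pi_iff.1 (Dg0.a₁ analyticAt_snd) j)

theorem mfd0 (h : MfdAt F.cone a (z.1, z.2.1)) :
    MfdAt {p : W3 Λ J | (p.1, p.2.1) ∈ F.cone} (a + finrank ℂ (J → ℂ)) z :=
  (h.prod (.univ z.2.2)).iso (F := fun s => (s.1.1, s.1.2, s.2))
    (G := fun p => ((p.1, p.2.1), p.2.2))
    ((Dg0.a₁ analyticAt_fst).prod ((Dg0.a₂ analyticAt_fst).prod analyticAt_snd))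
    ((analyticAt_fst.prod (Dg0.a₁ analyticAt_snd)).prod (Dg0.a₂ analyticAt_snd))
    (.of_forall fun _ hs => ⟨hs.1, rfl⟩) (.of_forall fun _ hp => ⟨⟨hp, trivial⟩, rfl⟩)

/-- the equations for the second point -/
theorem reg (hr : F.Reg K₀) (h : F.Inv) (hz : (z.1, z.2.2) ∈ F.cone) (hb : MfdAt T m z)
    (hT : ∀ y : J → ℂ, (∀ j ∉ F.mov, z.2.2 j = y j) → (z.1, z.2.1, y) ∈ T)
    (hB : ∀ p ∈ T, (p.1, p.2.2) ∈ F.bs) (hZ : ∀ p, p ∈ Z ↔ p ∈ T ∧ (p.1, p.2.2) ∈ F.cone) :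
    ∃ n, n + Nat.card K₀ = m ∧ MfdAt Z n z := by
  classical
  have hz' := F.mem_cone.1 hz
  rw [Nat.card_eq_fintype_card, ← finrank_fintype_fun_eq_card ℂ]
  refine hb.sub' (f := fun s (k : K₀) => F.eqn (s.1, s.2.2) k)
    (.of_an (analyticAt_pi_iff.2 fun k => (Fam.an_eqn k.1 _).comp (an₂ z)))
    (funext fun k => hz'.2.2 k) (fun c _ => Submodule.subset_span ?_) ?_
  · obtain ⟨η, h1, h2⟩ := hr.ind _ hz fun k => if e : k ∈ K₀ then c ⟨k, e⟩ else 0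
    refine ⟨_, ⟨an_line z η, by simp, .of_forall fun ε => hT _ fun j hj => by simp [h1 j hj]⟩,
      HasDerivAt.deriv (hasDerivAt_pi.2 fun k => ?_)⟩
    exact (Vir.hasDerivAt_eval ((F.fib z.1).F k) z.2.2 η).congr_deriv
      ((h2 k k.2).trans (dif_pos k.2))
  · filter_upwards [(cont₂.tendsto z).eventually (hr.cut _ hz),
      (cont₂.tendsto z).eventually (h.openU.mem_nhds hz'.2.1)] with s h1 h2
    rw [hZ, F.mem_cone]
    exact and_congr_right fun e => ⟨fun k => funext fun j => k.2.2 j,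
      fun k => ⟨hB s e, h2, h1 (hB s e) fun j hj => congrFun k ⟨j, hj⟩⟩⟩

/-- the base fields agree -/
theorem same (h : MfdAt F.cone a (z.1, z.2.1)) (hz : ∀ j ∉ F.mov, z.2.1 j = z.2.2 j) :
    MfdAt {p : W3 Λ J | (p.1, p.2.1) ∈ F.cone ∧ ∀ j ∉ F.mov, p.2.1 j = p.2.2 j}
      (a + Nat.card F.mov) z := by
  classical
  obtain ⟨n, h1, h2⟩ := (mfd0 h).sub'
    (Z := {p : W3 Λ J | (p.1, p.2.1) ∈ F.cone ∧ ∀ j ∉ F.mov, p.2.1 j = p.2.2 j})
    (f := fun s (j : ↥F.movᶜ) => s.2.2 j - s.2.1 j) (.of_an (analyticAt_pi_iff.2 fun j => an₃ z j))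
    (funext fun j => sub_eq_zero.2 (hz j j.2).symm) (fun c _ => Submodule.subset_span
      ⟨_, ⟨an_line z fun j => if e : j ∈ F.movᶜ then c ⟨j, e⟩ else 0, by simp,
        .of_forall fun _ => h.1⟩, HasDerivAt.deriv (hasDerivAt_pi.2 fun j => by
        simp only [dif_pos j.2]
        exact ((((hasDerivAt_id' (0 : ℂ)).mul_const (c j)).const_add (z.2.2 j)).sub_const
          _).congr_deriv (one_mul _))⟩)
    (.of_forall fun s => and_congr_right fun _ => ⟨fun k => funext fun j =>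
      sub_eq_zero.2 (k j j.2).symm, fun k j hj => (sub_eq_zero.1 (congrFun k ⟨j, hj⟩)).symm⟩)
  have h3 := Fintype.card_compl_set F.mov
  have h4 := set_fintype_card_le_univ F.mov
  simp only [finrank_fintype_fun_eq_card] at h1
  rwa [Nat.card_eq_fintype_card, show a + Fintype.card F.mov = n by omega]

/-- the conditions on the base fields of the second point -/
theorem base {I : Type} [Fintype I] [DecidableEq I] {δ : J → ℕ} {φ : I → J} {n ψ}
    (hs : F.Sh δ φ n ψ) (h : F.Inv) (hb : MfdAt F.cone a (z.1, z.2.1))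
    (hz : (z.1, z.2.2) ∈ F.cone) :
    ∃ m, m + Nat.card (F.movᶜ \ range φ : Set J) = a + finrank ℂ (J → ℂ) ∧
      MfdAt {p : W3 Λ J | (p.1, p.2.1) ∈ F.cone ∧ (p.1, p.2.2) ∈ F.bs} m z := by
  classical
  have h0 : ∀ j i, n j i < 0 → z.2.2 (φ i) ≠ 0 := fun j i e =>
    hs.ne _ (hs.free i).1 (hs.free i).2.1 (hs.neg j i e) _ hz
  have h1 : ∀ᶠ s in 𝓝 z, ∀ j i, n j i < 0 → s.2.2 (φ i) ≠ 0 := by
    simp only [eventually_all]
    exact fun j i e => (by fun_prop : Continuous fun s : W3 Λ J =>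
      s.2.2 (φ i)).continuousAt.eventually_ne (h0 j i e)
  have h2 : ∀ s : W3 Λ J, (∀ j i, n j i < 0 → s.2.2 (φ i) ≠ 0) →
      ((s.1, s.2.1) ∈ F.cone ∧ (s.1, s.2.2) ∈ F.bs ↔ (s.1, s.2.1) ∈ F.cone ∧
        (fun j : (F.movᶜ \ range φ : Set J) => s.2.2 j -
          if j.1 ∈ F.zer then 0 else ψ j s.1 * ∏ i, s.2.2 (φ i) ^ n j i) = 0) := fun s e => by
    simp only [funext_iff, Pi.zero_apply, sub_eq_zero]
    refine and_congr_right fun hB => ⟨fun k j => ?_, fun k => ?_⟩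
    · split_ifs with c
      exacts [k.2.2 j c, (hs.E _ hB.1 _ k.2.2 e).1 k.2.1 j j.2.1 c]
    have k' : ∀ j ∈ F.zer, s.2.2 j = 0 := fun j c => (k ⟨j, disjoint_left.1 h.zer_base c,
      fun ⟨i, e⟩ => (hs.free i).2.1 (e ▸ c)⟩).trans (if_pos c)
    refine ⟨hB.1, (hs.E _ hB.1 _ k' e).2 fun j c c' => ?_, k'⟩
    by_cases d : j ∈ range φ
    · obtain ⟨i, rfl⟩ := d
      rw [(hs.free i).2.2.1, (hs.free i).2.2.2, Finset.prod_eq_single i (fun _ _ e => by simp [e])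
        (by simp)]
      simp
    · exact (k ⟨j, c, d⟩).trans (if_neg c')
  rw [Nat.card_eq_fintype_card, ← finrank_fintype_fun_eq_card ℂ]
  refine (mfd0 hb).sub' (.of_an (analyticAt_pi_iff.2 fun j => ?_))
    ((h2 z h0).1 ⟨hb.1, (F.mem_cone.1 hz).1⟩).2 (fun c _ => Submodule.subset_span ?_) (h1.mono h2)
  · have a := analyticAt_pi_iff.1 (Dg0.a₂ (analyticAt_snd (p := z)))
    refine (a j.1).sub ?_
    split_ifs
    · exact analyticAt_const
    refine ((hs.an j z.1 hz.1).1.comp analyticAt_fst).mul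
      (Finset.analyticAt_fun_prod _ fun i _ => ?_)
    rcases lt_or_ge (n j i) 0 with e | e
    exacts [(a (φ i)).fun_zpow (h0 j i e), (a (φ i)).fun_zpow_nonneg e]
  · refine ⟨_, ⟨an_line z fun j => if e : j ∈ F.movᶜ \ range φ then c ⟨j, e⟩ else 0, by simp,
      .of_forall fun _ => hb.1⟩, HasDerivAt.deriv (hasDerivAt_pi.2 fun j => ?_)⟩
    have k : ∀ i, φ i ∉ F.movᶜ \ range φ := fun i e => e.2 ⟨i, rfl⟩
    simp only [dif_neg (k _), dif_pos j.2, mul_zero, add_zero]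
    exact ((((hasDerivAt_id' (0 : ℂ)).mul_const (c j)).const_add (z.2.2 j)).sub_const
      _).congr_deriv (one_mul _)

variable {d : ℕ}

theorem dim2 (h : F.Inv) (hr : F.Reg K₀) (hd : Tq.Dim F.actT F.cone d) :
    Tq.Dim F.act2 F.cone2 (d + (F.rv K₀).toNat) := fun z hz => by
  obtain ⟨n, h1, h2⟩ := reg (Z := F.cone2) hr h hz.1.2 (same (hd _ hz.1.1) hz.2)
    (fun y e => ⟨hz.1.1, fun j hj => (hz.2 j hj).trans (e j hj)⟩)
    (fun p hp => Fam.bs_congr h (F.mem_cone.1 hp.1).1 hp.2)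
    fun p => ⟨fun k => ⟨⟨k.1.1, k.2⟩, k.1.2⟩, fun k => ⟨⟨k.1.1, k.2⟩, k.1.2⟩⟩
  have h3 := Fam.finrank_vert h hr hz.1.1
  rw [hr.finrank_vert' h hz.1.1] at h3
  rwa [show finrank ℂ ((S → ℂ) × (R → ℂ)) + (d + (F.rv K₀).toNat) = n by omega]

theorem dim0 (hd : Tq.Dim F.actT F.cone d) : Tq.Dim F.act2 F.dg0 d := fun z hz => by
  have e : (z.1, z.2.1, z.2.1) = z := Prod.ext rfl (Prod.ext rfl hz.2)
  exact e ▸ (hd _ hz.1.1.1).iso (F := fun s => (s.1, s.2, s.2)) (G := fun p => (p.1, p.2.1))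
    (analyticAt_fst.prod (analyticAt_snd.prod analyticAt_snd))
    (analyticAt_fst.prod (Dg0.a₁ analyticAt_snd))
    (.of_forall fun _ hs => ⟨⟨Dg0.diag_mem hs, rfl⟩, rfl⟩)
    (.of_forall fun _ hp => ⟨hp.1.1.1, Prod.ext rfl (Prod.ext rfl hp.2)⟩)

theorem fp0 (h : F.Good) : Mono.FP F.act2 F.dg0 :=
  haveI := h.fp2
  haveI := h.fp2.toIsAct.mono (fun _ a => a.1) (Dg0.ivt0 h.toInv)
  { this with
    proper := Holo.Sp.properSMul_mono fun _ a => a.1
    lc := ((Dg0.lc2 h.toInv).inter (isClosed_eq (f := fun z : W3 Λ J => z.2.1)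
      (g := fun z => z.2.2) (by fun_prop) (by fun_prop)).isLocallyClosed).locallyCompactSpace
    free := fun x g e => h.fp2.free (Holo.Sp.incl F.act2 (fun _ a => a.1) x) g
      (congrArg (Holo.Sp.incl F.act2 fun _ a => a.1) e) }

theorem tst (z : W3 Λ J) (j : J) : F.dgD.Tst F.cone2 z (fun _ => LinearMap.proj j)
    fun p => p.2.2 j - p.2.1 j :=
  ⟨an₃ z j, fun _ _ => .of_forall fun _ => continuousWithinAt_const,
    .of_forall fun _ _ hw => congrFun hw j, .of_forall fun _ => rfl⟩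

theorem sep (z : W3 Λ J) : F.dgD.Sep F.cone2 z := fun _ _ H => funext fun j => H _ _ (tst z j)

theorem trv (hz : z ∈ F.dg0) : F.dgD.Trv F.dg0 F.cone2 z := by
  rintro v ⟨h1, h2⟩ H
  let ρ : W3 Λ J →L[ℂ] W3 Λ J := (ContinuousLinearMap.fst ℂ _ _).prod
    ((ContinuousLinearMap.fst ℂ _ _ ∘L ContinuousLinearMap.snd ℂ _ _).prod
      (ContinuousLinearMap.fst ℂ _ _ ∘L ContinuousLinearMap.snd ℂ _ _))
  have e1 : ρ z = z := Prod.ext rfl (Prod.ext rfl hz.2)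
  have e2 : ρ v = v := Prod.ext rfl (Prod.ext rfl (funext fun j => by
    let l : W3 Λ J →L[ℂ] ℂ := ContinuousLinearMap.proj j ∘L ((ContinuousLinearMap.snd ℂ _ _ -
      ContinuousLinearMap.fst ℂ _ _) ∘L ContinuousLinearMap.snd ℂ _ _)
    exact (sub_eq_zero.1 ((DFunLike.congr_fun (l.fderiv (x := z)) v).symm.trans
      (H _ _ (tst z j)))).symm))
  refine ⟨hz, fun Φ k1 k2 => ?_⟩
  have k3 : AnalyticAt ℂ Φ (ρ z) := e1.symm ▸ k1
  have k4 := h2 (Φ ∘ ρ) (k3.comp (ρ.analyticAt z)) ((ev_sub h1 (p := fun s => Φ (ρ s) = 0)).2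
    (((ρ.continuous.tendsto' z z e1).eventually ((ev_sub hz (p := fun s => Φ s = 0)).1 k2)).mono
      fun s a b => a ⟨Dg0.diag_mem b.1.1, rfl⟩))
  rwa [fderiv_comp _ k3.differentiableAt ρ.differentiableAt, ρ.fderiv,
    ContinuousLinearMap.comp_apply, e1, e2] at k4

theorem bun (F : Fam S Λ R J K) : Bun F.actT F.act2 F.cone F.dg0 (ContinuousLinearMap.id ℂ _)
    fun z => (z.1, z.2, z.2) where
  one := rfl
  mul _ _ := rfl
  surj := surjective_id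
  usurj b hb := ⟨b, hb, rfl⟩
  maps _ hz := ⟨Dg0.diag_mem hz, rfl⟩
  hol _ _ := ⟨_, analyticAt_fst.prod (analyticAt_snd.prod analyticAt_snd), .of_forall fun _ => rfl⟩
  eqv _ _ _ _ := rfl
  fib x _ _ _ e := ⟨1, isUnit_one, rfl,
    (F.actT_one x).trans (Prod.ext (congrArg (·.1) e) (congrArg (·.2.1) e))⟩
  free _ _ _ _ e _ := e
  rig _ _ _ _ k _ _ := tendsto_const_nhds.congr fun n => (k n).2.2.symm
  sec _ _ := ⟨fun p => (p.1, p.2.1), analyticAt_fst.prod (Dg0.a₁ analyticAt_snd), rfl,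
    eventually_mem_nhdsWithin.mono fun _ hp => ⟨hp.1.1.1, Prod.ext rfl (Prod.ext rfl hp.2)⟩⟩

end U2

open U2

theorem exists_dim2 (h : F.Nice 0) : ∃ n, Tq.Dim F.act2 F.cone2 n :=
  let ⟨_, hr⟩ := h.reg
  let ⟨_, hd⟩ := h.exists_dim
  ⟨_, dim2 h.toInv hr hd⟩

theorem exists_dim3 (h : F.Nice 0) : ∃ n, Tq.Dim F.act3 F.cone3 n := by
  obtain ⟨K₀, hr⟩ := h.reg
  obtain ⟨d, hd⟩ := h.exists_dim
  obtain ⟨_, φ, _, _, hs⟩ := h.sh
  haveI := h.toGood.fp3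
  haveI := Dg0.isAct3 F.toWt
  refine ⟨_, .of_mfd (m := finrank ℂ ((S → ℂ) × (R → ℂ)) + d + finrank ℂ (J → ℂ) -
    Nat.card (F.movᶜ \ range φ : Set J) - Nat.card K₀) fun z hz => ?_⟩
  obtain ⟨m, h1, h2⟩ := base hs h.toInv (hd _ hz.1) hz.2
  obtain ⟨n, h3, h4⟩ := reg (Z := F.cone3) hr h.toInv hz.2 h2
    (fun y e => ⟨hz.1, Fam.bs_congr h.toInv (F.mem_cone.1 hz.2).1 e⟩) (fun p hp => hp.2)
    fun p => ⟨fun k => ⟨⟨k.1, (F.mem_cone.1 k.2).1⟩, k.2⟩, fun k => ⟨k.1.1, k.2⟩⟩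
  rwa [← h1, ← h3, Nat.add_sub_cancel, Nat.add_sub_cancel]

theorem exists_isD3 (h : F.Nice 0) : ∃ t, IsD3 F t := by
  obtain ⟨d, hd⟩ := h.exists_dim
  obtain ⟨n, hn⟩ := exists_dim3 h
  haveI := h.toGood.fp
  haveI := h.toGood.fp3
  haveI := Dg0.isAct3 F.toWt
  have he := isClosedEmbedding_d3 h.toGood
  obtain ⟨t, h1, h2, h3, h4⟩ := hn.ori.exists_gys he hd.deg
  refine ⟨t, ⟨n - d, h1, ?_, h2⟩, (Gys_iff he h1 h2).2 h4⟩
  rcases le_or_gt d n with e | e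
  · exact h3.cast (by omega)
  · rw [h3.eq_zero (by omega)]
    exact isDeg_zero _

theorem IsD3.cohom (h : F.Nice 0) {t t' : Coch F.X3} (ht : IsD3 F t) (ht' : IsD3 F t') :
    Cohom (range (d3 F)) t t' := by
  obtain ⟨n, hn⟩ := exists_dim3 h
  obtain ⟨_, a⟩ := ht.co
  obtain ⟨_, b⟩ := ht'.co
  haveI := h.toGood.fp
  haveI := h.toGood.fp3
  haveI := Dg0.isAct3 F.toWt
  have he := isClosedEmbedding_d3 h.toGood
  exact hn.ori.cohom_of_gys he a.cocycle a.supp b.cocycle b.supp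
    (((Gys_iff he a.cocycle a.supp).1 ht.gys).trans ((Gys_iff he b.cocycle b.supp).1 ht'.gys).symm)

/-- **The diagonal cocycle cuts the target out of `X2`.** -/
theorem gys_d2 (h : F.Nice 0) {t : Coch F.X2} (ht : F.IsDiag t) :
    Gys (eqM_d2 F).map t (Tq.fnd F.act2 F.cone2) (Tq.fnd F.actT F.cone) := by
  obtain ⟨K₀, hr⟩ := h.reg
  obtain ⟨d, hd⟩ := h.exists_dim
  haveI := h.toGood.fp
  haveI := h.toGood.fp.lc
  haveI := h.toGood.fp2
  haveI := fp0 h.toGood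
  haveI := (fp0 h.toGood).lc
  haveI := Dg0.isAct2 F.toWt
  have g := h.toGood.gd_dg hr
  have h2 := dim2 h.toInv hr hd
  have h3 := g.vr_tz h2 (dim0 hd) (fun _ => trv) fun x _ => sep x
  rw [ht.vr_eq h.toGood hr] at h3
  have b := bun F
  have hh := b.isHomeomorph b.toEt.map_mk fun z hz =>
    ⟨(z.1, z.2.1), hz.1.1.1, Prod.ext rfl (Prod.ext rfl hz.2)⟩
  have h4 : res b.toEt.map (fnd F.act2 F.dg0 d) = Tq.fnd F.actT F.cone :=
    (Mono.FP.eq_fundQ hd.holOrb (b.isFund_res b.toEt.map_mk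
      (Mono.FP.isFund (dim0 hd).holOrb))).trans hd.fnd_eq.symm
  have h5 : Quo.incl F.act2 g.dom.sub ∘ b.toEt.map = (eqM_d2 F).map :=
    (eqM_d2 F).eq_map fun _ => rfl
  have h6 : range (Quo.incl F.act2 g.dom.sub) = range (eqM_d2 F).map := by
    rw [← h5, hh.surjective.range_comp]
  have he : IsClosedEmbedding (Quo.incl F.act2 g.dom.sub) := by
    have := (isClosedEmbedding_d2 h.toGood).comp (hh.homeomorph _).symm.isClosedEmbedding
    rwa [← h5, comp_assoc, show b.toEt.map ∘ (hh.homeomorph _).symm = id from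
      funext (hh.homeomorph _).apply_symm_apply, comp_id] at this
  intro a a1 a2
  have a3 : a ∈ Near (Quo.incl F.act2 g.dom.sub) := mem_Near'.2 ⟨a1, h6 ▸ a2⟩
  rw [← h4, ← h5, ← pull_pull, ev_res hh.isOpenEmbedding _
    (Near.pull_Zc (IsPr.of_isClosedEmbedding he) a3) (hh.surjective.range_eq ▸ subset_univ _),
    ← h3, ev_gys he ht.1 (ht.2.1.trans (h.toGood.range_dg0 _).ge) _ a3, h2.fnd_eq]
  rfl

end Vale.Agent.P269.Nd
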