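import Vale.Agent.P269.Glu.PrBip
import Vale.Agent.P269.Glu.FpC
import Vale.Agent.P269.Map.Psi
import Vale.Agent.P269.Map.Ind
import Vale.Agent.P269.Bas.BC

set_option linter.unusedSectionVars false
set_option linter.style.haveILetI false

/-!
# Decompositions: cotangent lines and index bundles in standard position
-/

namespace Vale.Agent.P269.Ch

open P291Z Set Function Topology Filter Module Base Holo Vir

section gen

variable {A A' W W' P P' : Type} [NormedRing A] [NormedAlgebra ℂ A] [NormedAddCommGroup W]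
  [NormedSpace ℂ W] [NormedRing A'] [NormedAlgebra ℂ A'] [NormedAddCommGroup W'] [NormedSpace ℂ W']
  [AddCommGroup P] [Module ℂ P] [TopologicalSpace P] [IsTopologicalAddGroup P]
  [ContinuousSMul ℂ P] [T2Space P] [AddCommGroup P'] [Module ℂ P'] [TopologicalSpace P']
  [IsTopologicalAddGroup P'] [ContinuousSMul ℂ P'] [T2Space P'] {act : A → W → W} {Y : Set W}
  {E : SD A W P} {E' : SD A W P'} {r r' q q' : ℕ}

/-- The direct sum. -/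
@[reducible] def SD.dsum (E : SD A W P) (E' : SD A W P') : SD A W (P × P') :=
  ⟨fun a f => (E.ρ a f.1, E'.ρ a f.2), E.P₀.prod E'.P₀, fun x => (E.B x).prod (E'.B x),
    fun x => (E.N x).prod (E'.N x)⟩

theorem SD.Ok.dsum (h : E.Ok act Y r r') (h' : E'.Ok act Y q q') :
    (E.dsum E').Ok act Y (r + q) (r' + q') := by
  haveI := h.fin
  haveI := h'.fin
  have k : ∀ {B B' n n'}, IsFam act E.ρ Y E.P₀ B n → IsFam act E'.ρ Y E'.P₀ B' n' →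
      IsFam act (E.dsum E').ρ Y (E.P₀.prod E'.P₀) (fun x => (B x).prod (B' x)) (n + n') :=
    fun a b => ⟨fun x hx _ c => ⟨a.le x hx c.1, b.le x hx c.2⟩,
      (a.closed.preimage (continuous_id.prodMap continuous_fst)).inter
        (b.closed.preimage (continuous_id.prodMap continuous_snd)), fun x hx => by
        haveI := Submodule.finiteDimensional_of_le (a.le x hx)
        haveI := Submodule.finiteDimensional_of_le (b.le x hx)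
        exact (FpC.finrank_prod _ _).trans (congrArg₂ _ (a.rank x hx) (b.rank x hx)),
      fun x hx s hs _ c => ⟨a.inv x hx s hs _ c.1, b.inv x hx s hs _ c.2⟩⟩
  exact ⟨FpC.fin_prod _ _, ⟨fun a ha _ c => ⟨h.rep.mem a ha _ c.1, h'.rep.mem a ha _ c.2⟩,
      fun a ha _ c _ d => Prod.ext (h.rep.add a ha _ c.1 _ d.1) (h'.rep.add a ha _ c.2 _ d.2),
      fun a ha z _ c => Prod.ext (h.rep.smul a ha z _ c.1) (h'.rep.smul a ha z _ c.2),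
      fun _ c => Prod.ext (h.rep.one _ c.1) (h'.rep.one _ c.2),
      fun a b ha hb _ c => Prod.ext (h.rep.mul a b ha hb _ c.1) (h'.rep.mul a b ha hb _ c.2),
      fun _ c => (h.rep.cont _ c.1).prodMk (h'.rep.cont _ c.2)⟩, k h.famB h'.famB,
    k h.famN h'.famN, fun x hx _ c => ⟨h.le x hx c.1, h'.le x hx c.2⟩⟩

theorem IsRepOn.zero {ρ : A → P → P} {P₀ : Submodule ℂ P} (h : IsRepOn ρ P₀) {a : A}
    (ha : IsUnit a) : ρ a 0 = 0 := by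
  have := h.smul a ha 0 0 (zero_mem _)
  rwa [zero_smul, zero_smul] at this

variable [IsAct act Y] (ho : Orb.Orb Aˣ (Holo.Sp act Y))
include ho

theorem SD.Ok.ch_dsum (h : E.Ok act Y r r') (h' : E'.Ok act Y q q') :
    (E.dsum E').ch act Y = E.ch act Y * E'.ch act Y :=
  (h.dsum h').exact ho h h' (L₁ := fun _ => .inl ℂ _ _) (L₂ := fun _ => .snd ℂ _ _)
    ⟨fun _ _ => continuousOn_const, fun _ _ _ c => ⟨c, zero_mem _⟩, fun _ _ _ c => ⟨c, zero_mem _⟩,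
      fun _ _ a ha _ _ => ⟨mem_of_eq_of_mem (sub_self _) (zero_mem _),
        mem_of_eq_of_mem ((zero_sub _).trans (neg_eq_zero.2 (h'.rep.zero ha))) (zero_mem _)⟩⟩
    ⟨fun _ _ => continuousOn_const, fun _ _ _ c => c.2, fun _ _ _ c => c.2,
      fun _ _ _ _ _ _ => mem_of_eq_of_mem (sub_self _) (zero_mem _)⟩
    (fun _ _ _ _ c => c.1) (fun _ _ w c => ⟨(0, w), ⟨zero_mem _, c⟩,
      mem_of_eq_of_mem (sub_self _) (zero_mem _)⟩) (fun _ _ _ _ => zero_mem _) fun _ => by omega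

theorem SD.Ok.pb_eq {act' : A' → W' → W'} {T : Set W'} [IsAct act' T] {D : SD A' W' P}
    (h : D.Ok act' T r r') (ho' : Orb.Orb A'ˣ (Holo.Sp act' T)) {θ : A → A'} {f : W → W'}
    (e : EqM act act' Y T θ f) : hcls ((D.pb θ f).eu act Y) = H.map e.map (hcls (D.eu act' T)) ∧
      (D.pb θ f).ch act Y = PowerSeries.map (Hev.map e.map).toRingHom (D.ch act' T) :=
  (h.pb e).pull_id h ho ho' e (fun _ _ => rfl) (fun _ _ => rfl) fun _ _ _ _ _ _ => rfl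

end gen

variable {S Λ R J ι ν κ ν₁ κ₁ ν₂ κ₂ A W : Type} [Fintype S] [Fintype Λ] [Fintype R] [Fintype J]
  [Fintype ι] [DecidableEq ι] [Fintype ν] [Fintype κ] [Fintype ν₁] [Fintype κ₁] [Fintype ν₂]
  [Fintype κ₂] [NormedRing A] [NormedAlgebra ℂ A] [NormedAddCommGroup W] [NormedSpace ℂ W]
  {ch : Ch ι J} {n₁ n₂ : Nm ι J} {Wg : Wt S Λ R J} {act : A → W → W} {Y : Set W}
  {T : Set (ch.WF ν κ Λ)} {T₁ : Set ((ch.re n₁).WF ν₁ κ₁ Λ)} {T₂ : Set ((ch.re n₂).WF ν₂ κ₂ Λ)}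
  {θ : A → ch.AF ν κ S} {θ₁ : A → (ch.re n₁).AF ν₁ κ₁ S} {θ₂ : A → (ch.re n₂).AF ν₂ κ₂ S}
  {f : W → ch.WF ν κ Λ} {f₁ : W → (ch.re n₁).WF ν₁ κ₁ Λ} {f₂ : W → (ch.re n₂).WF ν₂ κ₂ Λ} {j : J}

/-- **cotangent lines along a linear embedding of curves** -/
theorem psi_emb [IsAct act Y] (ho : Orb.Orb Aˣ (Holo.Sp act Y)) (h : OZ Wg T) (h₁ : OZ Wg T₁)
    (e : EqM act (actF Wg) Y T θ f) (e₁ : EqM act (actF Wg) Y T₁ θ₁ f₁) {φ : HV n₁.M ch.M}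
    (hi : ∀ i, Injective (φ i)) (hφ : ∀ a i v, (θ a).2.1 i (φ i v) = φ i ((θ₁ a).2.1 i v))
    {q : Mk ν κ} {q₁ : Mk ν₁ κ₁} (ht : ∀ a, (dup (θ a).2).2.2 q = (dup (θ₁ a).2).2.2 q₁)
    (hc : ∀ y ∈ Y, MapsTo (apV φ) (crv (f₁ y).2) (crv (f y).2))
    (hp : ∀ y ∈ Y, (f y).2.p q = apV φ ((f₁ y).2.p q₁)) :
    H.map e.map (hcls (psiF q)) = H.map e₁.map (hcls (psiF q₁)) := by
  haveI := h.act
  haveI := h₁.act
  have a := h.cuts.okψ (F := Wg) h.base q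
  have a₁ := h₁.cuts.okψ (F := Wg) h₁.base q₁
  let L : V n₁.M →L[ℂ] V ch.M := .pi fun i => φ i ∘L .proj i
  have b : (((ch.re n₁).sdψ S Λ q₁).pb θ₁ f₁).Hom (ch.sdψ S Λ q) act Y θ f fun _ => L.toLinearMap :=
    ⟨fun _ _ => continuousOn_const, fun y hy w c => by
      have := Psi.Tg_map L (hc y hy) c
      exact (congrArg (Psi.Tg (crv (f y).2)) (hp y hy)).ge this, fun y hy w c => by
      obtain ⟨t, rfl⟩ := Psi.mem_Nr.1 c
      exact Psi.mem_Nr.2 ⟨t, funext fun i => (map_smul (φ i) _ _).trans (by rw [hp y hy]; rfl)⟩,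
      fun _ _ s _ w _ => mem_of_eq_of_mem (sub_eq_zero.2 (funext fun i =>
        (map_smul (φ i) _ _).trans (congrArg₂ (· • ·) (congrFun (ht s) i).symm (hφ s i _).symm)))
        (zero_mem _)⟩
  have c : (((ch.re n₁).sdψ S Λ q₁).pb θ₁ f₁).Inj (ch.sdψ S Λ q) Y f fun _ => L.toLinearMap :=
    fun y hy w _ d => by
      obtain ⟨t, d⟩ := Psi.mem_Nr.1 d
      exact Psi.mem_Nr.2 ⟨t, funext fun i => hi i ((congrFun d i).trans
        ((by rw [hp y hy]; rfl : _ = _).trans (map_smul (φ i) _ _).symm))⟩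
  have d := ((a₁.pb e₁).pull ho h.orb a e b c ((b.rank (a₁.pb e₁) a e.maps c).2 fun _ => rfl)).1
  rw [← H.map_hcls _ (a.cocycle h.orb), (a₁.pb_eq ho h₁.orb e₁).1] at d
  rw [psiF_eq, psiF_eq, hcls_neg (a.cocycle h.orb), hcls_neg (a₁.cocycle h₁.orb), map_neg, map_neg, d]

namespace Bip

variable (b : ch.Bip n₁ n₂)

/-- The element `s` is compatible with the first summand, on which it acts as `s₁`. -/
structure Hf (s : ch.AF ν κ S) (s₁ : (ch.re n₁).AF ν₁ κ₁ S) : Prop where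
  τ : s.1 = s₁.1
  φ : ∀ i v, s.2.1 i (b.φ₁ i v) = b.φ₁ i (s₁.2.1 i v)
  ψ : ∀ i v, b.ψ₁ i (s.2.1 i v) = s₁.2.1 i (b.ψ₁ i v)
  r : ∀ l v, b.r₁ l (s.2.2.1 l v) = s₁.2.2.1 l (b.r₁ l v)

variable (j) in
/-- The induced field on the first summand. -/
noncomputable def rX : (ch.Th j →L[ℂ] ch.E (some j)) →ₗ[ℂ]
    (ch.re n₁).Th j →L[ℂ] (ch.re n₁).E (some j) where
  toFun X := b.r₁ _ ∘L X ∘L pbT b.ψ₁ _
  map_add' _ _ := by ext1; simp
  map_smul' _ _ := by ext1; simp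

variable {s : ch.AF ν κ S} {s₁ : (ch.re n₁).AF ν₁ κ₁ S} {x : ch.WF ν κ Λ}
  {x₁ : (ch.re n₁).WF ν₁ κ₁ Λ} {x₂ : (ch.re n₂).WF ν₂ κ₂ Λ} {w : ch.P Empty}
  {w₁ : (ch.re n₁).P Empty} {w₂ : (ch.re n₂).P Empty} {X : ch.Th j →L[ℂ] ch.E (some j)}

theorem cont_rX : Continuous (b.rX j) :=
  continuous_const.clm_comp (continuous_id.clm_comp continuous_const)

theorem in_val {a : ι → ℕ} (m : Tens n₁.M a) (c : V n₁.M) :
    val (pbT b.ψ₁ _ m) (apV b.φ₁ c) = val m c :=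
  congrArg m (funext fun _ => b.ψφ₁₁ _ _)

theorem in_ji (z : (ch.re n₁).Pt) : b.j₁ (b.i₁ z) = z :=
  Prod.ext (funext fun _ => b.ψφ₁₁ _ _) (funext fun _ => ContinuousLinearMap.ext fun _ =>
    congrArg _ (b.re₁₁ _ _))

variable {b}

theorem Hf.sub (h : b.Hf s s₁) {σ : Type} [Fintype σ] (τ : σ → ι) (m : Tn n₁.M τ) :
    sub s.2 τ (pbT b.ψ₁ τ m) = pbT b.ψ₁ τ (sub (ch := ch.re n₁) s₁.2 τ m) := by
  ext u
  exact congrArg m (funext fun _ => h.ψ _ _)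

theorem Hf.rX (h : b.Hf s s₁) : b.rX j (ρX Wg j s X) = ρX Wg j s₁ (b.rX j X) :=
  ContinuousLinearMap.ext fun m => (map_smul (b.r₁ _) _ _).trans (congrArg₂ (· • ·)
    (by rw [h.τ]) ((h.r _ _).trans (congrArg (fun t => s₁.2.2.1 _ (b.r₁ _ (X t))) (h.sub _ m))))

theorem Hf.zz (h : b.Hf s s₁) (hs : IsUnit s) (hs₁ : IsUnit s₁) (z : (ch.re n₁).Pt) :
    zz s (b.i₁ z) = b.i₁ (zz s₁ z) := by
  refine Prod.ext (funext fun i => ?_) (funext fun l => ContinuousLinearMap.ext fun v =>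
    congrArg _ (h.r l v))
  refine (ContinuousLinearMap.isUnit_iff_bijective.1 (unit_fst hs i)).1 ((ap_zz hs _ i).trans ?_)
  exact ((h.φ i _).trans (congrArg _ (ap_zz hs₁ z i))).symm

theorem Hf.ρK (h : b.Hf s s₁) (hs : IsUnit s) (hs₁ : IsUnit s₁) (w : ch.P Empty) :
    b.B₁ Empty (ρK Wg s w) = ρK Wg s₁ (b.B₁ Empty w) :=
  P_ext (fun i z m => congrArg₂ (· * ·) (by rw [h.τ]) (congrArg₂ (w.1 i) (h.zz hs hs₁ z)
    (Prod.ext (h.sub _ _) (h.sub _ _)))) fun k => k.elim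

variable (b)

theorem in_trP {ch ch' : Ch ι J} {g : ch'.Pt → ch.Pt} {t : ∀ j, ch'.Th j →L[ℂ] ch.Th j} {u}
    {t' : ch.Th j →L[ℂ] ch'.Th j} {v : ch.E (some j) →L[ℂ] ch'.E (some j)}
    (h : ∀ z μ, val μ (g z).1 = val (t' μ) z.1) (h' : ∀ z y, (g z).2 (some j) y = z.2 _ (v y))
    {w : ch.P Empty} (hw : w ∈ ch.polK j) : trP Empty g (fun j => t j) u w ∈ ch'.polK j := by
  have a : (trP Empty g (fun j => t j) u w).1 j ∈ Submodule.span ℂ (ch'.G1 j) := by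
    refine Submodule.span_induction (p := fun k _ => (fun (z : ch'.Pt) (m : ch'.Th j × ch'.Th j) =>
      k (g z) (t j m.1, t j m.2)) ∈ Submodule.span ℂ (ch'.G1 j)) ?_ (zero_mem _)
      (fun _ _ _ _ => add_mem) (fun c _ _ => Submodule.smul_mem _ c) ((mem_polS.1 hw.1).1 j)
    rintro _ ⟨l, l', μ, y, rfl⟩
    exact Submodule.subset_span ⟨l ∘L t j, l' ∘L t j, t' μ, v y, funext₂ fun z _ =>
      congrArg₂ (· * ·) (congrArg (_ * ·) (h z μ)) (h' z y)⟩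
  have c : ∀ i ≠ j, (trP Empty g (fun j => t j) u w).1 i = 0 := fun i hi =>
    funext₂ fun _ _ => congrFun₂ (hw.2 i hi) _ _
  refine ⟨mem_polS.2 ⟨fun i => ?_, fun k => k.elim⟩, c⟩
  by_cases e : i = j
  exacts [e ▸ a, c i e ▸ zero_mem _]

theorem in_Bp (h : w ∈ ch.polK j) : b.B₁ Empty w ∈ (ch.re n₁).polK j :=
  in_trP (ch := ch) (ch' := ch.re n₁) (g := b.i₁) (t := fun _ => pbT b.ψ₁ _)
    (u := fun ζ i => ζ i ∘L b.ψ₁ i) (t' := pbT b.φ₁ _) (v := b.r₁ _) (fun _ _ => rfl)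
    (fun _ _ => rfl) h

theorem in_Lp (h : w₁ ∈ (ch.re n₁).polK j) : b.L₁ Empty w₁ ∈ ch.polK j :=
  in_trP (ch := ch.re n₁) (ch' := ch) (g := b.j₁) (t := fun _ => pbT b.φ₁ _)
    (u := fun ζ i => ζ i ∘L b.φ₁ i) (t' := pbT b.ψ₁ _) (v := b.e₁ _) (fun _ _ => rfl)
    (fun _ _ => rfl) h

theorem in_Lo (h : w₂ ∈ (ch.re n₂).polK j) (z : (ch.re n₁).Pt) (m) :
    (b.symm.L₁ Empty w₂).1 j (b.i₁ z) m = 0 := by
  refine Submodule.span_induction (p := fun k _ => k (b.symm.j₁ (b.i₁ z))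
    (pbT b.φ₂ _ m.1, pbT b.φ₂ _ m.2) = 0) ?_ rfl (fun _ _ _ _ c d => (congrArg₂ (· + ·) c d).trans
      (add_zero 0)) (fun c _ _ d => (congrArg (c • ·) d).trans (smul_zero c)) ((mem_polS.1 h.1).1 j)
  rintro _ ⟨l, l', μ, y, rfl⟩
  exact mul_eq_zero_of_right _ ((congrArg (z.2 _) (b.re₁₂ _ _)).trans (map_zero _))

theorem in_Lv (h : w₂ ∈ (ch.re n₂).polK j) (z : (ch.re n₁).Pt) (m) :
    (b.L₁ Empty w₁ + b.symm.L₁ Empty w₂).1 j (b.i₁ z) m =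
      w₁.1 j z (pbT b.φ₁ _ m.1, pbT b.φ₁ _ m.2) :=
  (congrArg₂ (· + ·) (congrArg (w₁.1 j · _) (b.in_ji z)) (b.in_Lo h z m)).trans (add_zero _)

section gr

variable (hx : b.i₁ '' gr x₁.2 ⊆ gr x.2)
include hx

theorem in_BB (h : w ∈ (ch.sdK ν κ Wg j).B x) : b.B₁ Empty w ∈ ((ch.re n₁).sdK ν₁ κ₁ Wg j).B x₁ := by
  obtain ⟨c, d⟩ := mem_sdK_B.1 h
  refine mem_sdK_B.2 ⟨b.in_Bp c, fun z hz => ?_⟩
  obtain ⟨y, d⟩ := d _ (hx ⟨z, hz, rfl⟩)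
  exact ⟨y ∘L pbT b.ψ₁ _, fun m => (d (pbT b.ψ₁ _ m.1, pbT b.ψ₁ _ m.2)).trans
    (congrArg₂ (· - ·) (congrArg (· * _) (b.in_val _ _)) (congrArg (· * _) (b.in_val _ _)))⟩

theorem in_BN (h : w ∈ (ch.sdK ν κ Wg j).N x) : b.B₁ Empty w ∈ ((ch.re n₁).sdK ν₁ κ₁ Wg j).N x₁ :=
  mem_sdK_N.2 ⟨b.in_Bp (mem_sdK_N.1 h).1, fun z hz => funext fun _ =>
    congrFun ((mem_sdK_N.1 h).2 _ (hx ⟨z, hz, rfl⟩)) _⟩

theorem in_r0 (h₁ : x₁.2 ∈ (ch.re n₁).base _) (hX : b.rX j X = 0)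
    (h : ch.kzK j X ∈ (ch.sdK ν κ Wg j).N x) (m) : b.r₁ _ (X m) = 0 := by
  obtain ⟨μ, e⟩ := h₁.1 _ (b.r₁ _ (X m))
  refine e.symm.trans (h₁.2.1 _ μ ?_)
  rintro _ ⟨z, hz, rfl⟩
  obtain ⟨y, d⟩ := kzK_mem_N.1 h _ (hx ⟨z, hz, rfl⟩)
  obtain ⟨m', k⟩ := exists_pol_one hz.1 (ch.b j)
  have := d (pbT b.ψ₁ _ m')
  rw [show val (pbT b.ψ₁ _ m') (b.i₁ z).1 = 1 from (b.in_val _ _).trans k, mul_one] at this
  obtain rfl : y = 0 := this.symm.trans ((congrArg (z.2 _) (DFunLike.congr_fun hX m')).trans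
    (map_zero _))
  exact (hz.2 _ μ).symm.trans ((congrArg (z.2 _) e).trans ((d m).trans (zero_mul _)))

end gr

theorem in_kz (hX : b.rX j X = 0) :
    b.B₁ Empty (ch.kzK j X) ∈ ((ch.re n₁).sdK ν₁ κ₁ Wg j).N x₁ := by
  refine mem_sdK_N.2 ⟨b.in_Bp (kzK_mem X), fun z _ => funext fun m => (kzK_apply X _ _).trans ?_⟩
  have : ∀ m, (b.i₁ z).2 (some j) (X (pbT b.ψ₁ _ m)) = 0 := fun m =>
    (congrArg (z.2 _) (DFunLike.congr_fun hX m)).trans (map_zero _)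
  rw [this, this, mul_zero, mul_zero, sub_zero]
  rfl

theorem in_LN (h₁ : w₁ ∈ (ch.re n₁).polK j) (h₂ : w₂ ∈ (ch.re n₂).polK j) :
    b.B₁ Empty (b.L₁ Empty w₁ + b.symm.L₁ Empty w₂) - w₁ ∈ ((ch.re n₁).sdK ν₁ κ₁ Wg j).N x₁ :=
  mem_sdK_N.2 ⟨((ch.re n₁).polKM j).sub_mem (b.in_Bp ((ch.polKM j).add_mem
    (b.in_Lp h₁) (b.symm.in_Lp h₂))) h₁, fun z _ => funext fun _ => sub_eq_zero.2
      ((b.in_Lv h₂ z _).trans (congrArg (w₁.1 j z)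
        (Prod.ext (PB.pbT_id b.ψφ₁₁ _ _) (PB.pbT_id b.ψφ₁₁ _ _))))⟩

theorem in_LB (h₁ : w₁ ∈ ((ch.re n₁).sdK ν₁ κ₁ Wg j).B x₁) (h₂ : w₂ ∈ (ch.re n₂).polK j)
    {z : (ch.re n₁).Pt} (hz : z ∈ gr x₁.2) : ∃ y : ch.Th j →L[ℂ] ℂ, ∀ m,
      (b.L₁ Empty w₁ + b.symm.L₁ Empty w₂).1 j (b.i₁ z) m =
        val m.2 (b.i₁ z).1 * y m.1 - val m.1 (b.i₁ z).1 * y m.2 :=
  let ⟨y, d⟩ := (mem_sdK_B.1 h₁).2 z hz
  ⟨y ∘L pbT b.φ₁ _, fun m => (b.in_Lv h₂ z m).trans (d _)⟩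

/-- **the index bundle of a disjoint union** -/
theorem ind_mul [IsAct act Y] (ho : Orb.Orb Aˣ (Holo.Sp act Y)) (hN : ch.QN n₁ n₂) (h : OZ Wg T)
    (h₁ : OZ Wg T₁) (h₂ : OZ Wg T₂) (e : EqM act (actF Wg) Y T θ f)
    (e₁ : EqM act (actF Wg) Y T₁ θ₁ f₁) (e₂ : EqM act (actF Wg) Y T₂ θ₂ f₂)
    (k₁ : ∀ a, b.Hf (θ a) (θ₁ a)) (k₂ : ∀ a, b.symm.Hf (θ a) (θ₂ a))
    (hg : ∀ y ∈ Y, gr (f y).2 = b.i₁ '' gr (f₁ y).2 ∪ b.symm.i₁ '' gr (f₂ y).2) (j : J) :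
    PowerSeries.map (Hev.map e.map).toRingHom (indC Wg T j) =
      PowerSeries.map (Hev.map e₁.map).toRingHom (indC Wg T₁ j) *
        PowerSeries.map (Hev.map e₂.map).toRingHom (indC Wg T₂ j) := by
  haveI := h.act
  haveI := h₁.act
  haveI := h₂.act
  have x := okX (F := Wg) T j
  have x₁ := okX (F := Wg) T₁ j
  have x₂ := okX (F := Wg) T₂ j
  have k := h.cuts.okK (F := Wg) h.base j
  have c₁ := h₁.cuts.okK (F := Wg) h₁.base j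
  have c₂ := h₂.cuts.okK (F := Wg) h₂.base j
  let L := (b.rX j).prod (b.symm.rX j)
  have sj : Surjective L := fun v => ⟨b.ds v.1 v.2, Prod.ext
    (ContinuousLinearMap.ext fun m => b.rs₁_ds _ _ m) (ContinuousLinearMap.ext fun m => b.rs₂_ds _ _ m)⟩
  have eL : ∀ a X, L (ρX Wg j (θ a) X) = (ρX Wg j (θ₁ a) (L X).1, ρX Wg j (θ₂ a) (L X).2) :=
    fun a X => Prod.ext (k₁ a).rX (k₂ a).rX
  let C : SD A W _ := ⟨fun a => ρX Wg j (θ a), ⊤, fun _ => LinearMap.ker L, fun _ => ⊥⟩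
  have c : C.Ok act Y (finrank ℂ (LinearMap.ker L)) 0 := ⟨inferInstance, (x.pb e).rep,
    ⟨fun _ _ => le_top, isClosed_eq ((b.cont_rX.prodMk b.symm.cont_rX).comp continuous_snd)
      continuous_const,
      fun _ _ => rfl, fun _ _ a ha X hX => (eL a X).trans (by
        rw [show L X = 0 from hX]
        exact Prod.ext ((x₁.pb e₁).rep.zero ha) ((x₂.pb e₂).rep.zero ha))⟩, (x.pb e).famN,
    fun _ _ => bot_le⟩
  have rk := LinearMap.finrank_range_add_finrank_ker (K := ℂ) (V := ch.Th j →L[ℂ] ch.E (some j))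
    (V₂ := ((ch.re n₁).Th j →L[ℂ] (ch.re n₁).E (some j)) ×
      ((ch.re n₂).Th j →L[ℂ] (ch.re n₂).E (some j))) L
  haveI := Module.Free.of_divisionRing ℂ ((ch.re n₁).Th j →L[ℂ] (ch.re n₁).E (some j))
  haveI := Module.Free.of_divisionRing ℂ ((ch.re n₂).Th j →L[ℂ] (ch.re n₂).E (some j))
  rw [LinearMap.range_eq_top.2 sj, finrank_top, Module.finrank_prod, Base.finrank_clm,
    Base.finrank_clm, Base.finrank_clm, finrank_fin_fun, finrank_fin_fun, finrank_fin_fun] at rk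
  have s₁ := (x.pb e).exact ho c ((x₁.pb e₁).dsum (x₂.pb e₂)) (L₁ := fun _ => .id) (L₂ := fun _ => L)
    ⟨fun _ _ => continuousOn_const, fun _ _ _ _ => trivial, fun _ _ _ a => a,
      fun _ _ _ _ _ _ => sub_self _⟩
    ⟨fun _ _ => continuousOn_const, fun _ _ _ _ => ⟨trivial, trivial⟩, fun _ _ X (a : X = 0) =>
      mem_of_eq_of_mem ((congrArg L a).trans L.map_zero) (zero_mem _),
      fun _ _ a _ X _ => mem_of_eq_of_mem (sub_eq_zero.2 (eL a X)) (zero_mem _)⟩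
    (fun _ _ _ _ a => a) (fun _ _ v _ => let ⟨X, a⟩ := sj v
      ⟨X, trivial, mem_of_eq_of_mem (sub_eq_zero.2 a) (zero_mem _)⟩)
    (fun _ _ _ a => mem_of_eq_of_mem a (zero_mem _)) fun _ => by omega
  have g₁ := fun y hy => (subset_union_left.trans (hg y hy).ge)
  have g₂ := fun y hy => (subset_union_right.trans (hg y hy).ge)
  have s₂ := (k.pb e).exact ho c ((c₁.pb e₁).dsum (c₂.pb e₂)) (L₁ := fun _ => ch.kzK j)
    (L₂ := fun _ => b.B Empty)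
    ⟨fun _ _ => continuousOn_const, fun _ _ X _ => kzK_mem_B (F := Wg) X, fun _ _ X (a : X = 0) =>
      mem_of_eq_of_mem ((congrArg _ a).trans (map_zero _)) (zero_mem _),
      fun _ _ a ha X _ => mem_of_eq_of_mem (sub_eq_zero.2 (kzK_ρ (e.isUnit ha) X)) (zero_mem _)⟩
    ⟨fun _ _ => continuousOn_const, fun y hy _ a =>
        ⟨b.in_BB (Wg := Wg) (g₁ y hy) a, b.symm.in_BB (Wg := Wg) (g₂ y hy) a⟩,
      fun y hy _ a => ⟨b.in_BN (Wg := Wg) (g₁ y hy) a, b.symm.in_BN (Wg := Wg) (g₂ y hy) a⟩,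
      fun _ _ a ha w _ => mem_of_eq_of_mem (sub_eq_zero.2 (Prod.ext
        ((k₁ a).ρK (e.isUnit ha) (e₁.isUnit ha) w) ((k₂ a).ρK (e.isUnit ha) (e₂.isUnit ha) w)))
        (zero_mem _)⟩
    (fun y hy X a d => ContinuousLinearMap.ext fun m => (b.er _ _).symm.trans (by
      rw [b.in_r0 (Wg := Wg) (g₁ y hy) (h₁.base _ (e₁.maps hy)) (congrArg Prod.fst a) d m,
        show b.r₂ _ (X m) = 0 from b.symm.in_r0 (Wg := Wg) (g₂ y hy) (h₂.base _ (e₂.maps hy))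
          (congrArg Prod.snd a) d m, map_zero, map_zero, add_zero]
      rfl))
    (fun y hy v a => by
      have p₁ := ((mem_sdK_B (F := Wg) (x := f₁ y)).1 a.1).1
      have p₂ := ((mem_sdK_B (F := Wg) (x := f₂ y)).1 a.2).1
      refine ⟨b.L₁ Empty v.1 + b.symm.L₁ Empty v.2, (mem_sdK_B (F := Wg) (x := f y)).2
        ⟨(ch.polKM j).add_mem (b.in_Lp p₁) (b.symm.in_Lp p₂), fun z hz => ?_⟩,
        b.in_LN (Wg := Wg) p₁ p₂, ?_⟩
      · rcases (hg y hy).le hz with ⟨z, hw, rfl⟩ | ⟨z, hw, rfl⟩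
        · exact b.in_LB (Wg := Wg) a.1 p₂ hw
        · rw [add_comm]
          exact b.symm.in_LB (Wg := Wg) a.2 p₁ hw
      · rw [add_comm]
        exact b.symm.in_LN (Wg := Wg) p₂ p₁)
    (fun _ _ X a => ⟨b.in_kz (Wg := Wg) (congrArg Prod.fst a),
      b.symm.in_kz (Wg := Wg) (congrArg Prod.snd a)⟩)
    fun ⟨y, hy⟩ => by
      have d := rkO_eq (j := j) h.cuts.ne (h.base _ (e.maps hy))
      have d₁ := rkO_eq (j := j) h₁.cuts.ne (h₁.base _ (e₁.maps hy))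
      have d₂ := rkO_eq (j := j) h₂.cuts.ne (h₂.base _ (e₂.maps hy))
      have d₃ : ch.eu (ch.wd j) = (ch.re n₁).eu ((ch.re n₁).wd j) + (ch.re n₂).eu ((ch.re n₂).wd j) := by
        simp only [eu, ← hN.m, mul_add, Finset.sum_add_distrib]
        change _ = ∑ i, ch.wd j i * n₁.m i + 1 - n₁.g + (∑ i, ch.wd j i * n₂.m i + 1 - n₂.g)
        linear_combination hN.g
      zify at rk ⊢
      linear_combination d - d₁ - d₂ - d₃ - rk
  rw [(x₁.pb e₁).ch_dsum ho (x₂.pb e₂), (x.pb_eq ho h.orb e).2, (x₁.pb_eq ho h₁.orb e₁).2,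
    (x₂.pb_eq ho h₂.orb e₂).2, ← indC_mul h.orb h.cuts h.base, ← indC_mul h₁.orb h₁.cuts h₁.base,
    ← indC_mul h₂.orb h₂.cuts h₂.base, map_mul, map_mul, map_mul, ← (k.pb_eq ho h.orb e).2,
    ← (c₁.pb_eq ho h₁.orb e₁).2, ← (c₂.pb_eq ho h₂.orb e₂).2] at s₁
  rw [(c₁.pb e₁).ch_dsum ho (c₂.pb e₂)] at s₂
  have u := PowerSeries.mul_invOfUnit _ 1 ((k.pb e).constCoeff ho)
  linear_combination (((ch.sdK ν κ Wg j).pb θ f).ch act Y).invOfUnit 1 * (s₁ -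
    PowerSeries.map (Hev.map e₁.map).toRingHom (indC Wg T₁ j) *
      PowerSeries.map (Hev.map e₂.map).toRingHom (indC Wg T₂ j) * s₂) -
    (PowerSeries.map (Hev.map e.map).toRingHom (indC Wg T j) -
      PowerSeries.map (Hev.map e₁.map).toRingHom (indC Wg T₁ j) *
        PowerSeries.map (Hev.map e₂.map).toRingHom (indC Wg T₂ j)) * u

end Bip

end Vale.Agent.P269.Ch
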