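import Vale.Agent.P269.Glu.PrMain
import Vale.Agent.P269.Glu.PrPrp
import Vale.Agent.P269.Glu.PushB
import Vale.Agent.P269.Glu.MainA

set_option linter.unusedSectionVars false
set_option linter.style.haveILetI false

/-!
# Decompositions: the labelled space has degree one
-/

namespace Vale.Agent.P269.Ch

open P291Z Set Function Topology Filter Module Base Cv Holo Vir KD

variable {S Λ R J K ι ν κ ν₁ κ₁ ν₂ κ₂ : Type} [Fintype S] [Fintype Λ] [Fintype R] [Fintype J]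
  [Fintype K] [Fintype ι] [DecidableEq ι] [Fintype ν] [Fintype κ]
  [Fintype ν₁] [Fintype κ₁] [Fintype ν₂] [Fintype κ₂] {ch : Ch ι J} {n₁ n₂ : Nm ι J}
  {s : Sv ν κ ν₁ κ₁ ν₂ κ₂} {F : Fam S Λ R J K} {e : K → ι → ℕ} {K₀ : Set K} {ℓ : R → ι → ℤ}
  {Wg : Wt S Λ R J} {z : ch.WQ n₁ n₂ ν κ ν₁ κ₁ ν₂ κ₂ Λ}
  {Y O' M' : Set (ch.WQ n₁ n₂ ν κ ν₁ κ₁ ν₂ κ₂ Λ)} {T₁ T₁' : Set ((ch.re n₁).WF ν₁ κ₁ Λ)}
  {T₂ T₂' : Set ((ch.re n₂).WF ν₂ κ₂ Λ)} {C U U₀ V O M : Set (ch.WF ν κ Λ)} {N N' d : ℕ}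

theorem PrP.eq_empty {W : Type} [NormedAddCommGroup W] [NormedSpace ℂ W] [FiniteDimensional ℂ W]
    {M : Set W} (h : ∀ x ∈ M, MfdAt M N x) (h' : DimLt N M) : ¬M.Nonempty := fun ⟨_, a⟩ => by
  have := h'.dense (fun x => (h x x.2).2) a
  rwa [sdiff_self, closure_empty] at this

theorem ZQ.mono (h₁ : T₁ ⊆ T₁') (h₂ : T₂ ⊆ T₂') : ZQ s F T₁ T₂ ⊆ ZQ s F T₁' T₂' :=
  fun _ a => ⟨a.1, a.2.1, h₁ a.2.2.1, h₂ a.2.2.2⟩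

theorem CQ.freQ (hz : z ∈ CQ s) (h : Fre (actF Wg : ch.AF ν κ S → _) z.1) :
    Fre (actQ s Wg : ch.AQ n₁ n₂ ν κ S → _) z := by
  rintro ⟨a, c⟩ ha k
  obtain rfl : a = 1 := h a (AP.isUnit_iff.1 ha).1 (congrArg Prod.fst k)
  obtain rfl : c = 1 := CQ.fre hz c (AP.isUnit_iff.1 ha).2 k
  rfl

theorem PrP.ivt (h : Ivt (actQ s Wg : ch.AQ n₁ n₂ ν κ S → _) Y) : Ivt (actA s Wg) Y :=
  fun _ hc z hz => h _ (PrU.unit hc) z hz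

theorem finrank_AQ : finrank ℂ (ch.AQ n₁ n₂ ν κ S) =
    finrank ℂ (ch.AF ν κ S) + finrank ℂ (ch.AL n₁ n₂) := AP.finrank

theorem CQ.dimLt (hY : Y ⊆ CQ s) (hi : Ivt (actQ s Wg : ch.AQ n₁ n₂ ν κ S → _) Y)
    (h : DimLt (finrank ℂ (ch.AL n₁ n₂) + d) Y) : DimLt d (Prod.fst '' Y) := by
  refine DimLt.image_inv (act := actA s Wg) (S := univ) h (subset_univ _) (PrP.ivt hi)
    (fun x a => ?_) (fun _ _ => contDiffAt_fst) fun c _ _ _ => actA_fst c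
  have k := Sp.free_iff.1 (CQ.fre (Wg := Wg) (hY a))
  exact @Finite.of_subsingleton _ ⟨fun g g' => Subtype.ext ((k _ g.2).trans (k _ g'.2).symm)⟩

/-- the dimension of the space of labels -/
theorem CQ.dim_eq (hN : ch.QN n₁ n₂) (hY : Y ⊆ CQ s)
    (hi : Ivt (actQ s Wg : ch.AQ n₁ n₂ ν κ S → _) Y) (h' : ∀ z ∈ Y, MfdAt Y N' z)
    (h : ∀ x ∈ M, MfdAt M N x) (e : Prod.fst '' Y = M) (hne : Y.Nonempty) :
    N' = finrank ℂ (ch.AL n₁ n₂) + N := by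
  have a : M ⊆ ch.bsF ν κ Λ := e ▸ image_subset_iff.2 fun _ b => (hY b).1.mem
  have b : DimLt (N + finrank ℂ (ch.AL n₁ n₂) + 1) Y :=
    (DimLt.of_mfd' (M := CQ s ∩ Prod.fst ⁻¹' M) fun x => (CQ.mfdAt_pre hN x.2.1 a
      (h _ x.2.2)).2).mono fun _ c => ⟨hY c, e.le (mem_image_of_mem _ c)⟩
  have c : DimLt (N' + 1) Y := DimLt.of_mfd' fun x => (h' x x.2).2
  refine le_antisymm (not_lt.1 fun k => PrP.eq_empty h' (b.le (by omega)) hne)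
    (not_lt.1 fun k => PrP.eq_empty h (e ▸ CQ.dimLt hY hi (c.le k)) (e ▸ hne.image _))

theorem ZQ.free (hF : F.Inv) (hU : Pr F U₀) (h₁ : Lev F T₁) (h₂ : Lev F T₂) (hV : IsOpen V)
    (hV' : V ⊆ U₀) : ZQ s F T₁ T₂ ∩ Prod.fst ⁻¹' V ⊆ closure {z | z ∈ ZQ s F T₁ T₂ ∩ Prod.fst ⁻¹' V ∧
      Fre (actQ s F.toWt : ch.AQ n₁ n₂ ν κ S → _) z} := by
  intro z hz
  refine map_mem_closure (f := fun y => (y, z.2)) (continuous_id.prodMk continuous_const)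
    (hV.inter_closure ⟨hz.2, hU.den z.1 ⟨hz.1.2.1.1, hV' hz.2⟩⟩) ?_
  rintro _ ⟨f, g, X, k, rfl⟩
  have l : (((z.1.1, W.mk' z.1.2.Q z.1.2.p z.1.2.Ξ X), z.2) : ch.WQ n₁ n₂ ν κ ν₁ κ₁ ν₂ κ₂ Λ) ∈
      CQ s := ⟨hz.1.1.1.congr X _ _, hz.1.1.2⟩
  exact ⟨⟨⟨l, (lev_adm hF).mov _ hz.1.2.1 X k,
    h₁.mov _ hz.1.2.2.1 _ fun j hj => congrArg (_ ∘L · ∘L _) (k j hj),
    h₂.mov _ hz.1.2.2.2 _ fun j hj => congrArg (_ ∘L · ∘L _) (k j hj)⟩, f⟩, CQ.freQ l g⟩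

/-- **the degree of the labelled cycle** -/
theorem CQ.push_fnd (hN : ch.QN n₁ n₂) [IsAct (actF Wg : ch.AF ν κ S → _) O]
    [IsAct (actQ s Wg : ch.AQ n₁ n₂ ν κ S → _) O']
    (hf : EqM (actQ s Wg) (actF Wg) O' O (fun a : ch.AQ n₁ n₂ ν κ S => a.1) Prod.fst)
    (ho : Orb.Orb (ch.AF ν κ S)ˣ (Holo.Sp (actF Wg) O))
    (ho' : Orb.Orb (ch.AQ n₁ n₂ ν κ S)ˣ (Holo.Sp (actQ s Wg) O'))
    (c : Cyc (actF Wg : ch.AF ν κ S → _) O M d)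
    (c' : Cyc (actQ s Wg : ch.AQ n₁ n₂ ν κ S → _) O' M' d) (hp : IsPr hf.map) (hO : O' ⊆ CQ s)
    (img : Prod.fst '' M' = M) (uq : ∀ z ∈ M', ∀ z' ∈ M', z.1 = z'.1 → part z = part z') :
    push hf.map (fnd (actQ s Wg : ch.AQ n₁ n₂ ν κ S → _) O' d) =
      fnd (actF Wg : ch.AF ν κ S → _) O d := by
  have r : finrank ℂ (ch.AQ n₁ n₂ ν κ S) + d =
      finrank ℂ (ch.AL n₁ n₂) + (finrank ℂ (ch.AF ν κ S) + d) := by rw [finrank_AQ]; omega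
  refine (Cyc.push_fnd (θ := AP.fst) (m := 1) hf (fun _ _ => .of_an analyticAt_fst) ho ho' c c' hp
    (c.dense_diff ho (CQ.dimLt (fun _ a => hO a.1) (Ivt.diff c'.inv) (r ▸ c'.small)))
    fun x hx => ⟨hx.2.1, ?_⟩).trans ((congrArg (· • _) Nat.cast_one).trans (one_smul _ _))
  obtain ⟨z, z1, rfl⟩ := img.ge hx.1
  have k : ∀ y ∈ O', y.1 = z.1 → y ∈ M' := fun y a b => by_contra fun c => hx.2.2 ⟨y, ⟨a, c⟩, b⟩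
  have z2 := hO (c'.sub z1)
  haveI : IsAct (actA s Wg) M' := IsAct.mono isAct_actA (subset_univ _) (PrP.ivt c'.inv)
  obtain ⟨σ, s1, s2, s3⟩ := GB.exists_sec (act := actA s Wg) (f := Prod.fst) (T := M)
    ⟨z1, r ▸ c'.mfd ⟨_, z1⟩⟩ ⟨hx.1, c.mfd ⟨_, hx.1⟩⟩ analyticAt_fst
    (.of_forall fun _ a => img.le (mem_image_of_mem _ a)) (CQ.fre z2) fun O hO' =>
      (CQ.fib hN z2 O hO').mono fun _ a b b' => a (hO (c'.sub b)) (hO (c'.sub b'))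
  refine ⟨fun _ => σ, fun _ => ⟨s1, s2.symm.subst (motive := Fre _) (CQ.freQ z2 hx.2.1),
    eventually_nhdsWithin_iff.2 s3⟩, fun i j _ _ _ => Subsingleton.elim i j, fun y hy b hb q => ?_⟩
  have hb' : IsUnit (M := ch.AQ n₁ n₂ ν κ S) (b, 1) := AP.isUnit_iff.2 ⟨hb, isUnit_one⟩
  have m := IsAct.mem (act := actQ s Wg) _ hb' y hy
  obtain ⟨a, ha, t⟩ := CQ.uniq (Wg := Wg) hN (hO m) z2 q (uq _ (k _ m q) _ z1 q)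
  exact ⟨0, _, (PrU.unit ha).mul hb', (IsAct.mul _ _ (PrU.unit ha) hb' y hy).trans (t.trans s2.symm)⟩

variable (s F e K₀ ℓ) in
/-- The level `C` consists of the curves that are sums of curves in `Z₁` and `Z₂`, in a unique
way. -/
structure PC (b b' : ℕ) (U₁ Z₁ : Set ((ch.re n₁).WF ν₁ κ₁ Λ)) (U₂ Z₂ : Set ((ch.re n₂).WF ν₂ κ₂ Λ))
    (N₁ N₂ : ℕ) (C U : Set (ch.WF ν κ Λ)) (N : ℕ) : Prop where
  qh : QH F e K₀ ℓ b b' U₁ Z₁ U₂ Z₂ N₁ N₂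
  levC : Lev F C
  pr : ∃ U₀ : Set (ch.WF ν κ Λ), Pr F U₀
  opn : IsOpen U
  inv : Ivt (actF F.toWt) U
  sol : ch.solF ν κ F ∩ clo F C ⊆ U
  pcy : PCy (clo F C ∩ U) (C ∩ U) N
  img : Prod.fst '' ZQ s F Z₁ Z₂ = C
  uniq : ∀ z ∈ ZQ s F Z₁ Z₂, ∀ z' ∈ ZQ s F Z₁ Z₂, z.1 = z'.1 → part z = part z'

namespace PC

variable {b b' N₁ N₂ : ℕ} {U₁ Z₁ : Set ((ch.re n₁).WF ν₁ κ₁ Λ)}
  {U₂ Z₂ : Set ((ch.re n₂).WF ν₂ κ₂ Λ)} (h : PC s F e K₀ ℓ b b' U₁ Z₁ U₂ Z₂ N₁ N₂ C U N)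
include h

theorem levC' : Lev F (clo F C) := h.levC.clo h.qh.std.inv h.qh.std.cuts

theorem lev₁ : Lev F (clo F Z₁) := h.qh.st₁.lev.clo h.qh.std.inv h.qh.ok₁.cuts

theorem lev₂ : Lev F (clo F Z₂) := h.qh.st₂.lev.clo h.qh.std.inv h.qh.ok₂.cuts

theorem vd (hU : Pr F U₀) : ∃ V d, IsOpen V ∧ V ⊆ U₀ ∧ Vd F e (clo F C) (clo F C ∩ V) (C ∩ V) d := by
  have a := h.levC'
  have i : ∀ {Z : Set (ch.WF ν κ Λ)}, Lev F Z → Ivt (actF F.toWt) (Z ∩ (U ∩ U₀)) :=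
    fun b s hs y c => ⟨b.inv s hs y c.1, h.inv s hs y c.2.1, hU.inv s hs y c.2.2⟩
  have p := h.pcy.inter hU.opn
  rw [inter_assoc _ U, inter_assoc _ U] at p
  have q := h.qh.std.vd a.adm a.inv (h.opn.inter hU.opn) (i a) (fun _ b => ⟨h.sol b, hU.sol b.1⟩)
    ((hU.prp_lev a).mono fun _ b => ⟨b.1, b.2.2⟩) (GlM.cyc_of p (i h.levC)
      ((hU.prp_lev h.levC).mono fun _ b => ⟨b.1, b.2.2⟩) fun _ b => closure_mono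
      (fun _ c => And.intro ⟨c.1.1.1, c.2, c.1.1.2⟩ c.1.2)
      (h.opn.closure_inter ⟨hU.free h.levC ⟨b.1, b.2.2⟩, b.2.1⟩)).1
  obtain ⟨V, v1, v2⟩ := h.qh.std.dom_open (ν := ν) (κ := κ)
  have k : ∀ T ⊆ ch.adm ν κ F, T ∩ (U ∩ U₀) ∩ ch.dom ν κ F e = T ∩ (U ∩ U₀ ∩ V) := fun T hT =>
    Set.ext fun _ => ⟨fun a => ⟨a.1.1, a.1.2, (v2.le a.2).2⟩,
      fun a => ⟨⟨a.1, a.2.1⟩, v2.ge ⟨hT a.1, a.2.2⟩⟩⟩
  rw [k _ a.adm, k _ h.levC.adm] at q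
  exact ⟨_, _, (h.opn.inter hU.opn).inter v1, fun _ b => b.1.2, q⟩

theorem sub_clo : ZQ s F Z₁ Z₂ ⊆ ZQ s F (clo F Z₁) (clo F Z₂) :=
  ZQ.mono (subset_inter subset_closure h.qh.st₁.lev.base)
    (subset_inter subset_closure h.qh.st₂.lev.base)

theorem img_clo : Prod.fst '' ZQ s F (clo F Z₁) (clo F Z₂) = clo F C :=
  let ⟨_, a⟩ := h.qh.pcy s
  Subset.antisymm (image_subset_iff.2 fun _ b => ⟨map_mem_closure continuous_fst (a.dense b)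
    fun _ c => h.img.le (mem_image_of_mem _ c), b.2.1.1⟩)
    fun _ b => ZQ.closed_image h.qh.qn h.qh.std.inv h.qh.std.cuts h.lev₁.inv h.lev₂.inv b.2
      (closure_mono (h.img.ge.trans (image_mono h.sub_clo)) b.1)

theorem eqM : EqM (actQ s F.toWt) (actF F.toWt) (LQ s F (clo F Z₁) (clo F Z₂))
    (ch.solF ν κ F ∩ clo F C) (fun a : ch.AQ n₁ n₂ ν κ S => a.1) Prod.fst :=
  eqM_fstQ fun _ a => ⟨a.2, h.img_clo.le (mem_image_of_mem _ a.1)⟩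

theorem img_inter : Prod.fst '' (ZQ s F Z₁ Z₂ ∩ Prod.fst ⁻¹' V) = C ∩ V := by
  rw [image_inter_preimage, h.img]

variable (hU : Pr F U₀) (hV : IsOpen V) (hV' : V ⊆ U₀)
  (a : Vd F e (clo F C) (clo F C ∩ V) (C ∩ V) d)
include a

theorem ivt : Ivt (actQ s F.toWt : ch.AQ n₁ n₂ ν κ S → _)
    (ZQ s F (clo F Z₁) (clo F Z₂) ∩ Prod.fst ⁻¹' V) := fun c hc z b =>
  ⟨ivt_ZQ h.qh.std.inv h.lev₁.inv h.lev₂.inv c hc z b.1, (a.dom.isAct.mem c.1 (PrA.u₀ hc) z.1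
    ⟨h.img_clo.le (mem_image_of_mem _ b.1), b.2⟩).2⟩

include hU hV'

theorem prp : Prp (actQ s F.toWt : ch.AQ n₁ n₂ ν κ S → _)
    (ZQ s F (clo F Z₁) (clo F Z₂) ∩ Prod.fst ⁻¹' V) :=
  (prp_CQ (hU.prp_lev h.levC') (hU.ivt h.levC')).mono fun _ b =>
    ⟨b.1.1, h.img_clo.le (mem_image_of_mem _ b.1), hV' b.2⟩

include hV

theorem cyc : Cyc (actQ s F.toWt : ch.AQ n₁ n₂ ν κ S → _)
    (ZQ s F (clo F Z₁) (clo F Z₂) ∩ Prod.fst ⁻¹' V) (ZQ s F Z₁ Z₂ ∩ Prod.fst ⁻¹' V) d := by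
  obtain ⟨N', p⟩ := h.qh.pcy s
  have q := p.inter (hV.preimage continuous_fst)
  have i : Ivt (actQ s F.toWt : ch.AQ n₁ n₂ ν κ S → _) (ZQ s F Z₁ Z₂ ∩ Prod.fst ⁻¹' V) :=
    fun c hc z b => ⟨ivt_ZQ h.qh.std.inv h.qh.st₁.lev.inv h.qh.st₂.lev.inv c hc z b.1,
      (h.ivt a c hc z (q.sub b)).2⟩
  refine (GlM.cyc_of q i ((h.prp hU hV' a).mono q.sub)
    (ZQ.free h.qh.std.inv hU h.qh.st₁.lev h.qh.st₂.lev hV hV')).1.of_dim fun k => ?_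
  rw [CQ.dim_eq h.qh.qn (fun _ b => b.1.1) i q.mfd (fun x b => ⟨b, a.cyc.mfd ⟨x, b⟩⟩)
    h.img_inter k, finrank_AQ]
  omega

omit hU hV hV' a in
/-- **the labelled space has degree one** -/
theorem push {v : BM (ModQ s F (clo F Z₁) (clo F Z₂))}
    (hv : (ch.kdPQ n₁ n₂ ν κ ν₁ κ₁ ν₂ κ₂ F e).IsV (actQ s F.toWt) (LQ s F (clo F Z₁) (clo F Z₂))
      (ZQ s F (clo F Z₁) (clo F Z₂)) v) :
    IsPr h.eqM.map ∧ P291Z.push h.eqM.map v = virF F e (clo F C) := by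
  obtain ⟨U₀, hU⟩ := h.pr
  obtain ⟨V, d, hV, hV', a⟩ := h.vd hU
  have hs := h.qh.std
  have c := h.cyc hU hV hV' a
  have m : MapsTo Prod.fst (ZQ s F (clo F Z₁) (clo F Z₂) ∩ Prod.fst ⁻¹' V) (clo F C ∩ V) :=
    fun _ b => ⟨h.img_clo.le (mem_image_of_mem _ b.1), b.2⟩
  obtain ⟨_, g⟩ := a.gd hs
  obtain ⟨_, g'⟩ := hs.gdQ (Z := LQ s F (clo F Z₁) (clo F Z₂))
    (fun _ b => Dom.subset_dom a.adm a.dom (m b)) (h.ivt a) c.lc (h.prp hU hV' a)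
    (Subset.antisymm (fun _ b => ⟨⟨b.1, (a.dom.sub (h.eqM.maps b)).2⟩, b.2⟩) fun _ b => ⟨b.1.1, b.2⟩)
  haveI := g.nice
  haveI := g'.nice
  haveI := g.dom.isAct
  haveI := g'.dom.isAct
  have hp := isPr_fstQ h.qh.qn (fun _ b => b.1.2.2.1) (fun _ b => b.1.1) (h.ivt a)
    (fun z b k l => ⟨ZQ.closed hs.inv b (a.adm k.1) (closure_mono inter_subset_left l), k.2⟩) m
  obtain ⟨b1, b2⟩ := g.vr_push (eqM_fstQ m) g' hp h.eqM.maps (g'.fu d)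
  exact ⟨b1, (congrArg _ (g'.eq_vr ⟨_, hV.preimage continuous_fst, rfl⟩ c hv)).trans (b2.trans
    ((congrArg _ (CQ.push_fnd h.qh.qn (eqM_fstQ m) g.dom.orb g'.dom.orb a.cyc c hp
      (fun _ b => b.1.1) h.img_inter fun z b z' b' => h.uniq z b.1 z' b'.1)).trans
        (a.virF_vr hs).symm))⟩

end PC

end Vale.Agent.P269.Ch
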