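import Vale.Agent.P269.Glu.PrSum0

set_option linter.unusedSectionVars false

/-!
# Decompositions: pointwise facts
-/

namespace Vale.Agent.P269.Ch

open P291Z Set Function Topology Filter Module Base Cv Holo Vir GlP PrS

variable {S Λ R J K ι ν κ ν₁ κ₁ ν₂ κ₂ : Type} [Fintype S] [Fintype Λ] [Fintype R] [Fintype J]
  [Fintype K] [Fintype ι] [DecidableEq ι] [Fintype ν] [Fintype κ]
  [Fintype ν₁] [Fintype κ₁] [Fintype ν₂] [Fintype κ₂] {ch : Ch ι J} {n₁ n₂ : Nm ι J}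
  {s : Sv ν κ ν₁ κ₁ ν₂ κ₂} {A : Set J} {F : Fam S Λ R J K}

theorem PrS.all_iff {α β γ : Type} (e : α ⊕ β ≃ γ) {p : γ → Prop} :
    (∀ q, p q) ↔ (∀ a, p (e (.inl a))) ∧ ∀ a, p (e (.inr a)) :=
  e.forall_congr_right.symm.trans Sum.forall

open Classical in
/-- The order of the field `j` along `γ` is the prescribed one. -/
def PrS.Od (x : ch.W (Mk ν κ)) (j : J) (u : ν → ℕ) (γ : ℂ → V ch.M) : Prop :=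
  analyticOrderAt (fun t => fld x (γ t) j) 0 =
    (∑ n, if ∃ s : ι → ℂ, γ 0 = s • x.p (.inl n) then u n else 0 : ℕ)

namespace Du

variable {x : ch.W (Mk ν κ)} {w₁ : ch.Lb n₁ (Mk ν₁ κ₁)} {w₂ : ch.Lb n₂ (Mk ν₂ κ₂)}
  (h : Du s x w₁ w₂)
include h

theorem wk : ∃ b : ch.Bip n₁ n₂, b.φ₁ = w₁.2.1 ∧ Wk s b x w₁.1 w₂.1 := by
  obtain ⟨b, a₁, a₂, a₃, a₄⟩ := h.exists_bip
  obtain ⟨y₁, φ₁, r₁⟩ := w₁
  obtain ⟨y₂, φ₂, r₂⟩ := w₂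
  cases a₁; cases a₂; cases a₃; cases a₄
  exact ⟨b, rfl, h.one.toLk, h.two.toLk, h.crv, h.mem.1, h.one.mark, h.two.mark⟩

theorem lpt_mem {y : (ch.re n₁).Pt} (hy : y ∈ gr w₁.1) : lpt w₁ y ∈ gr x :=
  lk_mem h.one.toLk hy fun i e => hy.1 i (h.one.inj i (e.trans (map_zero _).symm))

theorem apV_mem {c : V n₁.M} (hc : c ∈ Ch.crv w₁.1) : apV w₁.2.1 c ∈ Ch.crv x :=
  h.crv ▸ .inl ⟨c, hc, rfl⟩

theorem all_crv {p : V ch.M → Prop} : (∀ c ∈ Ch.crv x, p c) ↔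
    (∀ c ∈ Ch.crv w₁.1, p (apV w₁.2.1 c)) ∧ ∀ c ∈ Ch.crv w₂.1, p (apV w₂.2.1 c) := by
  simp only [h.crv, mem_union, or_imp, forall_and, forall_mem_image]

theorem gr_eq : gr x = lpt w₁ '' gr w₁.1 ∪ lpt w₂ '' gr w₂.1 := by
  refine Subset.antisymm (fun z hz => ?_) (union_subset (image_subset_iff.2 fun _ => h.lpt_mem)
    (image_subset_iff.2 fun _ => h.symm.lpt_mem))
  obtain ⟨_, ⟨y, a, rfl⟩, e⟩ | ⟨_, ⟨y, a, rfl⟩, e⟩ := h.crv.subset (mem_image_of_mem _ hz)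
  exacts [.inl ⟨y, a, gr_ext h.mem.1 (h.lpt_mem a) hz e⟩,
    .inr ⟨y, a, gr_ext h.mem.1 (h.symm.lpt_mem a) hz e⟩]

theorem lpt_ptz (q : Mk ν₁ κ₁) : lpt w₁ (ptz w₁.1 q) = ptz x (s.mk₁ q) :=
  gr_ext h.mem.1 (h.lpt_mem (ptz_gr h.one.mem _)) (ptz_gr h.mem _) (h.one.mark q).symm

theorem isBranch_iff {γ : ℂ → V n₁.M} :
    IsBranch ch.o (Ch.crv x) (fun t => apV w₁.2.1 (γ t)) ↔ IsBranch ch.o (Ch.crv w₁.1) γ :=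
  let ⟨_, e, k⟩ := h.wk; e ▸ k.isBranch_iff

theorem isNode_iff {c : V n₁.M} :
    IsNode ch.o (Ch.crv x) (apV w₁.2.1 c) ↔ IsNode ch.o (Ch.crv w₁.1) c :=
  let ⟨_, e, k⟩ := h.wk; e ▸ k.isNode_iff

theorem lead_iff {γ : ℂ → V n₁.M} (hγ : IsBranch ch.o (Ch.crv w₁.1) γ) {ρ : ℂ} :
    Lead x (fun t => apV w₁.2.1 (γ t)) ρ ↔ Lead w₁.1 γ ρ :=
  let ⟨_, e, k⟩ := h.wk; e ▸ k.lead_iff hγ

theorem branch {γ : ℂ → V ch.M} (hγ : IsBranch ch.o (Ch.crv x) γ)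
    (a : γ 0 ∈ apV w₁.2.1 '' Ch.crv w₁.1) :
    ∃ δ, IsBranch ch.o (Ch.crv w₁.1) δ ∧ γ =ᶠ[𝓝 0] fun t => apV w₁.2.1 (δ t) :=
  let ⟨_, e, k⟩ := h.wk; e ▸ k.branch hγ (e ▸ a)

theorem rsd_eq (q : Mk ν₁ κ₁) : rsd x (s.mk₁ q) = rsd w₁.1 q :=
  let ⟨_, a, e⟩ := exists_branch_p h.one.mem q
  ((lead_iff_rsd h.mem (h.isBranch_iff.2 a) ((congrArg _ e).trans (h.one.mark q).symm)).1
    ((h.lead_iff a).2 ((lead_iff_rsd h.one.mem a e).2 rfl))).symm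

theorem val_of {j : J} (hj : Mt x w₁ j) {c : V n₁.M} (hc : c ∈ Ch.crv w₁.1) {y : ℂ} :
    Val w₁.1 j c y → Val x j (apV w₁.2.1 c) y := fun hv _ hu μ =>
  let ⟨u, a⟩ := mem_crv.1 hc
  gr_unique (h.lpt_mem a) hu (h.mem.1 _) ▸ (congrArg (u _) (hj μ)).trans (hv u a _)

theorem baseF_iff {l : Λ → ℂ} {B : Set (Λ → ℂ)} : (l, x) ∈ ch.baseF ν κ B ↔
    (l, w₁.1) ∈ (ch.re n₁).baseF ν₁ κ₁ B ∧ (l, w₂.1) ∈ (ch.re n₂).baseF ν₂ κ₂ B := by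
  simp only [mem_baseF, h.mem, h.one.mem, h.two.mem, true_and, ← h.rsd_eq, ← h.symm.rsd_eq,
    all_iff s.ψ]
  exact and_and_left

theorem od_iff {j : J} (hf : ∀ c ∈ Ch.crv w₁.1, fld w₁.1 c j = fld x (apV w₁.2.1 c) j) {u : ν → ℕ}
    {γ : ℂ → V ch.M} {δ : ℂ → V n₁.M} (hδ : IsBranch ch.o (Ch.crv w₁.1) δ)
    (e : γ =ᶠ[𝓝 0] fun t => apV w₁.2.1 (δ t)) :
    Od x j u γ ↔ Od w₁.1 j (fun a => u (s.φ (.inl a))) δ := by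
  classical
  obtain ⟨b, d, k⟩ := h.wk
  refine Eq.congr (analyticOrderAt_congr ((e.and hδ.mem).mono fun t a => by
    simp only [a.1, hf _ a.2])) (congrArg _ ?_)
  rw [← s.φ.sum_comp, Fintype.sum_sum_type, e.self_of_nhds, ← d]
  exact (congrArg₂ (· + ·) (Finset.sum_congr rfl fun a _ => if_congr
    (exists_congr fun t => k.orb₁ (q := .inl a)) rfl rfl) (Finset.sum_eq_zero fun a _ => if_neg
      fun ⟨t, c⟩ => k.orb₂ (crv_ne hδ.mem.self_of_nhds) (.inl a) t c)).trans (add_zero _)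

theorem od_all {j : J} (f₁ : ∀ c ∈ Ch.crv w₁.1, fld w₁.1 c j = fld x (apV w₁.2.1 c) j)
    (f₂ : ∀ c ∈ Ch.crv w₂.1, fld w₂.1 c j = fld x (apV w₂.2.1 c) j) {u : ν → ℕ} :
    (∀ γ, IsBranch ch.o (Ch.crv x) γ → Od x j u γ) ↔
      (∀ γ, IsBranch ch.o (Ch.crv w₁.1) γ → Od w₁.1 j (fun a => u (s.φ (.inl a))) γ) ∧
        ∀ γ, IsBranch ch.o (Ch.crv w₂.1) γ → Od w₂.1 j (fun a => u (s.φ (.inr a))) γ := by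
  refine ⟨fun k => ⟨fun γ a => (h.od_iff f₁ a .rfl).1 (k _ (h.isBranch_iff.2 a)), fun γ a =>
    (h.symm.od_iff f₂ a .rfl).1 (k _ (h.symm.isBranch_iff.2 a))⟩, fun k γ a => ?_⟩
  obtain c | c := h.crv.subset a.mem.self_of_nhds
  · obtain ⟨δ, d, e⟩ := h.branch a c
    exact (h.od_iff f₁ d e).2 (k.1 δ d)
  · obtain ⟨δ, d, e⟩ := h.symm.branch a c
    exact (h.symm.od_iff f₂ d e).2 (k.2 δ d)

end Du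

/-- The field `j` has no cross terms. -/
def NX (z : ch.WQ n₁ n₂ ν κ ν₁ κ₁ ν₂ κ₂ Λ) (j : J) : Prop :=
  Mt z.1.2 (((pt₁ z).2, z.2.1.2) : ch.Lb n₁ _) j ∧ Mt z.1.2 (((pt₂ z).2, z.2.2.2) : ch.Lb n₂ _) j

variable {z : ch.WQ n₁ n₂ ν κ ν₁ κ₁ ν₂ κ₂ Λ}

theorem Bip.eq_ds_iff (b : ch.Bip n₁ n₂) {σ : Type} [Fintype σ] {τ : σ → ι} {l : Option J}
    {X : Tn ch.M τ →L[ℂ] ch.E l} {X₁ X₂} : X = b.ds X₁ X₂ ↔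
      (∀ μ, b.r₁ l (X μ) = X₁ (pbT b.φ₁ τ μ)) ∧ ∀ μ, b.r₂ l (X μ) = X₂ (pbT b.φ₂ τ μ) := by
  have a₁ : ∀ μ, b.r₁ l (b.ds X₁ X₂ μ) = X₁ (pbT b.φ₁ τ μ) := fun μ =>
    (map_add _ _ _).trans ((congrArg₂ _ (b.re₁₁ _ _) (b.re₁₂ _ _)).trans (add_zero _))
  have a₂ : ∀ μ, b.r₂ l (b.ds X₁ X₂ μ) = X₂ (pbT b.φ₂ τ μ) := fun μ =>
    (map_add _ _ _).trans ((congrArg₂ _ (b.re₂₁ _ _) (b.re₂₂ _ _)).trans (zero_add _))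
  exact ⟨fun e => e ▸ ⟨a₁, a₂⟩, fun h => ContinuousLinearMap.ext fun μ =>
    PrS.E_ext b ((h.1 μ).trans (a₁ μ).symm) ((h.2 μ).trans (a₂ μ).symm)⟩

theorem Bip.g_snd_eq_zero (b : ch.Bip n₁ n₂) (hz : z ∈ CQ s) :
    (b.g A z).2 = 0 ↔ ∀ j ∈ A, NX z j := by
  obtain ⟨c, a₁, a₂, a₃, a₄⟩ := hz.1.exists_bip
  have e : (b.g Aᶜᶜ z).2 = 0 ↔ (c.g Aᶜᶜ z).2 = 0 :=
    (and_congr_right_iff.1 (Set.ext_iff.1 (b.CA_congr (s := s) (A := Aᶜ) c) z)) hz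
  rw [compl_compl] at e
  have d : (c.γ z.2.1 z.2.2 : ch.A (ν ⊕ κ)) = 1 := by
    rw [← c.γ_st (s := s) (y := c.g A z), Bip.γ, ← a₁, ← a₂, ← a₃, ← a₄]
    rfl
  have k : ((c.g A z).2 : ch.Fm A ch.hf) = c.crF A (qX A z.1.2) :=
    congrArg (fun y => c.crF A (qX A y)) ((congrArg (fun a => act (dup a) z.1.2) d).trans (act_one _))
  rw [e, Subtype.ext_iff, k, ZeroMemClass.coe_zero, c.crF_eq_zero, Subtype.forall]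
  refine forall₂_congr fun j _ => c.eq_ds_iff.trans ?_
  simp only [NX, Mt, pt₁, pt₂, prt, ← a₁, ← a₂, ← a₃, ← a₄, c.lpr₁, c.lpr₂]
  rfl

theorem Bip.mem_CA (b : ch.Bip n₁ n₂) : z ∈ b.CA s A ↔ z ∈ CQ s ∧ ∀ j ∉ A, NX z j :=
  and_congr_right b.g_snd_eq_zero

namespace CQ

variable (hz : z ∈ CQ s) {j : J}
include hz

set_option linter.unusedVariables false in
theorem crv_pt₁ : crv (pt₁ z).2 = crv z.2.1.1 := rfl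

set_option linter.unusedVariables false in
theorem crv_pt₂ : crv (pt₂ z).2 = crv z.2.2.1 := rfl

set_option linter.unusedVariables false in
theorem val₁ {c : V n₁.M} (hc : c ∈ crv z.2.1.1) {y : ℂ} (h : Val z.1.2 j (apV z.2.1.2.1 c) y) :
    Val (pt₁ z).2 j c y := fun _ hu μ => (h _ (hz.1.lpt_mem hu) _).trans (congrArg (y * val μ ·)
      (funext fun i => lpr_left hz.1.one.inj hz.1.two.inj hz.1.compl i _))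

theorem val₂ {c : V n₂.M} (hc : c ∈ crv z.2.2.1) {y : ℂ} (h : Val z.1.2 j (apV z.2.2.2.1 c) y) :
    Val (pt₂ z).2 j c y := val₁ (swQ_mem.2 hz) hc h

theorem fld₁ {c : V n₁.M} (hc : c ∈ crv z.2.1.1) (h : ∃ y, Val z.1.2 j (apV z.2.1.2.1 c) y) :
    fld (pt₁ z).2 c j = fld z.1.2 (apV z.2.1.2.1 c) j := 
  Cv.fld_eq (x := (pt₁ z).2) hc (val₁ hz hc (val_fld h))

theorem fld₂ {c : V n₂.M} (hc : c ∈ crv z.2.2.1) (h : ∃ y, Val z.1.2 j (apV z.2.2.2.1 c) y) :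
    fld (pt₂ z).2 c j = fld z.1.2 (apV z.2.2.2.1 c) j := fld₁ (swQ_mem.2 hz) hc h

theorem mt₁ (h : ∀ c ∈ crv z.1.2, ∃ y, Val z.1.2 j c y) :
    Mt z.1.2 (((pt₁ z).2, z.2.1.2) : ch.Lb n₁ _) j := fun μ => GlP.E_ext hz.1.one.mem fun y a =>
  let ⟨_, k⟩ := h _ (hz.1.apV_mem ⟨y, a, rfl⟩)
  (k _ (hz.1.lpt_mem a) μ).trans (val₁ hz ⟨y, a, rfl⟩ k _ a (pbT z.2.1.2.1 _ μ)).symm

/-- fields that are induced by sections have no cross terms -/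
theorem sec_iff : (∀ c ∈ crv z.1.2, ∃ y, Val z.1.2 j c y) ↔ NX z j ∧
    (∀ c ∈ crv (pt₁ z).2, ∃ y, Val (pt₁ z).2 j c y) ∧
      ∀ c ∈ crv (pt₂ z).2, ∃ y, Val (pt₂ z).2 j c y :=
  ⟨fun h => ⟨⟨mt₁ hz h, mt₁ (swQ_mem.2 hz) h⟩,
    fun _ a => (h _ (hz.1.apV_mem a)).imp fun _ => val₁ hz a,
    fun _ a => (h _ (hz.1.symm.apV_mem a)).imp fun _ => val₂ hz a⟩,
  fun h => hz.1.all_crv.2 ⟨fun c a => (h.2.1 c a).imp fun _ => (du hz).val_of h.1.1 a,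
    fun c a => (h.2.2 c a).imp fun _ => (du hz).symm.val_of h.1.2 a⟩⟩

theorem zero_iff : z.1.2.X j = 0 ↔ NX z j ∧ (pt₁ z).2.X j = 0 ∧ (pt₂ z).2.X j = 0 := by
  refine ⟨fun h => ?_, fun h => ContinuousLinearMap.ext fun μ => (hz.1.bij (some j)).1
    (Prod.ext ((h.1.1 μ).trans ((DFunLike.congr_fun h.2.1 _).trans (map_zero _).symm))
      ((h.1.2 μ).trans ((DFunLike.congr_fun h.2.2 _).trans (map_zero _).symm)))⟩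
  have k : ∀ μ, z.1.2.X j μ = 0 := DFunLike.congr_fun h
  exact ⟨⟨fun μ => congrArg _ ((k _).trans (k _).symm), fun μ => congrArg _ ((k _).trans (k _).symm)⟩,
    ContinuousLinearMap.ext fun μ => (congrArg (z.2.1.2.2 _) (k _)).trans (map_zero _),
    ContinuousLinearMap.ext fun μ => (congrArg (z.2.2.2.2 _) (k _)).trans (map_zero _)⟩

theorem baseF_iff {B : Set (Λ → ℂ)} : z.1 ∈ ch.baseF ν κ B ↔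
    pt₁ z ∈ (ch.re n₁).baseF ν₁ κ₁ B ∧ pt₂ z ∈ (ch.re n₂).baseF ν₂ κ₂ B := (du hz).baseF_iff

theorem fld_p₁ (h : ∀ c ∈ crv z.1.2, ∃ y, Val z.1.2 j c y) (q) :
    fld (pt₁ z).2 ((pt₁ z).2.p q) j = fld z.1.2 (z.1.2.p (s.mk₁ q)) j :=
  have a := (hz.1.one.mem.2.2.2.1 q).1
  hz.1.one.mark q ▸ fld₁ hz a (h _ (hz.1.apV_mem a))

theorem fld_p₂ (h : ∀ c ∈ crv z.1.2, ∃ y, Val z.1.2 j c y) (q) :
    fld (pt₂ z).2 ((pt₂ z).2.p q) j = fld z.1.2 (z.1.2.p (s.mk₂ q)) j :=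
  fld_p₁ (swQ_mem.2 hz) h q

theorem adm₁ (hF : F.Inv) (h : z.1 ∈ ch.adm ν κ F) : pt₁ z ∈ (ch.re n₁).adm ν₁ κ₁ F :=
  ⟨((baseF_iff hz).1 h.1).1, fun j a => ((sec_iff hz).1 (h.2.1 j a)).2.1,
    fun _ a => hF.baseE _ _ _ (fun j d => (fld₁ hz a (h.2.1 j d _ (hz.1.apV_mem a))).symm)
      (h.2.2.1 _ (hz.1.apV_mem a)), fun j a => ((zero_iff hz).1 (h.2.2.2.1 j a)).2.1,
    fun j a q => (fld_p₁ hz (h.2.1 j a) _).trans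
      ((h.2.2.2.2 j a _).trans (fld_p₁ hz (h.2.1 j a) (.inr (q, true))).symm)⟩

theorem adm_iff (hF : F.Inv) : z.1 ∈ ch.adm ν κ F ↔ (∀ j ∉ F.mov, NX z j) ∧
    pt₁ z ∈ (ch.re n₁).adm ν₁ κ₁ F ∧ pt₂ z ∈ (ch.re n₂).adm ν₂ κ₂ F := by
  refine ⟨fun h => ⟨fun j a => ((sec_iff hz).1 (h.2.1 j a)).1, adm₁ hz hF h,
    adm₁ (swQ_mem.2 hz) hF h⟩, fun ⟨h, h₁, h₂⟩ => ?_⟩
  have k := fun j a => (sec_iff hz).2 ⟨h j a, h₁.2.1 j a, h₂.2.1 j a⟩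
  exact ⟨(baseF_iff hz).2 ⟨h₁.1, h₂.1⟩, k, hz.1.all_crv.2
    ⟨fun c a => hF.baseE _ _ _ (fun j d => fld₁ hz a (k j d _ (hz.1.apV_mem a))) (h₁.2.2.1 c a),
      fun c a => hF.baseE _ _ _ (fun j d => fld₂ hz a (k j d _ (hz.1.symm.apV_mem a)))
        (h₂.2.2.1 c a)⟩,
    fun j a => (zero_iff hz).2
      ⟨h j (disjoint_left.1 hF.zer_base a), h₁.2.2.2.1 j a, h₂.2.2.2.1 j a⟩,
    fun j a => (all_iff s.ψ).2 ⟨fun q => (fld_p₁ hz (k j a) (.inr (q, false))).symm.trans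
      ((h₁.2.2.2.2 j a q).trans (fld_p₁ hz (k j a) _)), fun q =>
        (fld_p₂ hz (k j a) (.inr (q, false))).symm.trans
          ((h₂.2.2.2.2 j a q).trans (fld_p₂ hz (k j a) _))⟩⟩

theorem solF₁ (h : z.1 ∈ ch.solF ν κ F) : pt₁ z ∈ (ch.re n₁).solF ν₁ κ₁ F :=
  let ⟨a, d⟩ := mem_solF.1 h
  mem_solF.2 ⟨((baseF_iff hz).1 a).1, fun _ c => have e := d _ (hz.1.apV_mem c)
    ⟨fun j => (e.1 j).imp fun _ => val₁ hz c,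
      mem_of_eq_of_mem (congrArg (Prod.mk _) (funext fun j => fld₁ hz c (e.1 j))) e.2⟩⟩

theorem solF_iff : z.1 ∈ ch.solF ν κ F ↔ (∀ j, NX z j) ∧
    pt₁ z ∈ (ch.re n₁).solF ν₁ κ₁ F ∧ pt₂ z ∈ (ch.re n₂).solF ν₂ κ₂ F := by
  refine ⟨fun h => ⟨fun j => ((sec_iff hz).1 fun c a => ((mem_solF.1 h).2 c a).1 j).1, solF₁ hz h,
    solF₁ (swQ_mem.2 hz) h⟩, fun ⟨h, h₁, h₂⟩ => ?_⟩
  obtain ⟨a₁, d₁⟩ := mem_solF.1 h₁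
  obtain ⟨a₂, d₂⟩ := mem_solF.1 h₂
  have k := fun j => (sec_iff hz).2 ⟨h j, fun c a => (d₁ c a).1 j, fun c a => (d₂ c a).1 j⟩
  exact mem_solF.2 ⟨(baseF_iff hz).2 ⟨a₁, a₂⟩, hz.1.all_crv.2
    ⟨fun c a => have e := fun j => k j _ (hz.1.apV_mem a); ⟨e, mem_of_eq_of_mem
      (congrArg (Prod.mk _) (funext fun j => (fld₁ hz a (e j)).symm)) (d₁ c a).2⟩,
    fun c a => have e := fun j => k j _ (hz.1.symm.apV_mem a); ⟨e, mem_of_eq_of_mem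
      (congrArg (Prod.mk _) (funext fun j => (fld₂ hz a (e j)).symm)) (d₂ c a).2⟩⟩⟩

theorem vl₁ (h : z.1 ∈ ch.solF ν κ F) (q : Mk ν₁ κ₁) : vl (pt₁ z) q = vl z.1 (s.mk₁ q) :=
  Prod.ext rfl (funext fun j => fld_p₁ hz (fun c a => ((mem_solF.1 h).2 c a).1 j) q)

theorem vl₂ (h : z.1 ∈ ch.solF ν κ F) (q : Mk ν₂ κ₂) : vl (pt₂ z) q = vl z.1 (s.mk₂ q) :=
  Prod.ext rfl (funext fun j => fld_p₂ hz (fun c a => ((mem_solF.1 h).2 c a).1 j) q)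

theorem main_iff (hF : F.Inv) (h : z.1 ∈ ch.adm ν κ F) (u : ν → J → ℕ) : z.1 ∈ ch.main κ F u ↔
    pt₁ z ∈ (ch.re n₁).main κ₁ F (fun a => u (s.φ (.inl a))) ∧
      pt₂ z ∈ (ch.re n₂).main κ₂ F fun a => u (s.φ (.inr a)) := by
  obtain ⟨-, h₁, h₂⟩ := (adm_iff hz hF).1 h
  have k := fun j a => (du hz).od_all (j := j) (u := fun n => u n j)
    (fun c d => fld₁ hz d (h.2.1 j a _ (hz.1.apV_mem d)))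
    fun c d => fld₂ hz d (h.2.1 j a _ (hz.1.symm.apV_mem d))
  exact ⟨fun m => ⟨⟨h₁, fun j a d => ((k j a).1 (m.2 j a d)).1⟩,
    h₂, fun j a d => ((k j a).1 (m.2 j a d)).2⟩,
    fun m => ⟨h, fun j a d => (k j a).2 ⟨m.1.2 j a d, m.2.2 j a d⟩⟩⟩

end CQ

variable {T₁ : Set ((ch.re n₁).WF ν₁ κ₁ Λ)} {T₂ : Set ((ch.re n₂).WF ν₂ κ₂ Λ)} (b : ch.Bip n₁ n₂)

theorem ZQ_adm (hF : F.Inv) : ZQ s F ((ch.re n₁).adm ν₁ κ₁ F) ((ch.re n₂).adm ν₂ κ₂ F) =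
    CQ s ∩ Prod.fst ⁻¹' ch.adm ν κ F :=
  Set.ext fun _ => ⟨fun h => ⟨h.1, h.2.1⟩, fun h => ⟨h.1, h.2, ((CQ.adm_iff h.1 hF).1 h.2).2⟩⟩

theorem Bip.ZQ_eq (hF : F.Inv) (h₁ : T₁ ⊆ (ch.re n₁).adm ν₁ κ₁ F) (h₂ : T₂ ⊆ (ch.re n₂).adm ν₂ κ₂ F) :
    ZQ s F T₁ T₂ = b.CA s F.mov ∩ b.g F.mov ⁻¹' (Prod.fst ⁻¹' fpS πF T₁ T₂) :=
  Set.ext fun _ => ⟨fun h => ⟨b.mem_CA.2 ⟨h.1, ((CQ.adm_iff h.1 hF).1 h.2.1).1⟩, h.2.2⟩,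
    fun h => ⟨h.1.1, (CQ.adm_iff h.1.1 hF).2 ⟨(b.mem_CA.1 h.1).2, h₁ h.2.1, h₂ h.2.2⟩, h.2⟩⟩

theorem Bip.nc_iff (hz : z ∈ b.CA s A) : (∀ j, NX z j) ↔ (b.g A z).2 = 0 :=
  ⟨fun h => (b.g_snd_eq_zero hz.1).2 fun j _ => h j, fun h j => (em (j ∈ A)).elim
    ((b.g_snd_eq_zero hz.1).1 h j) ((b.mem_CA.1 hz).2 j)⟩

theorem Bip.LQ_eq (hF : F.Inv) (h₁ : T₁ ⊆ (ch.re n₁).adm ν₁ κ₁ F) (h₂ : T₂ ⊆ (ch.re n₂).adm ν₂ κ₂ F) :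
    LQ s F T₁ T₂ = b.CA s F.mov ∩ b.g F.mov ⁻¹'
      (fpS πF ((ch.re n₁).solF ν₁ κ₁ F ∩ T₁) ((ch.re n₂).solF ν₂ κ₂ F ∩ T₂) ×ˢ {0}) := by
  rw [LQ, b.ZQ_eq hF h₁ h₂]
  exact Set.ext fun _ => ⟨fun h => have k := (CQ.solF_iff h.1.1.1).1 h.2
    ⟨h.1.1, ⟨⟨k.2.1, h.1.2.1⟩, k.2.2, h.1.2.2⟩, (b.nc_iff h.1.1).1 k.1⟩,
    fun h => ⟨⟨h.1, h.2.1.1.2, h.2.1.2.2⟩,
      (CQ.solF_iff h.1.1).2 ⟨(b.nc_iff h.1).2 h.2.2, h.2.1.1.1, h.2.1.2.1⟩⟩⟩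

theorem Bip.pt₁_st (y : b.WX A ν₁ κ₁ ν₂ κ₂ Λ) : pt₁ (b.st s y) = y.1.1 :=
  congrArg Prod.fst b.pt2_st

theorem Bip.pt₂_st (y : b.WX A ν₁ κ₁ ν₂ κ₂ Λ) : pt₂ (b.st s y) = fp₂ πF y.1 :=
  fp₂_pt2.symm.trans (congrArg _ b.pt2_st)

theorem Bip.μ_adm (hN : ch.QN n₁ n₂) (hF : F.Inv) {y : b.WX F.mov ν₁ κ₁ ν₂ κ₂ Λ}
    (h : y.1 ∈ fpS πF ((ch.re n₁).adm ν₁ κ₁ F) ((ch.re n₂).adm ν₂ κ₂ F)) :
    b.μ s y ∈ ch.adm ν κ F :=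
  have k := b.mem_CA.1 (b.st_mem (s := s) hN (show y ∈ b.BA _ from ⟨h.1.1.2.1, h.2.1.2.1⟩))
  (CQ.adm_iff k.1 hF).2 ⟨k.2, mem_of_eq_of_mem (b.pt₁_st y) h.1, mem_of_eq_of_mem (b.pt₂_st y) h.2⟩

theorem Bip.μ_solF (hN : ch.QN n₁ n₂) {y : b.WX A ν₁ κ₁ ν₂ κ₂ Λ} (h : y ∈ b.BA A) :
    b.μ s y ∈ ch.solF ν κ F ↔
      y ∈ fpS πF ((ch.re n₁).solF ν₁ κ₁ F) ((ch.re n₂).solF ν₂ κ₂ F) ×ˢ {0} := by
  have k := b.st_mem (s := s) hN h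
  refine (CQ.solF_iff k.1).trans ?_
  rw [b.nc_iff k, b.g_st, b.pt₁_st, b.pt₂_st]
  exact and_comm

end Vale.Agent.P269.Ch
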