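import Vale.Agent.P269.Glu.GC
import Vale.Agent.P269.Glu.GlB
import Vale.Agent.P269.Spl.GBh
import Vale.Agent.P269.Spl.GBp
import Vale.Agent.P269.Spl.GBu
import Vale.Agent.P269.Spl.GBa

set_option linter.unusedSectionVars false

/-!
# Labels and oriented nodes
-/

namespace Vale.Agent.P269.Ch

open P291Z Set Function Topology Filter Module Holo Base Cv KD

variable {S Λ R J K ι ν κ κ' : Type} [Fintype S] [Fintype Λ] [Fintype R] [Fintype J]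
  [Fintype K] [Fintype ι] [DecidableEq ι] [Fintype ν] [Fintype κ] [Fintype κ']
  {ch : Ch ι J} {n : Nm ι J} {F : Fam S Λ R J K} {e : K → ι → ℕ} {K₀ : Set K} {ℓ : R → ι → ℤ}
  {Wg : Wt S Λ R J} {A : Set J} {x : ch.WF ν κ Λ} {w w' : ch.Lb n (Mk ν (κ ⊕ κ'))}
  {m : AM Λ R J ν κ} {B : ι → LB m.R} {π : m.X → V ch.M} {u s} {v v' : κ' × Bool → m.X}
  {T : Set ((ch.re n).WF ν (κ ⊕ κ') Λ)}

namespace GPts

/-- proportional presentations have the same branches -/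
theorem fac_equiv {X X' : Type} [TopologicalSpace X] [T2Space X] [CompactSpace X]
    [TopologicalSpace X'] [T2Space X'] [CompactSpace X'] {Q : RS X} {Q' : RS X'}
    {N : Finset (X × X)} {N' : Finset (X' × X')} {A : ι → LB Q} {A' : ι → LB Q'} {M : ι → ℕ}
    {o : ι} {C C' : Set (V M)} {π : X → V M} {π' : X' → V M} (h : Par o C N A π)
    (h' : Par o C' N' A' π') {f : X → X'} (hf : LIso Q Q' f) {c : X → ι → ℂ}
    (e : ∀ y, π' (f y) = c y • π y) (h0 : ∀ y i, c y i ≠ 0) (y : X) :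
    Nrm.Fac (br A' π' (f y)) (br A π y) := by
  refine GBu.fac_iso hf e h0 (fun i z => ?_) y
  obtain ⟨j, a⟩ := ne_iff.1 (h.ne z i)
  refine ((hf.pb_mem (h'.sec i j).1 z).div ((h.sec i j).1 z) a).congr
    ((((h.sec i j).1 z).ev_ne a).mono fun z hz => ?_)
  rw [Pi.div_apply, e]
  exact mul_div_cancel_right₀ _ hz

theorem isBranch_act {ν' : Type} [Fintype ν'] {y : ch.W ν'} {a : ch.A ν'} (ha : IsUnit a) {o : ι}
    {γ : ℂ → V ch.M} (h : IsBranch o (crv y) γ) :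
    IsBranch o (crv (act a y)) fun z i => a.1 i (γ z i) := by
  obtain ⟨g, rfl⟩ := ha
  rw [crv_actU]
  exact h.map (g := gU g)

theorem brs_actHL {x : ch.W (Mk ν κ)} (h : Gl x w) {γ : κ' → Bool → ℂ → V ch.M} (b : Brs w γ)
    {a : (ch.re n).A κ'} (ha : IsUnit a) : Brs (actHL a w) γ := fun q c => by
  obtain ⟨δ, b1, b2, b3⟩ := b q c
  obtain ⟨a1, -, a3⟩ := Cv.isUnit_iff.1 ha
  have k : ∀ t, apV (actHL a w).2.1 (a.2.2 q • fun i => a.1 i (δ t i)) =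
      a.2.2 q • apV w.2.1 (δ t) := fun t => (P269.apV_smul _ _ _).trans
    (congrArg _ (funext fun i => congrArg (w.2.1 i) (inv_ap (a1 i) _)))
  refine ⟨fun t => a.2.2 q • fun i => a.1 i (δ t i),
    (isBranch_act (ch := ch.re n) (isUnit_dup (isUnit_ιH ha)) b1).const_smul
      (h.actHL ha).mem'.2.2.1.cone (a3 q),
    congrArg (fun y : V (ch.re n).M => a.2.2 q • fun i => a.1 i (y i)) b2, ?_⟩
  simp only [k]
  exact (GBp.fac_smul _ (a3 q)).symm.trans b3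

theorem eq_inr {a : ch.AG n ν κ κ' S} (h1 : a.1 = 1) (z : ch.WG n ν κ κ' Λ) :
    actG Wg a z = actH a.2 z := by
  obtain ⟨a₁, a₂⟩ := a
  obtain rfl : a₁ = 1 := h1
  exact actG_one Wg a₂ z

theorem finite_nds (m : AM Λ R J ν κ) : {v : κ' × Bool → m.X | m.Nds v}.Finite :=
  (Set.Finite.pi' fun _ => (m.N.finite_toSet.image Prod.fst).union
    (m.N.finite_toSet.image Prod.snd)).subset fun _ hv a => by_contra fun k =>
      hv.not_sm a fun q hq => ⟨fun b => k (.inl ⟨q, hq, b⟩), fun b => k (.inr ⟨q, hq, b⟩)⟩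

theorem Zf_mono {T' : Set ((ch.re n).WF ν (κ ⊕ κ') Λ)} (h : T ⊆ T') :
    (Zf F T : Set (ch.WG n ν κ κ' Λ)) ⊆ Zf F T' := fun _ a => ⟨⟨a.1.1, h a.1.2.1, a.1.2.2⟩, a.2⟩

theorem mt_sc {z : ch.WG n ν κ κ' Λ} (hT : T ⊆ (ch.re n).adm ν _ F) (hz : z ∈ Zf F T) :
    ∀ j ∈ F.movᶜ, Mt z.1.2 z.2 j ∧ Sc z.2.1 j := fun j hj => ⟨hz.1.2.2 j hj, (hT hz.1.2.1).2.1 j hj⟩

end GPts

open GPts

/-- a label determines oriented nodes -/
theorem Gl.exists_lbl (h : Gl x.2 w) (r : RepD ℓ A x m B π u s) :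
    ∃ v, m.Nds v ∧ Lbl B π w v := by
  obtain ⟨c, A₁, π₁, u₁, ξ, ξ', a⟩ := h.exists_gd
  obtain ⟨f, t, hf, jn, b, t0, tm⟩ := a.cr.par.exists_iso r.cr.par
  refine ⟨fun q => f (c.p (nq q.1 q.2)), ⟨f.injective.comp AC.nds_glue.inj,
    fun q => (jn _ _).1 (AC.nds_glue.jn q)⟩, fun q k => ⟨_, a.cr'.par.isBranch (c.p (nq q k)),
      (br_zero _).trans (a.mark _), ?_⟩⟩
  rw [← GBp.br_apV]
  exact (GBu.fac_iso hf b t0 (fun i => (tm i).1) _).symm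

theorem Lbl.unique (h : Gl x.2 w) (r : RepD ℓ A x m B π u s) (b : Lbl B π w v) (b' : Lbl B π w v') :
    v = v' := by
  obtain ⟨c, A₁, π₁, u₁, ξ, ξ', a⟩ := h.exists_gd
  exact funext fun q => r.cr.par.dc_uniq (a.fac b q.1 q.2).symm (a.fac b' q.1 q.2).symm

/-- the normalised point represents the cut map -/
theorem Lbl.rep (hl : ch.Lat Wg ℓ) (hn : ch.GN n κ') (h : Gl x.2 w) (r : RepD ℓ A x m B π u s)
    (hv : m.Nds v) (b : Lbl B π w v) (hA : ∀ j ∈ A, Mt x.2 w j ∧ Sc w.1 j) :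
    Rep ℓ A (μL x w) (m.cut hv) := by
  obtain ⟨m', r'⟩ := hl.re.exists_rep (A := A) (x := μL x w)
    ((h.baseF_iff hn).1 (r.mem_baseF.2 (mem_univ _))) fun j hj => (hA j hj).2
  obtain ⟨B', π', u', s', d⟩ := r'.exists_data h.mem'
  have d₂ := h.repD d fun j hj => (hA j hj).1
  obtain ⟨f, c, a1, a2, a⟩ := r.isoD hl.wd d₂
  refine r'.of_isoD h.mem' hl.re (AM.IsoD.of_glue (m := m.cut hv) (e := f)
    ⟨a.liso, a.unit, fun y z => (AC.jn_cut_glue hv).trans (a.node y z),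
      fun q => (congrArg f (congrFun (AC.cut_glue_p hv) q)).trans (a.mark q),
      fun i => (H0_congr fun _ _ => AC.jn_cut_glue hv).ge (a.mem i), a.ne, a.mt, a.l, a.y⟩
    fun q k => d₂.cr.par.dc_uniq (fac_equiv r.cr.par d₂.cr.par a.liso a1 a2 _)
      ((h.brs_iff d).1 b q k))

theorem Lbl.act (h : Gl x.2 w) (b : Lbl B π w v) {a : ch.AG n ν κ κ' S} (ha : IsUnit a)
    (h1 : a.1 = 1) : Lbl B π (actG Wg a (x, w)).2 v := by
  rw [eq_inr h1]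
  exact brs_actHL h b (AP.isUnit_iff.1 ha).2

/-- labels with the same nodes lie in the same orbit -/
theorem Lbl.orbit (hn : ch.GN n κ') (hT : T ⊆ (ch.re n).adm ν _ F) (hz : (x, w) ∈ Zf F T)
    (hz' : (x, w') ∈ Zf F T) (b : Lbl B π w v) (b' : Lbl B π w' v) :
    ∃ a : ch.AG n ν κ κ' S, IsUnit a ∧ a.1 = 1 ∧ actG F.toWt a (x, w) = (x, w') := by
  obtain ⟨a, a1, a2, a3⟩ := Gl.exists_unit ⟨hn.cuts, hn.tight.1, hn.tight'.1⟩ hz.1.1 hz'.1.1 b b'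
  refine ⟨GBa.inr S a, GBa.unit a1, rfl, (actG_one _ _ _).trans (Prod.ext rfl ?_)⟩
  refine Eq.trans ?_ a2
  refine congrArg (actHL a w).setX (a₁ := (actHL a w).1.X) (funext fun j => ?_)
  by_cases hj : j ∈ F.mov
  · refine Eq.trans (ContinuousLinearMap.ext fun μ => ?_) (hz'.2 j hj).symm
    exact (congrArg (a.2.1 (some j)) (DFunLike.congr_fun (hz.2 j hj) _)).trans (map_zero _)
  · exact a3 j (mt_sc hT hz j hj).1 (mt_sc hT hz' j hj).1 (mt_sc hT hz j hj).2 (mt_sc hT hz' j hj).2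

/-- labels exist -/
theorem RepD.exists_lbl (hF : F.Inv) (hl : ch.Lat F.toWt ℓ) (hn : ch.GN n κ')
    (hx : x ∈ ch.adm ν κ F) (r : RepD ℓ A x m B π u s) (hv : m.Nds v) (lab : Lab κ' n x.2) :
    ∃ w : ch.Lb n (Mk ν (κ ⊕ κ')), (x, w) ∈ Zf F ((ch.re n).adm ν _ F) ∧ Lbl B π w v := by
  classical
  obtain ⟨w₀, h₀, b, -⟩ := lab (fun q k => br B π (v (q, k))) (fun q =>
    r.cr.par.dc_cross (hv.jn q) (dc_refl _) (dc_refl _) ((br_zero _).trans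
      ((r.cr.par.π_eq (.inr (hv.jn q))).symm.trans (br_zero _).symm)))
    fun _ _ k => r.dc_inj hv ((dc_orb (dc_refl _)).trans (k.trans (dc_orb (dc_refl _)).symm))
  let w : ch.Lb n (Mk ν (κ ⊕ κ')) := w₀.setX fun j => if j ∈ F.mov then 0 else lf1 x.2 w₀ j
  have h : Gl x.2 w := h₀.setX x.2.X _
  have a : ∀ j ∉ F.mov, Mt x.2 w j ∧ Sc w.1 j := fun j hj =>
    h.mt_sc hn.cuts (hx.2.1 j hj) (if_neg hj)
  obtain ⟨m', r'⟩ := hl.re.exists_rep (A := F.movᶜ) (x := μL x w) ((h.baseF_iff hn).1 hx.1)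
    fun j hj => (a j hj).2
  exact ⟨w, ⟨⟨h, (h.mem_adm_iff hF hl (fun j hj => (a j hj).1) r').1 hx, fun j hj => (a j hj).1⟩,
    fun j hj => if_pos hj⟩, b⟩

/-- **counting labels** -/
theorem cnt_locP (hF : F.Inv) (hl : ch.Lat F.toWt ℓ) (hn : ch.GN n κ')
    {Q : AM Λ R J ν (κ ⊕ κ') → Prop} (hQ : AM.IvtA F.toWt F.movᶜ Q) (hx : x ∈ ch.adm ν κ F)
    (r : Rep ℓ F.movᶜ x m) (lab : Lab κ' n x.2) {N : ℕ}
    (hN : Nat.card {v : κ' × Bool → m.X // ∃ h : m.Nds v, Q (m.cut h)} = N) :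
    CntL F.toWt (Zf F ((ch.re n).locP F ℓ Q) : Set (ch.WG n ν κ κ' Λ)) N x := by
  obtain ⟨B, π, u, s, d⟩ := r.exists_data hx.1.2.1
  have : Finite {v : κ' × Bool → m.X // ∃ h : m.Nds v, Q (m.cut h)} :=
    ((finite_nds m).subset (t := {v | ∃ h : m.Nds v, Q (m.cut h)}) fun _ a => a.1).to_subtype
  let f := Finite.equivFinOfCardEq hN
  choose w w1 w2 using fun v : {v : κ' × Bool → m.X // ∃ h : m.Nds v, Q (m.cut h)} =>
    d.exists_lbl hF hl hn hx v.2.1 lab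
  refine ⟨fun i => (x, w (f.symm i)), fun i => ⟨⟨⟨(w1 _).1.1, ⟨(w1 _).1.2.1, _,
    (w2 _).rep hl hn (w1 _).1.1 d (f.symm i).2.1 (mt_sc Subset.rfl (w1 _)), (f.symm i).2.2⟩,
    (w1 _).1.2.2⟩, (w1 _).2⟩, rfl⟩, fun i j a ha h1 k => f.symm.injective (Subtype.ext ?_), ?_⟩
  · have := (w2 (f.symm i)).act (Wg := F.toWt) (w1 _).1.1 ha h1
    rw [k] at this
    exact Lbl.unique (w1 _).1.1 d this (w2 _)
  · rintro ⟨x, w'⟩ hy rfl
    have hy' := Zf_mono (fun _ a => a.1) hy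
    obtain ⟨v, hv, b⟩ := hy.1.1.exists_lbl d
    have q : Q (m.cut hv) := (mem_locP hl.re.wd hQ hy'.1.2.1
      (b.rep hl hn hy.1.1 d hv (mt_sc Subset.rfl hy'))).1 hy.1.2.1
    refine ⟨f ⟨v, hv, q⟩, ?_⟩
    simp only [Equiv.symm_apply_apply]
    exact b.orbit hn Subset.rfl hy' (w1 _) (w2 ⟨v, hv, q⟩)

/-- the lift of a labelled solution represents the cut map -/
theorem Lbl.rep_lf (hl : ch.Lat F.toWt ℓ) (hn : ch.GN n κ') (hT : Lev F T) (hz : (x, w) ∈ ZL F T)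
    (r : RepD ℓ univ x m B π u s) (hv : m.Nds v) (b : Lbl B π w v) :
    Rep ℓ univ (lf F (x, w)) (m.cut hv) := by
  have e := add_ι₂ (F := F) (z := (x, w)) (lfX F.mov x.2 w)
  have k := mem_of_eq_of_mem e.symm (ZL.lf hn hT hz)
  refine (congrArg (fun z => Rep ℓ univ (μG z) (m.cut hv)) e).mpr ?_
  exact Lbl.rep hl hn k.1.1 r hv b fun j _ =>
    ⟨ZD.mt k j, fun c hc => ((mem_solF.1 k.2.2.1).2 c hc).1 j⟩

end Vale.Agent.P269.Ch
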